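import Crest.Agent.X212.Eqv71.Wrd

/-! Naturality of the terms and of `wpt`. -/

set_option autoImplicit false
set_option linter.unusedSectionVars false

open scoped Manifold ContDiff Topology InnerProductSpace
open Finset Filter MeasureTheory

noncomputable section
namespace Crest.Agent.X212.Eqv71
open An Wz78 Sob92 Mp86
open Wrd81 (wd)

variable {E : Type} [NormedAddCommGroup E] [NormedSpace ℝ E] [FiniteDimensional ℝ E]
  [MeasurableSpace E] [BorelSpace E]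
  {HM : Type} [TopologicalSpace HM] {I : ModelWithCorners ℝ E HM} [I.Boundaryless]
  {M : Type} [TopologicalSpace M] [ChartedSpace HM M] [IsManifold I ∞ M]
  [MeasurableSpace M] [BorelSpace M] [T2Space M] {ι : Type} [Fintype ι] {lam : Type} [Fintype lam]
  {E' : Type} [NormedAddCommGroup E'] [NormedSpace ℝ E'] [FiniteDimensional ℝ E']
  [MeasurableSpace E'] [BorelSpace E']
  {HM' : Type} [TopologicalSpace HM'] {I' : ModelWithCorners ℝ E' HM'} [I'.Boundaryless]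
  {M' : Type} [TopologicalSpace M'] [ChartedSpace HM' M'] [IsManifold I' ∞ M']
  [MeasurableSpace M'] [BorelSpace M'] [T2Space M'] {ι' : Type} [Fintype ι'] {lam' : Type}
  [Fintype lam']
  {B : Base M ι lam} {G : Geo I M ι lam} {B' : Base M' ι' lam'} {G' : Geo I' M' ι' lam'}
  {O : Set M} {O' : Set M'} {φ : M → M'} {ψ : M' → M}
  {U : M → ι' → ι → ℝ} {v : M → CL (Eu lam) (Eu lam')} {x : M}
  {r n : ℕ} {c : Cfg M ι lam r} {c' : Cfg M' ι' lam' r} {u : M → CL c.m.V c'.m.V} {ζ : Circle}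

/-- the intertwiner with the phase -/
abbrev uz (u : M → CL c.m.V c'.m.V) (ζ : Circle) : M → CL c.m.V c'.m.V :=
  fun x => csL c'.m.J ζ ∘L u x

theorem circ_sq (ζ : Circle) : (ζ : ℂ) ^ 2 * (starRingEnd ℂ ζ * starRingEnd ℂ ζ) = 1 := by
  have : (ζ : ℂ) * starRingEnd ℂ ζ = 1 := by rw [Complex.mul_conj, Circle.normSq_coe]; rfl
  linear_combination ((ζ : ℂ) * starRingEnd ℂ ζ + 1) * this

namespace CR
variable (k : CR B G B' G' O O' φ U v c c' u ζ) (g : KC B G B' G' O O' φ ψ U v)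
include k g

theorem lm : LM B G B' G' O φ U v c.W c'.W u := g.toLG.of_ceq k.adm k.adm' k.e

theorem lz : LM B G B' G' O φ U (fun x => csL B'.il (ζ * ζ : Circle) ∘L v x) c.W c'.W (uz u ζ) :=
  (k.lm g).phase ζ

theorem rv : RV O O' φ (uz u ζ) c.Φ c'.Φ := ⟨k.e.Φ, fun x _ => p_Φ k.adm x, k.off, k.off'⟩

theorem sw {w : SW M} {w' : SW M'} (hw : SWR O φ w w') (ok' : w'.OK G'.F) :
    RV O O' φ (uz u ζ) (c.sw G.F w) (c'.sw G'.F w') := sw_rel g (k.lz g) (k.rv g) hw ok'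

theorem aw {ξ : AW M} {ξ' : AW M'} (hξ : AWR O φ ξ ξ') (ok : ξ.OK G.F) (ok' : ξ'.OK G'.F) :
    RA G.F G'.F O O' φ (uz u ζ) (c.aw G.F ξ) (c'.aw G'.F ξ') :=
  aw_rel g (k.lz g) k.ex k.ex' (k.rv g) hξ ok ok'

theorem j {s : M → Eu lam} {s' : M' → Eu lam'} (hs : SR O φ v s s') (hx : x ∈ O) (a : c.m.V) :
    c'.m.j (φ x) (s' (φ x)) (uz u ζ x a)
      = cs c'.m.J (starRingEnd ℂ ζ * starRingEnd ℂ ζ) (uz u ζ x (c.m.j x (s x) a)) := by
  have b := g.be x hx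
  have h1 : c'.m.j (φ x) (s' (φ x)) = c'.m.j (φ x) (v x (s x)) := by
    rw [← k.adm'.ok.jl, ← b.vv', ContinuousLinearMap.comp_apply, hs x hx,
      ← ContinuousLinearMap.comp_apply (v x) (trn (v x)), b.vv', k.adm'.ok.jl]
  have h2 : (ζ : ℂ) * starRingEnd ℂ ζ = 1 := by rw [Complex.mul_conj, Circle.normSq_coe]; rfl
  simp only [ContinuousLinearMap.comp_apply, csL_apply]
  rw [h1, ME.cs_j k.adm'.ok, ((k.lm g).me x hx).j_apply, cs_mul k.adm'.ok.Jsq, mul_assoc,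
    mul_comm _ (ζ : ℂ), h2, mul_one]

theorem sg {a : Sg M lam} {a' : Sg M' lam'} (ha : SgR O φ v a a') (ok' : a'.OK G'.F) :
    c'.sg G'.F a' = (ζ : ℂ) ^ 2 * c.sg G.F a := by
  have k1 := k.sw g ha.u ok'.2.2.1
  have k2 := k.sw g ha.v ok'.2.2.2
  rw [Cfg.sg, Cfg.sg, ← integral_const_mul]
  refine g.toKG.integral_off (fun x hx => ?_) (fun x hx => ?_) fun y hy => ?_
  · rw [k1.rel x hx, k2.rel x hx, k.j g ha.s hx, hm_cs_left k.adm'.ok.Jsq k.adm'.ok.Jsk,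
      ((k.lz g).me x hx).hm k.adm.ok _ (k2.p x hx), map_mul, Complex.conj_conj, sq]
  · rw [k2.off x hx]; simp [hm, Complex.ext_iff]
  · rw [k2.off' y hy]; simp [hm, Complex.ext_iff]

theorem co {d : Co M lam r} {d' : Co M' lam' r} (hd : CoR O φ v d d') (ok' : d'.OK G'.F) :
    c'.co G'.F d' = (ζ : ℂ) ^ 2 * c.co G.F d := by
  cases hd with
  | z i => simp only [Cfg.co, k.e.z, PiLp.smul_apply, smul_eq_mul]
  | @s a a' L L' ha hL =>
    have hn : ∀ a a', SgR O φ v a a' → True → Sg.OK G'.F a' →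
        ‖c'.sg G'.F a'‖ ^ 2 = ‖c.sg G.F a‖ ^ 2 := fun a a' h _ o => by
      rw [k.sg g h o, norm_mul, norm_pow, Circle.norm_coe, one_pow, one_mul]
    simp only [Cfg.co]
    rw [hn a a' ha trivial ok'.1, map_eq₂ hn hL (fun _ _ => trivial) ok'.2, k.sg g ha ok'.1,
      mul_div_assoc]

/-- the weight zero spinors `d • j s w` -/
theorem cjw {d : Co M lam r} {d' : Co M' lam' r} (hd : CoR O φ v d d') (okd : d'.OK G'.F)
    {s : M → Eu lam} {s' : M' → Eu lam'} (hs : SR O φ v s s') {w : SW M} {w' : SW M'}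
    (hw : SWR O φ w w') (ok' : w'.OK G'.F) : RV O O' φ (uz u ζ)
      (fun x => cs c.m.J (c.co G.F d) (c.m.j x (s x) (c.sw G.F w x)))
      fun y => cs c'.m.J (c'.co G'.F d') (c'.m.j y (s' y) (c'.sw G'.F w' y)) := by
  have k1 := k.sw g hw ok'
  refine ⟨fun x hx => ?_, fun x _ => ?_, fun x hx => by simp [k1.off x hx, cs],
    fun x hx => by simp [k1.off' x hx, cs]⟩
  · rw [k1.rel x hx, k.j g hs hx, k.co g hd okd, cs_mul k.adm'.ok.Jsq, mul_right_comm, circ_sq,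
      one_mul, ((k.lz g).me x hx).cs]
  · rw [map_cs (k.adm.ok.Jp x).symm, ← mul_apply_eq_comp, k.adm.ok.pj]

theorem qj {d : Co M lam r} {d' : Co M' lam' r} (hd : CoR O φ v d d') (okd : d'.OK G'.F)
    {s : M → Eu lam} {s' : M' → Eu lam'} (hs : SR O φ v s s') {a b : SW M} {a' b' : SW M'}
    (ha : SWR O φ a a') (oka : a'.OK G'.F) (hb : SWR O φ b b') (okb : b'.OK G'.F) :
    RA G.F G'.F O O' φ (uz u ζ) (c.qj G.F d s a b) (c'.qj G'.F d' s' a' b') :=
  RA.q (k.lz g) (k.cjw g hd okd hs ha oka) (k.sw g hb okb)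

theorem pm {s : M → c.m.V} {s' : M' → c'.m.V} (h : RV O O' φ (uz u ζ) s s') (hx : x ∈ O) :
    c'.m.pm B' (φ x) (s' (φ x)) = cs c'.m.J ζ (u x (c.m.pm B x (s x))) := by
  rw [h.rel x hx]
  exact ((k.lz g).me x hx).pm ((k.lz g).be x hx) g.hB g.hB' k.adm.ok _

/-- the self-dual forms `w ⊗ ξ` -/
theorem p2 {s : M → c.m.A} {s' : M' → c'.m.A} (h : RA G.F G'.F O O' φ (uz u ζ) s s') (hx : x ∈ O)
    {w : ι × ι → ℝ} {w' : ι' × ι' → ℝ} (hw : ∀ t, w' t = ∑ s, sq2 (U x) t s * w s) :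
    c'.m.p2 B' (φ x) (WithLp.toLp 2 fun t => w' t • s' (φ x))
      = ridx (sq2 (U x)) (cj (u x)) (c.m.p2 B x (WithLp.toLp 2 fun t => w t • s x)) := by
  rw [h.rel x hx, toLp_rel _ _ hw,
    ((k.lz g).me x hx).p2 ((k.lz g).be x hx) g.hB g.hB' k.adm.ok k.adm'.ok]
  exact ridx_congr _ fun t => cj_phase ((k.lm g).me x hx) k.adm.ok k.adm'.ok ζ (p2_mem x _ t)

variable {t : Tm M lam r n} {t' : Tm M' lam' r n} (ht : TmR O φ v t t') (ok : t.OK G.F)
  (ok' : t'.OK G'.F)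
include ht ok ok'

theorem tD (hx : x ∈ O) : c'.tD B' G'.F t' (φ x) = cs c'.m.J ζ (u x (c.tD B G.F t x)) := by
  cases ht with
  | lin ha => exact k.pm g (k.sw g ha ok') hx
  | anti hd hs ha => exact k.pm g (k.cjw g hd ok'.1 hs ha ok'.2.2) hx
  | _ => simp [Cfg.tD, cs]

theorem tC (hx : x ∈ O) :
    c'.tC B' G'.F t' (φ x) = ridx (sq2 (U x)) (cj (u x)) (c.tC B G.F t x) := by
  cases ht with
  | ad ha hb hξ =>
    exact k.p2 g (k.aw g hξ ok.2.2 ok'.2.2) hx (g.toLG.DD hx ha hb ok'.1.1 ok'.2.1.1)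
  | adj hd hs ha hb h1 h2 hl =>
    exact k.p2 g (la_rel g (k.lz g) k.ex k.ex' (k.qj g hd ok'.1 hs h1 ok'.2.2.2.2.1 h2
      ok'.2.2.2.2.2.1) hl ok.2.2.2.2.2.2 ok'.2.2.2.2.2.2) hx
      (g.toLG.DD hx ha hb ok'.2.2.1.1 ok'.2.2.2.1.1)
  | @adn f f' a a' b b' L L' χ hf ha hb hL =>
    have k1 := aws_rel g (k.lz g) k.ex k.ex' (k.rv g) hL ok.2.2.2.2.2 ok'.2.2.2.2.2
    refine k.p2 g k1 hx fun t => ?_
    have h2 : f' (φ x) = f x := hf hx
    rw [k1.norm (k.lz g) hx, h2, mul_assoc (f x), g.toLG.DD hx ha hb ok'.2.1.1 ok'.2.2.1.1, mul_sum,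
      sum_mul]
    exact sum_congr rfl fun s _ => by ring
  | _ => exact (map_zero _).symm

theorem tS (i : Fin n) : c'.tS G'.F t' i = (ζ : ℂ) ^ 2 * c.tS G.F t i := by
  have key : ∀ (j : Fin n) (a b : ℂ), b = (ζ : ℂ) ^ 2 * a →
      (Pi.single j b : Fin n → ℂ) i = (ζ : ℂ) ^ 2 * (Pi.single j a : Fin n → ℂ) i := by
    rintro j a b rfl
    by_cases h : i = j
    · subst h; simp
    · simp [h]
  cases ht with
  | cut j w ha => exact key j _ _ (by rw [k.sg g ha ok']; ring)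
  | cz j w l => exact key j _ _ (by simp only [k.e.z, PiLp.smul_apply, smul_eq_mul]; ring)
  | _ => exact (mul_zero _).symm

end CR

/-- **related terms give related perturbations** -/
theorem wpt_rel (g : KC B G B' G' O O' φ ψ U v) {K : Type} [Fintype K] {T : K → Tm M lam r n}
    {T' : K → Tm M' lam' r n} (hT : ∀ i, TmR O φ v (T i) (T' i)) (ok : ∀ i, (T i).OK G.F)
    (ok' : ∀ i, (T' i).OK G'.F) (w : K → ℝ) :
    PRel B G B' G' O O' φ U v (wpt B G.F T w) (wpt B' G'.F T' w) where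
  D k x hx := by
    simp only [wpt, fun i => k.tD g (hT i) (ok i) (ok' i) hx, ← csL_apply, map_sum, map_smul]
  C k x hx := by simp only [wpt, fun i => k.tC g (hT i) (ok i) (ok' i) hx, map_sum, map_smul]
  S k j := by
    simp only [wpt, fun i => k.tS g (hT i) (ok i) (ok' i) j, mul_sum]
    exact sum_congr rfl fun _ _ => by ring

theorem trn_l (hB : B.OK I) (x : M) (a : Eu lam) : trn (B.l x) (B.l x a) = trn (B.l x) a := by
  rw [trn_of_sym (hB.lsym x), ← mul_apply_eq_comp, hB.lidem]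

/-- **`wpt` is natural** -/
theorem wpt_nat (hB : B.OK I) (hG : G.OK B) (hO : IsClopen O) (hb : Bumps I G.F.e G.F.dv)
    {K : Type} [Fintype K] {T : K → Tm M lam r n} (ok : ∀ i, (T i).OK G.F) (w : K → ℝ) :
    PNat B G O (wpt B G.F T w) :=
  wpt_rel (kc_refl hB hG hO hb) (fun i => tmR_refl O (trn_l hB) (T i)) ok ok w

end Crest.Agent.X212.Eqv71
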