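import Crest.Agent.X212.Eqv71.Cfg

/-! Naturality of the resolvent over clopen sets, for any pair of bundles with intertwiners. -/

set_option autoImplicit false
set_option linter.unusedSectionVars false

open scoped Manifold ContDiff Topology InnerProductSpace
open Finset Filter MeasureTheory

noncomputable section
namespace Crest.Agent.X212.Eqv71
open An Wz78 Sob92 Mp86

variable {E : Type} [NormedAddCommGroup E] [NormedSpace ℝ E] [FiniteDimensional ℝ E]
  [MeasurableSpace E] [BorelSpace E]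
  {HM : Type} [TopologicalSpace HM] {I : ModelWithCorners ℝ E HM} [I.Boundaryless]
  {M : Type} [TopologicalSpace M] [ChartedSpace HM M] [IsManifold I ∞ M]
  [MeasurableSpace M] [BorelSpace M] [T2Space M] {ι : Type} [Fintype ι] {lam : Type} [Fintype lam]
  {E' : Type} [NormedAddCommGroup E'] [NormedSpace ℝ E'] [FiniteDimensional ℝ E']
  [MeasurableSpace E'] [BorelSpace E']
  {HM' : Type} [TopologicalSpace HM'] {I' : ModelWithCorners ℝ E' HM'} [I'.Boundaryless]
  {M' : Type} [TopologicalSpace M'] [ChartedSpace HM' M'] [IsManifold I' ∞ M']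
  [MeasurableSpace M'] [BorelSpace M'] [T2Space M'] {ι' : Type} [Fintype ι'] {lam' : Type}
  [Fintype lam']
  {B : Base M ι lam} {G : Geo I M ι lam} {B' : Base M' ι' lam'} {G' : Geo I' M' ι' lam'}
  {O : Set M} {O' : Set M'} {φ : M → M'} {ψ : M' → M}
  {U : M → ι' → ι → ℝ} {v : M → CL (Eu lam) (Eu lam')} {x : M}
  {V V' : Type} [NormedAddCommGroup V] [InnerProductSpace ℝ V] [NormedAddCommGroup V']
  [InnerProductSpace ℝ V'] {A : ι → M → V →L[ℝ] V} {A' : ι' → M' → V' →L[ℝ] V'}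
  {T : M → V →L[ℝ] V'} {T' : M' → V' →L[ℝ] V} {s w : M → V} {s' : M' → V'}

section ind
variable {N : Type} [NormedAddCommGroup N] [NormedSpace ℝ N] {f : M → N}

theorem ind_ev (hO : IsOpen O) (hx : x ∈ O) (f : M → N) : O.indicator f =ᶠ[𝓝 x] f :=
  mem_of_superset (hO.mem_nhds hx) fun _ hy => Set.indicator_of_mem hy f

theorem ind_ev0 (hO : IsClosed O) (hx : x ∉ O) (f : M → N) : O.indicator f =ᶠ[𝓝 x] 0 :=
  mem_of_superset (hO.isOpen_compl.mem_nhds hx) fun _ hy => Set.indicator_of_notMem hy f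

theorem sm_ind (hO : IsClopen O) (hf : ∀ x ∈ O, SA I f x) : Sm I (O.indicator f) := fun x => by
  by_cases hx : x ∈ O
  · exact (hf x hx).congr_of_eventuallyEq (ind_ev hO.2 hx f)
  · exact contMDiffAt_const.congr_of_eventuallyEq (ind_ev0 hO.1 hx f)

theorem D_ind (F : Pre I M ι) (hO : IsClopen O) (a : ι) (f : M → N) :
    F.D a (O.indicator f) = O.indicator (F.D a f) := funext fun x => by
  by_cases hx : x ∈ O
  · rw [Set.indicator_of_mem hx]; exact Sob92.dv_congr (ind_ev hO.2 hx f)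
  · rw [Set.indicator_of_notMem hx, Pre.D_def, Sob92.dv_congr (ind_ev0 hO.1 hx f), dv_zero]; rfl

theorem Cb_ind {F : Pre I M ι} (hO : IsClopen O) (hf : F.Cb f) : F.Cb (O.indicator f) := by
  obtain ⟨C, h1, h2⟩ := hf
  have : ∀ (w : List ι) (f : M → N), F.Dw w (O.indicator f) = O.indicator (F.Dw w f) := fun w => by
    induction w with
    | nil => exact fun _ => rfl
    | cons a w ih => exact fun f => by rw [Pre.Dw, D_ind F hO, ih, Pre.Dw]
  refine ⟨C, sm_ind hO fun x _ => h1 x, fun k w hw x => ?_⟩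
  rw [this]
  exact (norm_indicator_le_norm_self _ _).trans (h2 k w hw x)

end ind

theorem isRes_ind {F : Fr I M ι} (hO : IsClopen O) (h : F.IsRes A s w) :
    F.IsRes A (O.indicator s) (O.indicator w) := by
  obtain ⟨h1, ⟨C, h2⟩, h3⟩ := h
  refine ⟨sm_ind hO fun x _ => h1 x, ⟨C, fun x => (norm_indicator_le_norm_self _ _).trans (h2 x)⟩,
    fun x => ?_⟩
  by_cases hx : x ∈ O
  · rw [lap_congr (ind_ev hO.2 hx w), Set.indicator_of_mem hx, Set.indicator_of_mem hx, h3]
  · rw [lap_congr (ind_ev0 hO.1 hx w), Set.indicator_of_notMem hx, Set.indicator_of_notMem hx,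
      lap_zero, add_zero]

/-- the part of `res s` on a clopen set -/
theorem ind_res {F : Fr I M ι} (hO : IsClopen O) (hB : Bumps I F.e F.dv) (hA : Mc I A)
    (h : F.IsRes A (O.indicator s) w) : O.indicator (F.res A s) = w ∨ F.res A s = 0 :=
  (res_cases F A s).imp (fun k => isRes_unique hB hA (isRes_ind hO k) h) fun k => k.2

/-- sections supported in a clopen set -/
theorem res_off {F : Fr I M ι} (hO : IsClopen O) (hB : Bumps I F.e F.dv) (hA : Mc I A)
    (h : ∀ x ∉ O, s x = 0) (hx : x ∉ O) : F.res A s x = 0 := by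
  have h0 : Oᶜ.indicator s = 0 := funext fun y => Set.indicator_apply_eq_zero.2 (h y)
  rcases ind_res (F := F) (s := s) (w := 0) hO.compl hB hA (by rw [h0]; exact isRes_zero) with k | k
  · exact (Set.indicator_of_mem (show x ∈ Oᶜ from hx) _).symm.trans (congrFun k x)
  · exact congrFun k x

/-- an isometry of clopen sets of backgrounds with the maximum principle -/
structure KC (B : Base M ι lam) (G : Geo I M ι lam) (B' : Base M' ι' lam') (G' : Geo I' M' ι' lam')
    (O : Set M) (O' : Set M') (φ : M → M') (ψ : M' → M) (U : M → ι' → ι → ℝ)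
    (v : M → CL (Eu lam) (Eu lam')) : Prop extends KG B G B' G' O O' φ ψ U v where
  cl : IsClosed O
  cl' : IsClosed O'
  bu : Bumps I G.F.e G.F.dv
  bu' : Bumps I' G'.F.e G'.F.dv

theorem KC.clopen (g : KC B G B' G' O O' φ ψ U v) : IsClopen O := ⟨g.cl, g.rot.opn⟩

theorem KC.clopen' (g : KC B G B' G' O O' φ ψ U v) : IsClopen O' := ⟨g.cl', g.inv.opn'⟩

theorem KC.symm (g : KC B G B' G' O O' φ ψ U v) :
    KC B' G' B G O' O ψ φ (fun y a b => U (ψ y) b a) fun y => trn (v (ψ y)) :=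
  ⟨g.toKG.symm, g.cl', g.cl, g.bu', g.bu⟩

theorem kc_refl (hB : B.OK I) (hG : G.OK B) (hO : IsClopen O) (hb : Bumps I G.F.e G.F.dv) :
    KC B G B G O O id id (fun x b a => B.P b a x) B.l := ⟨kg_refl hB hG hO.2, hO.1, hO.1, hb, hb⟩

/-- a contractive intertwiner over `O` of metric connections -/
structure IT (G : Geo I M ι lam) (B' : Base M' ι' lam') (I' : ModelWithCorners ℝ E' HM')
    (O : Set M) (φ : M → M') (U : M → ι' → ι → ℝ) (A : ι → M → V →L[ℝ] V)
    (A' : ι' → M' → V' →L[ℝ] V') (T : M → V →L[ℝ] V') : Prop where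
  mc : Mc I A
  mc' : Mc I' A'
  pj : ∀ a y, ∑ b, B'.P a b y • A' b y = A' a y
  sT : ∀ x ∈ O, SA I T x
  it : ∀ x ∈ O, Itw I G.F.e A (pb φ (fun b a x => U x b a) A') T x
  nT : ∀ x ∈ O, ∀ a, ‖T x a‖ ≤ ‖a‖

theorem isRes_push (g : KC B G B' G' O O' φ ψ U v) (t : IT G B' I' O φ U A A' T)
    (hs : ∀ x ∈ O, s' (φ x) = T x (s x)) (h : G.F.IsRes A s w) :
    G'.F.IsRes A' (O'.indicator s') (O'.indicator fun y => T (ψ y) (w (ψ y))) := by
  obtain ⟨h1, ⟨C, h2⟩, h3⟩ := h
  have hm : ∀ y ∈ O', SA I' (fun y => T (ψ y) (w (ψ y))) y := fun y hy =>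
    g.inv.sa hy (f := fun x => T x (w x)) ((t.sT _ (g.inv.maps' hy)).app (h1 _))
  refine ⟨sm_ind g.clopen' hm, ⟨max C 0, fun y => ?_⟩, fun y => ?_⟩
  · by_cases hy : y ∈ O'
    · rw [Set.indicator_of_mem hy]
      exact ((t.nT _ (g.inv.maps' hy) _).trans (h2 _)).trans (le_max_left _ _)
    · rw [Set.indicator_of_notMem hy, norm_zero]; exact le_max_right _ _
  by_cases hy : y ∈ O'
  · obtain ⟨x, hx, rfl⟩ := g.inv.surj hy
    rw [lap_congr (ind_ev g.inv.opn' hy _), Set.indicator_of_mem hy, Set.indicator_of_mem hy,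
      g.toLG.lap hx (fun a => t.mc.sm a x) ⟨fun a y => t.mc'.sm a y, t.pj⟩ (t.sT x hx) t.it (h1 x)
        (hm _ hy) ((g.rot.ev hx).mono fun z hz => by rw [g.inv.linv z hz]),
      g.inv.linv x hx, ← map_add, h3, hs x hx]
  · rw [lap_congr (ind_ev0 g.cl' hy _), Set.indicator_of_notMem hy, Set.indicator_of_notMem hy,
      lap_zero, add_zero]

theorem res_push (g : KC B G B' G' O O' φ ψ U v) (t : IT G B' I' O φ U A A' T)
    (hs : ∀ x ∈ O, s' (φ x) = T x (s x)) (h : G.F.IsRes A s w)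
    (h' : ∃ w', G'.F.IsRes A' (O'ᶜ.indicator s') w') :
    (∃ w', G'.F.IsRes A' s' w') ∧ ∀ x ∈ O, G'.F.res A' s' (φ x) = T x (w x) := by
  obtain ⟨w', h'⟩ := h'
  have h1 := isRes_add t.mc'.sm (isRes_push g t hs h) (isRes_ind g.clopen'.compl h')
  have h2 : (fun y => O'.indicator s' y + O'ᶜ.indicator (O'ᶜ.indicator s') y) = s' := by
    rw [Set.indicator_indicator, Set.inter_self]
    exact Set.indicator_self_add_compl O' s'
  rw [h2] at h1
  refine ⟨⟨_, h1⟩, fun x hx => ?_⟩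
  have hy := g.inv.maps hx
  rw [res_eq g.bu' t.mc' h1]
  simp only [Set.indicator_of_mem hy, Set.indicator_of_notMem (Set.notMem_compl_iff.2 hy),
    g.inv.linv x hx, add_zero]

/-- related sections -/
def SRel (O : Set M) (φ : M → M') (T : M → V →L[ℝ] V') (T' : M' → V' →L[ℝ] V) (s : M → V)
    (s' : M' → V') : Prop := ∀ x ∈ O, s' (φ x) = T x (s x) ∧ T' (φ x) (T x (s x)) = s x

/-- **the resolvent is natural** -/
theorem res_rel (g : KC B G B' G' O O' φ ψ U v) (t : IT G B' I' O φ U A A' T)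
    (t' : IT G' B I O' ψ (fun y a b => U (ψ y) b a) A' A T') (hs : SRel O φ T T' s s')
    (h : ∃ w, G.F.IsRes A (Oᶜ.indicator s) w) (h' : ∃ w', G'.F.IsRes A' (O'ᶜ.indicator s') w') :
    SRel O φ T T' (G.F.res A s) (G'.F.res A' s') := by
  have hs' : ∀ y ∈ O', s (ψ y) = T' y (s' y) := fun y hy => by
    obtain ⟨x, hx, rfl⟩ := g.inv.surj hy
    rw [g.inv.linv x hx, (hs x hx).1, (hs x hx).2]
  rcases res_cases G.F A s with k | k
  · obtain ⟨k1, k2⟩ := res_push g t (fun x hx => (hs x hx).1) k h'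
    have k3 := (res_push g.symm t' hs' (res_spec k1) h).2
    refine fun x hx => ⟨k2 x hx, ?_⟩
    rw [← k2 x hx, ← k3 _ (g.inv.maps hx), g.inv.linv x hx]
  · rcases res_cases G'.F A' s' with k' | k'
    · exact absurd (res_push g.symm t' hs' k' h).1 k.1
    · rw [k.2, k'.2]
      exact fun x _ => by simp

theorem ex_off {F : Fr I M ι} (h : ∀ x ∉ O, s x = 0) : ∃ w, F.IsRes A (Oᶜ.indicator s) w :=
  ⟨0, by rw [show Oᶜ.indicator s = 0 from funext fun y => Set.indicator_apply_eq_zero.2 (h y)]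
         exact isRes_zero⟩

theorem norm_le_of_proj {S : V →L[ℝ] V'} {π : V →L[ℝ] V} (h : ∀ a b, ⟪S a, S b⟫_ℝ = ⟪a, π b⟫_ℝ)
    (h' : ∀ a, ⟪π a, π a⟫_ℝ = ⟪a, π a⟫_ℝ) (a : V) : ‖S a‖ ≤ ‖a‖ := by
  have h1 : ‖π a‖ ≤ ‖a‖ := by
    have := (h' a).symm ▸ real_inner_le_norm a (π a)
    rw [real_inner_self_eq_norm_mul_norm] at this
    rcases (norm_nonneg (π a)).eq_or_lt with k | k
    · rw [← k]; exact norm_nonneg _
    · exact le_of_mul_le_mul_right this k
  refine le_of_sq_le_sq ?_ (norm_nonneg _)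
  rw [← real_inner_self_eq_norm_sq, h, sq]
  exact (real_inner_le_norm _ _).trans (by gcongr)

variable {m : Md M ι lam} {m' : Md M' ι' lam'} {u : M → CL m.V m'.V} {W : m.Cn} {W' : m'.Cn}

theorem mc_W (h : m.IsConn B G W) : Mc I W := ⟨fun a x => h.cc.sm a x, fun a x => h.sk a x⟩

theorem mc_adW (h : m.IsConn B G W) : Mc I (m.adW W) :=
  ⟨fun a x => (con_adW h).sm a x, fun a x => adc_skw (h.sk a x)⟩

theorem LM.it (h : LM B G B' G' O φ U v W W' u) : IT G B' I' O φ U W W' u :=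
  ⟨mc_W h.cn, mc_W h.cn', h.cn'.cc.proj, h.su, h.itw, fun x hx =>
    norm_le_of_proj (h.me x hx).inner fun a => by
      rw [h.ok.psym, ← mul_apply_eq_comp, h.ok.pidem]⟩

theorem LM.it_ad (h : LM B G B' G' O φ U v W W' u) :
    IT G B' I' O φ U (m.adW W) (m'.adW W') fun x => cj (u x) :=
  ⟨mc_adW h.cn, mc_adW h.cn', (con_adW h.cn').proj, fun x hx => sa_cj (h.su x hx),
    fun _ hx => h.itw_ad hx, fun x hx =>
    norm_le_of_proj (π := cj (m.p x)) (fun a b => by rw [inner_cj, cj_cj, (h.me x hx).uu])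
      fun a => by rw [inner_cj, cj_cj, (ME.refl h.ok x).uu]⟩

end Crest.Agent.X212.Eqv71
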