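import Crest.Agent.X212.Wz78.Core

/-! Change of frame along a smooth map (rotation `U`): derivatives and Levi-Civita coefficients. -/

set_option autoImplicit false
set_option linter.unusedSectionVars false

open scoped Manifold ContDiff Topology
open Finset Filter

noncomputable section
namespace Crest.Agent.X212.Eqv71
open Sob92 Wz78

section alg
variable {ι ι' : Type*} [Fintype ι] [Fintype ι'] {U : ι' → ι → ℝ} {P : ι → ι → ℝ}

theorem mul_proj (hP : Pr P) (h : ∀ a b, ∑ a', U a' a * U a' b = P a b) (a' : ι') (a : ι) :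
    ∑ b, U a' b * P b a = U a' a := by
  have h0 : ∑ c', (∑ b, U c' b * P b a - U c' a) ^ 2 = 0 := by
    have e1 : ∑ c', (∑ b, U c' b * P b a) * (∑ b, U c' b * P b a) = P a a := by
      simp only [sum_mul_sum]
      rw [sum_comm]
      calc _ = ∑ b, ∑ k, P b k * (P b a * P k a) := sum_congr rfl fun b _ => by
            rw [sum_comm]
            exact sum_congr rfl fun k _ => by
              rw [← h b k, sum_mul]; exact sum_congr rfl fun c' _ => by ring
        _ = ∑ b, P a b * P b a := sum_congr rfl fun b _ => by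
            rw [← hP.idem b a, mul_sum, ]
            exact sum_congr rfl fun k _ => by
              rw [hP.idem b a, hP.symm a b]; ring
        _ = P a a := hP.idem a a
    have e2 : ∑ c', (∑ b, U c' b * P b a) * U c' a = P a a := by
      simp only [sum_mul]
      rw [sum_comm, ← hP.idem a a]
      exact sum_congr rfl fun b _ => by
        rw [hP.symm a b, ← h b a, sum_mul]; exact sum_congr rfl fun c' _ => by rw [h b a]; ring
    have e3 := h a a
    calc _ = ∑ c', (∑ b, U c' b * P b a) * (∑ b, U c' b * P b a)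
          - 2 * ∑ c', (∑ b, U c' b * P b a) * U c' a + ∑ c', U c' a * U c' a := by
          rw [mul_sum, ← sum_sub_distrib, ← sum_add_distrib]
          exact sum_congr rfl fun c' _ => by ring
      _ = 0 := by rw [e1, e2, e3]; ring
  have := (sum_eq_zero_iff_of_nonneg fun c' _ => sq_nonneg _).1 h0 a' (mem_univ _)
  exact sub_eq_zero.1 (pow_eq_zero_iff two_ne_zero |>.1 this)

end alg

variable {E H : Type*} [NormedAddCommGroup E] [NormedSpace ℝ E] [TopologicalSpace H]
  {I : ModelWithCorners ℝ E H} {M : Type*} [TopologicalSpace M] [ChartedSpace H M]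
  {E' H' : Type*} [NormedAddCommGroup E'] [NormedSpace ℝ E'] [TopologicalSpace H']
  {I' : ModelWithCorners ℝ E' H'} {M' : Type*} [TopologicalSpace M'] [ChartedSpace H' M']
  {V V' N : Type*} [NormedAddCommGroup V] [NormedSpace ℝ V] [NormedAddCommGroup V']
  [NormedSpace ℝ V'] [NormedAddCommGroup N] [NormedSpace ℝ N]
  {ι ι' : Type*} [Fintype ι] [Fintype ι'] [IsManifold I 1 M] [IsManifold I' 1 M']

variable (I I') in
/-- On the open set `O` the map `φ` carries the frame `e`, rotated by the partial isometry `U`,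
to the frame `e'`. -/
structure Rot (φ : M → M') (O : Set M) (e : ι → (x : M) → TangentSpace I x) (P : ι → ι → M → ℝ)
    (e' : ι' → (y : M') → TangentSpace I' y) (P' : ι' → ι' → M' → ℝ) (U : ι' → ι → M → ℝ) :
    Prop where
  opn : IsOpen O
  sφ : ∀ x ∈ O, ContMDiffAt I I' ∞ φ x
  sU : ∀ a' a, ∀ x ∈ O, SA I (U a' a) x
  fr : ∀ a', ∀ x ∈ O, e' a' (φ x) = ∑ a, U a' a x • mfderiv I I' φ x (e a x)
  UU : ∀ a b, ∀ x ∈ O, ∑ a', U a' a x * U a' b x = P a b x
  UU' : ∀ a' b', ∀ x ∈ O, ∑ a, U a' a x * U b' a x = P' a' b' (φ x)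

variable {φ : M → M'} {O : Set M} {e : ι → (x : M) → TangentSpace I x} {P : ι → ι → M → ℝ}
  {e' : ι' → (y : M') → TangentSpace I' y} {P' : ι' → ι' → M' → ℝ} {U : ι' → ι → M → ℝ}
  {c Γ : ι → ι → ι → M → ℝ} {c' Γ' : ι' → ι' → ι' → M' → ℝ} {x : M}

theorem dv_comp_map {v : (x : M) → TangentSpace I x} {f : M' → N}
    (hφ : MDifferentiableAt I I' φ x) (hf : MDifferentiableAt I' 𝓘(ℝ, N) f (φ x)) :
    dv I v (fun y => f (φ y)) x = mfderiv I' 𝓘(ℝ, N) f (φ x) (mfderiv I I' φ x (v x)) := by
  unfold dv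
  rw [show (fun y => f (φ y)) = f ∘ φ from rfl, mfderiv_comp x hf hφ]
  rfl

namespace Rot
variable (R : Rot I I' φ O e P e' P' U)
include R

theorem ev (hx : x ∈ O) : ∀ᶠ y in 𝓝 x, y ∈ O := R.opn.mem_nhds hx

theorem md (hx : x ∈ O) : MDifferentiableAt I I' φ x := (R.sφ x hx).mdifferentiableAt (by simp)

theorem sa_comp (hx : x ∈ O) {f : M' → N} (hf : SA I' f (φ x)) : SA I (fun y => f (φ y)) x :=
  hf.comp x (R.sφ x hx)

theorem ev_map (hx : x ∈ O) {p : M' → Prop} (h : ∀ᶠ z in 𝓝 (φ x), p z) : ∀ᶠ y in 𝓝 x, p (φ y) :=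
  (R.sφ x hx).continuousAt.eventually h

theorem UP (F : Frm I e P c) (hx : x ∈ O) (a' : ι') (a : ι) :
    ∑ b, U a' b x * P b a x = U a' a x :=
  mul_proj (U := fun a' a => U a' a x) (F.pr x) (fun a b => R.UU a b x hx) a' a

theorem PU (F' : Frm I' e' P' c') (hx : x ∈ O) (a' : ι') (a : ι) :
    ∑ b', U b' a x * P' b' a' (φ x) = U a' a x :=
  mul_proj (U := fun a a' => U a' a x) (F'.pr (φ x)) (fun a b => R.UU' a b x hx) a a'

/-- derivative upstairs -/
theorem D' (hx : x ∈ O) (a' : ι') {f : M' → N} (hf : MDifferentiableAt I' 𝓘(ℝ, N) f (φ x)) :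
    dv I' (e' a') f (φ x) = ∑ a, U a' a x • dv I (e a) (fun y => f (φ y)) x := by
  simp only [dv_comp_map (R.md hx) hf]
  unfold dv
  rw [R.fr a' x hx, map_sum]
  simp only [map_smul]
  rfl

/-- derivative upstairs of a function known downstairs -/
theorem D'_of (hx : x ∈ O) (a' : ι') {f : M' → N} {g : M → N}
    (hf : MDifferentiableAt I' 𝓘(ℝ, N) f (φ x)) (h : ∀ᶠ y in 𝓝 x, f (φ y) = g y) :
    dv I' (e' a') f (φ x) = ∑ a, U a' a x • dv I (e a) g x := by
  rw [R.D' hx a' hf]
  exact sum_congr rfl fun a _ => by rw [dv_congr (v := g) h]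

/-- derivative downstairs -/
theorem D (F : Frm I e P c) (hx : x ∈ O) (a : ι) {f : M' → N}
    (hf : MDifferentiableAt I' 𝓘(ℝ, N) f (φ x)) :
    dv I (e a) (fun y => f (φ y)) x = ∑ a', U a' a x • dv I' (e' a') f (φ x) := by
  simp only [R.D' hx _ hf, smul_sum, smul_smul]
  rw [sum_comm, ← F.projD a]
  exact sum_congr rfl fun b _ => by rw [← sum_smul, R.UU a b x hx]

theorem fr' (F : Frm I e P c) (hx : x ∈ O) (a : ι) :
    mfderiv I I' φ x (e a x) = ∑ a', U a' a x • e' a' (φ x) := by
  simp only [R.fr _ x hx, smul_sum, smul_smul]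
  rw [sum_comm]
  conv_lhs => rw [← F.proj a x, map_sum]
  exact sum_congr rfl fun b _ => by rw [← sum_smul, R.UU a b x hx, map_smul]

/-- contraction of `DP` with the rotation vanishes -/
theorem UdPU (F : Frm I e P c) (hx : x ∈ O) (a : ι) (b' k' : ι') :
    ∑ b, ∑ k, U b' b x * U k' k x * dv I (e a) (P b k) x = 0 := by
  have h := F.dP_zero a x (T := fun b k => U b' b x * U k' k x)
    (fun b k => by
      rw [← R.UP F hx b' b, sum_mul]
      exact sum_congr rfl fun l _ => by rw [smul_eq_mul, (F.pr x).symm b l]; ring)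
    (fun b k => by
      rw [← R.UP F hx k' k, mul_sum]
      exact sum_congr rfl fun l _ => by rw [smul_eq_mul, (F.pr x).symm k l]; ring)
  rw [← h]
  exact sum_congr rfl fun b _ => sum_congr rfl fun k _ => by rw [smul_eq_mul]; ring

end Rot

variable (I) in
/-- the transformed Levi-Civita coefficients -/
def gam (e : ι → (x : M) → TangentSpace I x) (Γ : ι → ι → ι → M → ℝ) (U : ι' → ι → M → ℝ)
    (a' b' k' : ι') (x : M) : ℝ :=
  ∑ a, U a' a x * (∑ b, dv I (e a) (U b' b) x * U k' b x
    + ∑ b, ∑ k, U b' b x * U k' k x * Γ a b k x)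

/-- the projector kills the relations of the frame -/
def Ker (e : ι → (x : M) → TangentSpace I x) (P : ι → ι → M → ℝ) : Prop :=
  ∀ x (ξ : ι → ℝ), ∑ b, ξ b • e b x = 0 → ∀ a, ∑ b, P a b x * ξ b = 0

theorem eq_zero_of_dv [IsManifold I ∞ M] {ξ : ι → ℝ}
    (h : ∑ k, ξ k • dv I (e k) (extChartAt I x) x = 0) : ∑ k, ξ k • e k x = 0 := by
  unfold dv at h
  rw [mfderiv_extChartAt_self] at h
  exact h

theorem sa_chart [IsManifold I ∞ M] (x : M) : SA I (extChartAt I x) x := contMDiffAt_extChartAt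

/-- pointwise uniqueness of the Levi-Civita coefficients -/
theorem lc_unique {G G' : ι → ι → ι → ℝ} (h1 : ∀ a b k, G a b k + G a k b = G' a b k + G' a k b)
    (h2 : ∀ a b k, G a b k - G b a k = G' a b k - G' b a k) (a b k : ι) : G a b k = G' a b k := by
  linarith [h1 a b k, h1 b a k, h1 k a b, h2 a b k, h2 a k b, h2 b k a, h2 k a b, h2 k b a]

namespace Rot
variable (R : Rot I I' φ O e P e' P' U)
include R

/-- second derivatives upstairs -/
theorem DD' (F : Frm I e P c) (F' : Frm I' e' P' c') (hx : x ∈ O) (a' b' : ι') {f : M' → N}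
    (hf : SA I' f (φ x)) :
    dv I' (e' a') (dv I' (e' b') f) (φ x) = ∑ a, U a' a x • ∑ b,
      (dv I (e a) (U b' b) x • dv I (e b) (fun y => f (φ y)) x
        + U b' b x • dv I (e a) (dv I (e b) fun y => f (φ y)) x) := by
  have hs := fun b => F.sD b (R.sa_comp hx hf)
  rw [R.D'_of hx a' (F'.sD b' hf).md
    (g := fun y => ∑ b, U b' b y • dv I (e b) (fun y => f (φ y)) y)
    (by filter_upwards [R.ev hx, R.ev_map hx hf.ev] with y hy hy' using R.D' hy b' hy')]
  refine sum_congr rfl fun a _ => ?_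
  rw [dv_sum' _ fun b => (R.sU b' b x hx).smul (hs b)]
  congr 1
  exact sum_congr rfl fun b _ => dv_smul (R.sU b' b x hx).md (hs b).md

/-- transformation of the structure functions -/
theorem br [IsManifold I' ∞ M'] (F : Frm I e P c) (F' : Frm I' e' P' c') (K : Ker e' P')
    (hx : x ∈ O) (a' b' l' : ι') :
    ∑ k', c' a' b' k' (φ x) * P' k' l' (φ x)
      = ∑ a, U a' a x * ∑ b, dv I (e a) (U b' b) x * U l' b x
        - ∑ a, U b' a x * ∑ b, dv I (e a) (U a' b) x * U l' b x
        + ∑ a, ∑ b, U a' a x * U b' b x * ∑ k, c a b k x * U l' k x := by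
  obtain ⟨f, hf⟩ : ∃ f : M' → E', f = extChartAt I' (φ x) := ⟨_, rfl⟩
  have hs : SA I' f (φ x) := hf ▸ sa_chart _
  set g : M → E' := fun y => f (φ y) with hg
  have hsg : SA I g x := R.sa_comp hx hs
  -- coefficient downstairs
  set w : ι → ℝ := fun k => ∑ a, U a' a x * dv I (e a) (U b' k) x
    - ∑ a, U b' a x * dv I (e a) (U a' k) x + ∑ a, ∑ b, U a' a x * U b' b x * c a b k x with hw
  have h1 : ∑ k', c' a' b' k' (φ x) • dv I' (e' k') f (φ x) = ∑ k, w k • dv I (e k) g x := by
    rw [← F'.brV a' b' hs, R.DD' F F' hx a' b' hs, R.DD' F F' hx b' a' hs]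
    have h2 : ∑ a, ∑ b, (U a' a x * U b' b x) • dv I (e a) (dv I (e b) g) x
        - ∑ a, ∑ b, (U b' a x * U a' b x) • dv I (e a) (dv I (e b) g) x
        = ∑ k, (∑ a, ∑ b, U a' a x * U b' b x * c a b k x) • dv I (e k) g x := by
      rw [sum_comm (f := fun a b => (U b' a x * U a' b x) • dv I (e a) (dv I (e b) g) x)]
      simp only [← sum_sub_distrib, mul_comm (U b' _ x) (U a' _ x), ← smul_sub, F.brV _ _ hsg,
        smul_sum, smul_smul, sum_smul]
      rw [sum_congr rfl fun a _ => sum_comm, sum_comm]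
    simp only [hw, add_smul, sub_smul, sum_add_distrib, sum_sub_distrib, ← hg]
    rw [← h2]
    simp only [smul_add, smul_sum, smul_smul, sum_smul, sum_add_distrib]
    rw [sum_comm (f := fun a b => (U a' a x * dv I (e a) (U b' b) x) • dv I (e b) g x),
      sum_comm (f := fun a b => (U b' a x * dv I (e a) (U a' b) x) • dv I (e b) g x)]
    abel
  have h3 : ∑ k', (c' a' b' k' (φ x) - ∑ k, w k * U k' k x) • dv I' (e' k') f (φ x) = 0 := by
    simp only [sub_smul, sum_sub_distrib, h1, hg, R.D F hx _ hs.md, smul_sum, smul_smul, sum_smul]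
    rw [sum_comm, sub_self]
  have h4 := K (φ x) _ (eq_zero_of_dv (hf ▸ h3)) l'
  have h5 : ∑ k', P' l' k' (φ x) * ∑ k, w k * U k' k x = ∑ k, w k * U l' k x := by
    simp only [mul_sum]
    rw [sum_comm]
    exact sum_congr rfl fun k _ => by
      rw [← R.PU F' hx l' k, mul_sum]
      exact sum_congr rfl fun k' _ => by rw [(F'.pr (φ x)).symm l' k']; ring
  simp only [mul_sub, sum_sub_distrib, h5] at h4
  rw [sum_congr rfl fun k' _ => by rw [mul_comm, (F'.pr (φ x)).symm k' l'], sub_eq_zero.1 h4]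
  simp only [hw, add_mul, sub_mul, sum_add_distrib, sum_sub_distrib, sum_mul, mul_sum]
  congr 1
  · congr 1 <;> (rw [sum_comm]; exact sum_congr rfl fun a _ => sum_congr rfl fun b _ => by ring)
  · rw [sum_comm]
    refine sum_congr rfl fun a _ => ?_
    rw [sum_comm]
    exact sum_congr rfl fun b _ => sum_congr rfl fun k _ => by ring

/-- transformation of the Levi-Civita coefficients -/
theorem gam_eq [IsManifold I' ∞ M'] (F : Frm I e P c) (F' : Frm I' e' P' c') (K : Ker e' P')
    (L : LC I e P c Γ) (L' : LC I' e' P' c' Γ') (hx : x ∈ O) (a' b' k' : ι') :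
    Γ' a' b' k' (φ x) = gam I e Γ U a' b' k' x := by
  refine lc_unique (G := fun a b k => Γ' a b k (φ x)) (G' := fun a b k => gam I e Γ U a b k x)
    (fun a' b' k' => ?_) (fun a' b' k' => ?_) a' b' k'
  · rw [← L'.met, R.D'_of hx a' (F'.sP b' k' _).md (g := fun y => ∑ b, U b' b y * U k' b y)
      ((R.ev hx).mono fun y hy => (R.UU' b' k' y hy).symm)]
    simp only [gam, ← sum_add_distrib, ← mul_add]
    refine sum_congr rfl fun a _ => ?_
    rw [smul_eq_mul, dv_sum' _ fun b => (R.sU b' b x hx).mul (R.sU k' b x hx)]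
    congr 1
    have h := R.UdPU F hx a b' k'
    simp only [L.met, mul_add, sum_add_distrib] at h
    rw [sum_comm (f := fun b k => U b' b x * U k' k x * Γ a k b x)] at h
    simp only [dv_mul (R.sU b' _ x hx) (R.sU k' _ x hx), sum_add_distrib]
    have e1 : ∑ b, ∑ k, U k' b x * U b' k x * Γ a b k x
        = ∑ b, ∑ k, U b' k x * U k' b x * Γ a b k x :=
      sum_congr rfl fun b _ => sum_congr rfl fun k _ => by ring
    have e2 : ∑ b, U b' b x * dv I (e a) (U k' b) x = ∑ b, dv I (e a) (U k' b) x * U b' b x :=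
      sum_congr rfl fun b _ => by ring
    rw [e1, e2]; linarith
  · rw [L'.tors, R.br F F' K hx]
    simp only [gam, mul_add, sum_add_distrib]
    have h : ∑ a, ∑ b, U a' a x * U b' b x * ∑ k, c a b k x * U k' k x
        = ∑ a, U a' a x * ∑ b, ∑ k, U b' b x * U k' k x * Γ a b k x
          - ∑ a, U b' a x * ∑ b, ∑ k, U a' b x * U k' k x * Γ a b k x := by
      have e1 : ∑ a, U b' a x * ∑ b, ∑ k, U a' b x * U k' k x * Γ a b k x
          = ∑ a, ∑ b, ∑ k, U a' a x * U b' b x * U k' k x * Γ b a k x := by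
        simp only [mul_sum]
        rw [sum_comm]
        exact sum_congr rfl fun a _ => sum_congr rfl fun b _ => sum_congr rfl fun k _ => by ring
      rw [e1, ← sum_sub_distrib]
      refine sum_congr rfl fun a _ => ?_
      rw [mul_sum, ← sum_sub_distrib]
      refine sum_congr rfl fun b _ => ?_
      have e2 : ∑ k, c a b k x * U k' k x = ∑ l, U k' l x * (Γ a b l x - Γ b a l x) := by
        simp only [L.tors, mul_sum]
        rw [sum_comm]
        exact sum_congr rfl fun k _ => by
          rw [← R.UP F hx k' k, mul_sum]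
          exact sum_congr rfl fun l _ => by rw [(F.pr x).symm k l]; ring
      rw [e2, mul_sum, mul_sum, ← sum_sub_distrib]
      exact sum_congr rfl fun l _ => by ring
    rw [h]; ring

end Rot

end Crest.Agent.X212.Eqv71
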