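import Crest.Agent.X212.Eqv71.Alg
import Crest.Agent.X212.Eqv71.Rot

/-! Pointwise equivalences of backgrounds (`BE`) and of modules (`ME`), and what they intertwine. -/

set_option autoImplicit false
set_option linter.unusedSectionVars false

open scoped Manifold ContDiff Topology InnerProductSpace
open Finset

noncomputable section
namespace Crest.Agent.X212.Eqv71
open An Wz78

section four
variable {α α' α'' : Type} [Fintype α] [Fintype α'] [Fintype α'']
  {X : Type} [AddCommGroup X] [Module ℝ X]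

/-- rotation of a four-tensor -/
def rot4 (U : α' → α → ℝ) (o : α → α → α → α → X) (b₁ b₂ b₃ b₄ : α') : X :=
  ∑ a₁, ∑ a₂, ∑ a₃, ∑ a₄, (U b₁ a₁ * U b₂ a₂ * U b₃ a₃ * U b₄ a₄) • o a₁ a₂ a₃ a₄

theorem rot4_eq (U : α' → α → ℝ) (o : α → α → α → α → X) (b₁ b₂ b₃ b₄ : α') :
    rot4 U o b₁ b₂ b₃ b₄ = ∑ s : (α × α) × α × α,
      sq2 (sq2 U) ((b₁, b₂), (b₃, b₄)) s • o s.1.1 s.1.2 s.2.1 s.2.2 := by
  simp only [rot4, Fintype.sum_prod_type, sq2, mul_assoc]

theorem rot4_rot4 (U : α'' → α' → ℝ) (W : α' → α → ℝ) (o : α → α → α → α → X)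
    (b₁ b₂ b₃ b₄ : α'') :
    rot4 U (rot4 W o) b₁ b₂ b₃ b₄ = rot4 (fun a c => ∑ b, U a b * W b c) o b₁ b₂ b₃ b₄ := by
  have h : (sq2 fun a c => ∑ b, U a b * W b c) = fun t s => ∑ r, sq2 U t r * sq2 W r s :=
    funext fun t => funext fun s => (sq2_mul U W t s).symm
  simp only [rot4_eq, smul_sum, smul_smul]
  rw [sum_comm, h]
  exact sum_congr rfl fun s _ => by rw [← sum_smul, sq2_mul]

/-- a full contraction with a rotated tensor -/
theorem sum_rot4 (U : α' → α → ℝ) (o : α' → α' → α' → α' → ℝ) (T : α → α → α → α → X) :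
    ∑ b₁, ∑ b₂, ∑ b₃, ∑ b₄, o b₁ b₂ b₃ b₄ • rot4 U T b₁ b₂ b₃ b₄
      = ∑ a₁, ∑ a₂, ∑ a₃, ∑ a₄, rot4 (fun a b => U b a) o a₁ a₂ a₃ a₄ • T a₁ a₂ a₃ a₄ := by
  have h1 : ∀ f : α' → α' → α' → α' → X, ∑ b₁, ∑ b₂, ∑ b₃, ∑ b₄, f b₁ b₂ b₃ b₄
      = ∑ s : (α' × α') × α' × α', f s.1.1 s.1.2 s.2.1 s.2.2 := fun f => by
    simp only [Fintype.sum_prod_type]
  have h2 : ∀ f : α → α → α → α → X, ∑ b₁, ∑ b₂, ∑ b₃, ∑ b₄, f b₁ b₂ b₃ b₄
      = ∑ s : (α × α) × α × α, f s.1.1 s.1.2 s.2.1 s.2.2 := fun f => by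
    simp only [Fintype.sum_prod_type]
  rw [h1, h2]
  simp only [rot4_eq, smul_sum, smul_smul, sum_smul, smul_eq_mul]
  rw [sum_comm]
  exact sum_congr rfl fun s _ => sum_congr rfl fun t _ => by simp only [sq2, mul_comm]

end four

variable {E : Type} [NormedAddCommGroup E] [NormedSpace ℝ E]
  {HM : Type} [TopologicalSpace HM] {I : ModelWithCorners ℝ E HM}
  {M : Type} [TopologicalSpace M] [ChartedSpace HM M]
  {ι : Type} [Fintype ι] {lam : Type} [Fintype lam]
  {E' : Type} [NormedAddCommGroup E'] [NormedSpace ℝ E']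
  {HM' : Type} [TopologicalSpace HM'] {I' : ModelWithCorners ℝ E' HM'}
  {M' : Type} [TopologicalSpace M'] [ChartedSpace HM' M']
  {ι' : Type} [Fintype ι'] {lam' : Type} [Fintype lam']
  {M'' : Type} [TopologicalSpace M''] {ι'' : Type} [Fintype ι''] {lam'' : Type} [Fintype lam'']
  {B : Base M ι lam} {B' : Base M' ι' lam'} {B'' : Base M'' ι'' lam''}
  {m : Md M ι lam} {m' : Md M' ι' lam'} {m'' : Md M'' ι'' lam''} {x : M} {x' : M'} {x'' : M''}
  {U : ι' → ι → ℝ} {U' : ι'' → ι' → ℝ} {v : CL (Eu lam) (Eu lam')} {v' : CL (Eu lam') (Eu lam'')}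
  {u : CL m.V m'.V} {u' : CL m'.V m''.V}

section base
variable (h : B.OK I)
include h

theorem oP2 (a b c d : ι) (x : M) : ∑ k, B.P b k x * B.o a k c d x = B.o a b c d x := by
  simp only [h.o12 a _ c d x, mul_neg, sum_neg_distrib, h.oP]

theorem oP3 (a b c d : ι) (x : M) : ∑ k, B.P c k x * B.o a b k d x = B.o a b c d x := by
  simp only [h.o23 a b _ d x, mul_neg, sum_neg_distrib, oP2 h]

theorem oP4 (a b c d : ι) (x : M) : ∑ k, B.P d k x * B.o a b c k x = B.o a b c d x := by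
  simp only [h.o34 a b c _ x, mul_neg, sum_neg_distrib, oP3 h]

theorem rot4_P (a b c d : ι) (x : M) :
    rot4 (fun a b => B.P a b x) (fun a b c d => B.o a b c d x) a b c d = B.o a b c d x := by
  simp only [rot4, smul_eq_mul, mul_assoc, ← mul_sum, oP4 h, oP3 h, oP2 h, h.oP]

theorem o_pair (a b c d : ι) (x : M) : B.o a b c d x = B.o c d a b x := by
  rw [h.o23 a b, h.o12 a c, neg_neg, h.o34 c a b, h.o23 c a d, neg_neg]

theorem st_symm (x : M) (s t : ι × ι) : B.st x s t = B.st x t s := by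
  rw [Base.st, Base.st, o_pair h]

theorem P2_st (x : M) (s t : ι × ι) :
    ∑ r, sq2 (fun a b => B.P a b x) s r * B.st x r t = B.st x s t := by
  simp only [sq2, Base.st, Fintype.sum_prod_type, mul_assoc, ← mul_div_assoc, ← sum_div, ← mul_sum,
    oP2 h, h.oP]

end base

/-- pointwise equivalence of backgrounds -/
structure BE (B : Base M ι lam) (x : M) (B' : Base M' ι' lam') (x' : M') (U : ι' → ι → ℝ)
    (v : CL (Eu lam) (Eu lam')) : Prop where
  UU : ∀ a a', ∑ b, U b a * U b a' = B.P a a' x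
  UU' : ∀ b b', ∑ a, U b a * U b' a = B'.P b b' x'
  o : ∀ b₁ b₂ b₃ b₄, B'.o b₁ b₂ b₃ b₄ x' = rot4 U (fun a b c d => B.o a b c d x) b₁ b₂ b₃ b₄
  vv : trn v ∘L v = B.l x
  vv' : v ∘L trn v = B'.l x'
  il : v ∘L B.il = B'.il ∘L v

/-- pointwise equivalence of modules -/
structure ME (m : Md M ι lam) (x : M) (m' : Md M' ι' lam') (x' : M') (U : ι' → ι → ℝ)
    (v : CL (Eu lam) (Eu lam')) (u : CL m.V m'.V) : Prop where
  uu : trn u ∘L u = m.p x
  uu' : u ∘L trn u = m'.p x'
  J : u ∘L m.J = m'.J ∘L u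
  ρ : ∀ b, m'.ρ b x' ∘L u = u ∘L ∑ a, U b a • m.ρ a x
  j : ∀ s, m'.j x' (v s) ∘L u = u ∘L m.j x s

section iso
variable {κ κ' : Type} [Fintype κ] [Fintype κ'] {w : CL (Eu κ) (Eu κ')} {p : En κ} {p' : En κ'}

/-- a partial isometry vanishes off its initial projector -/
theorem comp_proj (h : trn w ∘L w = p) (hp : p * p = p) : w ∘L p = w := by
  refine ContinuousLinearMap.ext fun a => ?_
  have h1 : ∀ a, trn w (w a) = p a := fun a => congrArg (fun T : En κ => T a) h
  have h2 : p (p a) = p a := congrArg (fun T : En κ => T a) hp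
  have : ⟪w (p a - a), w (p a - a)⟫_ℝ = 0 := by
    rw [← inner_trn', h1, map_sub, h2, sub_self, inner_zero_right]
  rw [inner_self_eq_zero, map_sub, sub_eq_zero] at this
  exact this

theorem trn_intertw {A : En κ} {A' : En κ'} (h : w ∘L A = A' ∘L w) (hA : Skw A) (hA' : Skw A') :
    trn w ∘L A' = A ∘L trn w := by
  have := congrArg trn h
  rw [trn_comp, trn_comp, trn_of_skw hA, trn_of_skw hA', ContinuousLinearMap.neg_comp,
    ContinuousLinearMap.comp_neg, neg_inj] at this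
  exact this.symm

theorem trn_intertw' {A : En κ} {A' : En κ'} (h : w ∘L A = A' ∘L w) (hA : Sym A) (hA' : Sym A') :
    trn w ∘L A' = A ∘L trn w := by
  have := congrArg trn h
  rw [trn_comp, trn_comp, trn_of_sym hA, trn_of_sym hA'] at this
  exact this.symm

theorem skw_sum {α : Type} [Fintype α] (r : α → ℝ) {A : α → En κ} (h : ∀ a, Skw (A a)) :
    Skw (∑ a, r a • A a) := fun a b => by
  simp only [_root_.sum_apply, smul_apply, sum_inner, inner_sum, real_inner_smul_left,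
    real_inner_smul_right, h _ a b, mul_neg, sum_neg_distrib]

end iso

namespace BE

theorem UP (e : BE B x B' x' U v) (h : B.OK I) (b : ι') (a : ι) :
    ∑ k, U b k * B.P k a x = U b a := mul_proj (h.pr x) e.UU b a

theorem symm (e : BE B x B' x' U v) (h : B.OK I) (h' : B'.OK I') :
    BE B' x' B x (fun a b => U b a) (trn v) where
  UU := e.UU'
  UU' := e.UU
  o a b c d := by simp only [e.o]; rw [rot4_rot4]; simp only [e.UU]; exact (rot4_P h a b c d x).symm
  vv := by rw [trn_trn, e.vv']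
  vv' := by rw [trn_trn, e.vv]
  il := trn_intertw e.il h.ilsk h'.ilsk

theorem PU (e : BE B x B' x' U v) (h' : B'.OK I') (b : ι') (a : ι) :
    ∑ k, B'.P b k x' * U k a = U b a := by
  rw [← mul_proj (U := fun a b => U b a) (h'.pr x') e.UU' a b]
  exact sum_congr rfl fun k _ => by rw [(h'.pr x').symm b k, mul_comm]

theorem vl (e : BE B x B' x' U v) (h : B.OK I) : v ∘L B.l x = v := comp_proj e.vv (h.lidem x)

theorem lv (e : BE B x B' x' U v) (h : B.OK I) : B'.l x' ∘L v = v := by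
  rw [← e.vv', ContinuousLinearMap.comp_assoc, e.vv, e.vl h]

theorem refl (h : B.OK I) (x : M) : BE B x B x (fun b a => B.P b a x) (B.l x) where
  UU a a' := by simp only [(h.pr x).symm _ a]; exact (h.pr x).idem a a'
  UU' b b' := by simp only [(h.pr x).symm b']; exact (h.pr x).idem b b'
  o a b c d := (rot4_P h a b c d x).symm
  vv := by rw [trn_of_sym (h.lsym x)]; exact h.lidem x
  vv' := by rw [trn_of_sym (h.lsym x)]; exact h.lidem x
  il := (h.ill x).symm

theorem trans (e : BE B x B' x' U v) (e' : BE B' x' B'' x'' U' v') (h : B.OK I) (h' : B'.OK I') :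
    BE B x B'' x'' (fun c a => ∑ b, U' c b * U b a) (v' ∘L v) where
  UU a a' := by
    simp only [sum_mul_sum]
    rw [sum_comm, ← e.UU a a']
    refine sum_congr rfl fun b _ => ?_
    rw [sum_comm, ← e.PU h' b a', mul_sum]
    refine sum_congr rfl fun b' _ => ?_
    rw [← e'.UU b b', sum_mul, mul_sum]
    exact sum_congr rfl fun c _ => by ring
  UU' c c' := by
    simp only [sum_mul_sum]
    rw [sum_comm, ← e'.UU' c c']
    refine sum_congr rfl fun b _ => ?_
    rw [sum_comm, ← e'.UP h' c' b, mul_sum]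
    refine sum_congr rfl fun b' _ => ?_
    rw [← e.UU' b' b, mul_sum, mul_sum]
    exact sum_congr rfl fun a _ => by ring
  o a b c d := by simp only [e'.o, e.o]; rw [rot4_rot4]
  vv := by
    rw [trn_comp, ContinuousLinearMap.comp_assoc, ← ContinuousLinearMap.comp_assoc (trn v'), e'.vv,
      e.lv h, e.vv]
  vv' := by
    rw [trn_comp, ContinuousLinearMap.comp_assoc, ← ContinuousLinearMap.comp_assoc v, e.vv',
      ← ContinuousLinearMap.comp_assoc, e'.vl h', e'.vv']
  il := by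
    rw [ContinuousLinearMap.comp_assoc, e.il, ← ContinuousLinearMap.comp_assoc, e'.il,
      ContinuousLinearMap.comp_assoc]

/-- changing the isomorphism of the lines by a phase -/
theorem phase (e : BE B x B' x' U v) (h' : B'.OK I') (ζ : Circle) :
    BE B x B' x' U (csL B'.il ζ ∘L v) where
  UU := e.UU
  UU' := e.UU'
  o := e.o
  vv := by
    rw [trn_comp, trn_csL h'.ilsk, ContinuousLinearMap.comp_assoc,
      ← ContinuousLinearMap.comp_assoc (csL _ _), csL_mul h'.ilsq, ← Complex.normSq_eq_conj_mul_self,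
      Circle.normSq_coe, Complex.ofReal_one, csL_one, ← e.vv]
    rfl
  vv' := by
    have : B'.l x' ∘L csL B'.il (starRingEnd ℂ ζ) = csL B'.il (starRingEnd ℂ ζ) ∘L B'.l x' :=
      ContinuousLinearMap.ext fun a => map_cs (h'.ill x').symm _ a
    rw [trn_comp, trn_csL h'.ilsk, ContinuousLinearMap.comp_assoc,
      ← ContinuousLinearMap.comp_assoc v, e.vv', this, ← ContinuousLinearMap.comp_assoc,
      csL_mul h'.ilsq, Complex.mul_conj, Circle.normSq_coe, Complex.ofReal_one, csL_one]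
    rfl
  il := by
    have : B'.il ∘L csL B'.il ζ = csL B'.il ζ ∘L B'.il :=
      ContinuousLinearMap.ext fun a => map_cs rfl _ a
    rw [ContinuousLinearMap.comp_assoc, e.il, ← ContinuousLinearMap.comp_assoc, ← this,
      ContinuousLinearMap.comp_assoc]

theorem st (e : BE B x B' x' U v) (h : B.OK I) (t : ι' × ι') (s : ι × ι) :
    ∑ r, B'.st x' t r * sq2 U r s = ∑ r, sq2 U t r * B.st x r s := by
  have h1 : ∀ r, B'.st x' t r = ∑ p, ∑ q, sq2 U t p * sq2 U r q * B.st x p q := fun r => by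
    simp only [Base.st, e.o, rot4_eq, Fintype.sum_prod_type (α₁ := ι × ι), sum_div, smul_eq_mul]
    exact sum_congr rfl fun p _ => sum_congr rfl fun q _ => by simp only [sq2]; ring
  have h2 : ∀ q, ∑ r, sq2 U r q * sq2 U r s = sq2 (fun a b => B.P a b x) s q := fun q => by
    have := sq2_mul (fun a b => U b a) U s q
    simp only [e.UU] at this
    rw [← this]
    exact sum_congr rfl fun r _ => by simp only [sq2]; ring
  simp only [h1, sum_mul]
  rw [sum_comm]
  refine sum_congr rfl fun p _ => ?_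
  rw [sum_comm, st_symm h x p s, ← P2_st h x s p, mul_sum]
  refine sum_congr rfl fun q _ => ?_
  rw [← h2, st_symm h x q p, sum_mul, mul_sum]
  exact sum_congr rfl fun r _ => by ring

theorem a2 (e : BE B x B' x' U v) (h : B.OK I) (h' : B'.OK I') (t : ι' × ι') (s : ι × ι) :
    ∑ r, B'.a2 x' t r * sq2 U r s = ∑ r, sq2 U t r * B.a2 x r s := by
  have h1 : ∑ r, B'.a2 x' t r * sq2 U r s = (U t.1 s.1 * U t.2 s.2 - U t.2 s.1 * U t.1 s.2) / 2 := by
    rw [← e.PU h' t.1 s.1, ← e.PU h' t.2 s.2, ← e.PU h' t.2 s.1, ← e.PU h' t.1 s.2]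
    simp only [sum_mul_sum, ← sum_sub_distrib, sum_div, Fintype.sum_prod_type, Base.a2, sq2]
    exact sum_congr rfl fun _ _ => sum_congr rfl fun _ _ => by ring
  rw [h1, ← e.UP h t.1 s.1, ← e.UP h t.2 s.2, ← e.UP h t.2 s.1, ← e.UP h t.1 s.2,
    mul_comm (∑ k, U t.2 k * _)]
  simp only [sum_mul_sum, ← sum_sub_distrib, sum_div, Fintype.sum_prod_type, Base.a2, sq2]
  exact sum_congr rfl fun _ _ => sum_congr rfl fun _ _ => by ring

theorem sd (e : BE B x B' x' U v) (h : B.OK I) (h' : B'.OK I') (t : ι' × ι') (s : ι × ι) :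
    ∑ r, B'.sd x' t r * sq2 U r s = ∑ r, sq2 U t r * B.sd x r s := by
  simp only [Base.sd, add_div, add_mul, mul_add, sum_add_distrib, div_mul_eq_mul_div,
    ← mul_div_assoc, ← sum_div, e.st h, e.a2 h h']

end BE

namespace ME
variable (e : ME m x m' x' U v u)
include e

theorem up (h : m.OK I B) : u ∘L m.p x = u := comp_proj e.uu (h.pidem x)

theorem pu (h : m.OK I B) : m'.p x' ∘L u = u := by
  rw [← e.uu', ContinuousLinearMap.comp_assoc, e.uu, e.up h]

theorem pu_apply (h : m.OK I B) (a : m.V) : m'.p x' (u a) = u a :=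
  congrArg (fun T : CL m.V m'.V => T a) (e.pu h)

theorem inner (a b : m.V) : ⟪u a, u b⟫_ℝ = ⟪a, m.p x b⟫_ℝ := by
  rw [← inner_trn', ← e.uu]; rfl

theorem norm {a : m.V} (ha : m.p x a = a) : ‖u a‖ = ‖a‖ := by
  rw [norm_eq_sqrt_real_inner, e.inner, ha, ← norm_eq_sqrt_real_inner]

theorem J_apply (a : m.V) : m'.J (u a) = u (m.J a) :=
  (congrArg (fun T : CL m.V m'.V => T a) e.J).symm

theorem ρ_apply (b : ι') (a : m.V) : m'.ρ b x' (u a) = ∑ k, U b k • u (m.ρ k x a) := by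
  have := congrArg (fun T : CL m.V m'.V => T a) (e.ρ b)
  simpa only [ContinuousLinearMap.comp_apply, _root_.sum_apply, smul_apply, map_sum, map_smul]
    using this

theorem j_apply (s : Eu lam) (a : m.V) : m'.j x' (v s) (u a) = u (m.j x s a) :=
  congrArg (fun T : CL m.V m'.V => T a) (e.j s)

/-- the pulled back Clifford multiplication -/
theorem ρ' (g : BE B x B' x' U v) (h : m.OK I B) (a : ι) :
    (∑ b, U b a • m'.ρ b x') ∘L u = u ∘L m.ρ a x := by
  ext1 w
  simp only [ContinuousLinearMap.comp_apply, _root_.sum_apply, smul_apply, e.ρ_apply, smul_sum,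
    smul_smul]
  rw [sum_comm, ← (h.cl x).proj a]
  simp only [← sum_smul, g.UU, _root_.sum_apply, smul_apply, map_sum, map_smul]

theorem symm (g : BE B x B' x' U v) (h : m.OK I B) (h' : m'.OK I' B') :
    ME m' x' m x (fun a b => U b a) (trn v) (trn u) where
  uu := by rw [trn_trn, e.uu']
  uu' := by rw [trn_trn, e.uu]
  J := trn_intertw e.J h.Jsk h'.Jsk
  ρ a := (trn_intertw (e.ρ' g h a).symm (h.ρsk a x) (skw_sum _ fun b => h'.ρsk b x')).symm
  j s := by
    have := e.j (trn v s)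
    rw [← ContinuousLinearMap.comp_apply v, g.vv', h'.jl] at this
    exact (trn_intertw' this.symm (h.jsym x _) (h'.jsym x' s)).symm

theorem trans (e' : ME m' x' m'' x'' U' v' u') (h : m.OK I B) (h' : m'.OK I' B') :
    ME m x m'' x'' (fun c a => ∑ b, U' c b * U b a) (v' ∘L v) (u' ∘L u) where
  uu := by
    rw [trn_comp, ContinuousLinearMap.comp_assoc, ← ContinuousLinearMap.comp_assoc (trn u'), e'.uu,
      e.pu h, e.uu]
  uu' := by
    rw [trn_comp, ContinuousLinearMap.comp_assoc, ← ContinuousLinearMap.comp_assoc u, e.uu',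
      ← ContinuousLinearMap.comp_assoc, e'.up h', e'.uu']
  J := by
    rw [ContinuousLinearMap.comp_assoc, e.J, ← ContinuousLinearMap.comp_assoc, e'.J,
      ContinuousLinearMap.comp_assoc]
  ρ c := by
    ext1 w
    simp only [ContinuousLinearMap.comp_apply, e'.ρ_apply, e.ρ_apply, map_sum, map_smul,
      _root_.sum_apply, smul_apply, smul_sum, smul_smul, sum_smul]
    exact sum_comm
  j s := by
    ext1 w
    simp only [ContinuousLinearMap.comp_apply, e'.j_apply, e.j_apply]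

omit e in
theorem refl (h : m.OK I B) (x : M) : ME m x m x (fun b a => B.P b a x) (B.l x) (m.p x) where
  uu := by rw [trn_of_sym (h.psym x)]; exact h.pidem x
  uu' := by rw [trn_of_sym (h.psym x)]; exact h.pidem x
  J := (h.Jp x).symm
  ρ b := by rw [(h.cl x).proj b]; exact ((h.cl x).pr b).trans ((h.cl x).pl b).symm
  j s := by
    rw [h.jl]
    have h1 := congrArg trn (show m.p x ∘L m.j x s = m.j x s from h.pj x s)
    rw [trn_comp, trn_of_sym (h.jsym x s), trn_of_sym (h.psym x)] at h1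
    exact h1.trans (h.pj x s).symm

omit e in
theorem j_cs (h : m.OK I B) (x : M) (c : ℂ) (s : Eu lam) (a : m.V) :
    m.j x (cs B.il c s) a = cs m.J c (m.j x s a) := by
  simp only [cs, map_add, map_smul, h.jil, add_apply, smul_apply, mul_apply_eq_comp]

omit e in
theorem cs_j (h : m.OK I B) (x : M) (c : ℂ) (s : Eu lam) (a : m.V) :
    m.j x s (cs m.J c a) = cs m.J (starRingEnd ℂ c) (m.j x s a) := map_cs_anti (h.jJ x s) c a

/-- the phase `ζ` on the module and `ζ²` on the line -/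
theorem phase (h' : m'.OK I' B') (ζ : Circle) :
    ME m x m' x' U (csL B'.il (ζ * ζ : Circle) ∘L v) (csL m'.J ζ ∘L u) where
  uu := by
    rw [trn_comp, trn_csL h'.Jsk, ContinuousLinearMap.comp_assoc,
      ← ContinuousLinearMap.comp_assoc (csL _ _), csL_mul h'.Jsq, ← Complex.normSq_eq_conj_mul_self,
      Circle.normSq_coe, Complex.ofReal_one, csL_one, ← e.uu]
    rfl
  uu' := by
    have : m'.p x' ∘L csL m'.J (starRingEnd ℂ ζ) = csL m'.J (starRingEnd ℂ ζ) ∘L m'.p x' :=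
      ContinuousLinearMap.ext fun a => map_cs (h'.Jp x').symm _ a
    rw [trn_comp, trn_csL h'.Jsk, ContinuousLinearMap.comp_assoc,
      ← ContinuousLinearMap.comp_assoc u, e.uu', this, ← ContinuousLinearMap.comp_assoc,
      csL_mul h'.Jsq, Complex.mul_conj, Circle.normSq_coe, Complex.ofReal_one, csL_one]
    rfl
  J := by
    have : m'.J ∘L csL m'.J ζ = csL m'.J ζ ∘L m'.J :=
      ContinuousLinearMap.ext fun a => map_cs rfl _ a
    rw [ContinuousLinearMap.comp_assoc, e.J, ← ContinuousLinearMap.comp_assoc, ← this,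
      ContinuousLinearMap.comp_assoc]
  ρ b := by
    have : m'.ρ b x' ∘L csL m'.J ζ = csL m'.J ζ ∘L m'.ρ b x' :=
      ContinuousLinearMap.ext fun a => map_cs (h'.Jρ b x').symm _ a
    rw [← ContinuousLinearMap.comp_assoc, this, ContinuousLinearMap.comp_assoc, e.ρ,
      ContinuousLinearMap.comp_assoc]
  j s := by
    ext1 w
    simp only [ContinuousLinearMap.comp_apply, csL_apply, j_cs h', cs_j h', cs_mul h'.Jsq,
      e.j_apply, Circle.coe_mul, mul_assoc, Complex.mul_conj, Circle.normSq_coe,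
      Complex.ofReal_one, mul_one]

theorem om (g : BE B x B' x' U v) (hB : B.OK I) (hB' : B'.OK I') (a : m.V) :
    m'.om B' x' (u a) = u (m.om B x a) := by
  have h1 : ∀ b₁ b₂ b₃ b₄, m'.ρ b₁ x' (m'.ρ b₂ x' (m'.ρ b₃ x' (m'.ρ b₄ x' (u a))))
      = rot4 U (fun a₁ a₂ a₃ a₄ => u (m.ρ a₁ x (m.ρ a₂ x (m.ρ a₃ x (m.ρ a₄ x a))))) b₁ b₂ b₃ b₄ := by
    intro b₁ b₂ b₃ b₄
    have k : ∀ w, m'.ρ b₁ x' (m'.ρ b₂ x' (u w))
        = ∑ a₁, ∑ a₂, (U b₁ a₁ * U b₂ a₂) • u (m.ρ a₁ x (m.ρ a₂ x w)) := fun w => by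
      simp only [e.ρ_apply, map_sum, map_smul, smul_sum, smul_smul]
      rw [sum_comm]
      simp only [mul_comm]
    have k' : m'.ρ b₃ x' (m'.ρ b₄ x' (u a))
        = u (∑ a₃, ∑ a₄, (U b₃ a₃ * U b₄ a₄) • m.ρ a₃ x (m.ρ a₄ x a)) := by
      simp only [e.ρ_apply, map_sum, map_smul, smul_sum, smul_smul]
      rw [sum_comm]
      simp only [mul_comm]
    rw [k', k]
    simp only [rot4, map_sum, map_smul, smul_sum, smul_smul, mul_assoc]
  simp only [Md.om, smul_apply, _root_.sum_apply, mul_apply_eq_comp, h1, map_smul, map_sum]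
  rw [sum_rot4]
  simp only [← (g.symm hB hB').o]

theorem pp (g : BE B x B' x' U v) (hB : B.OK I) (hB' : B'.OK I') (h : m.OK I B) (a : m.V) :
    m'.pp B' x' (u a) = u (m.pp B x a) := by
  have : u (m.p x a) = u a := congrArg (fun T : CL m.V m'.V => T a) (e.up h)
  simp only [Md.pp, smul_apply, sub_apply, e.om g hB hB', e.pu_apply h, map_smul, map_sub, this]

theorem pm (g : BE B x B' x' U v) (hB : B.OK I) (hB' : B'.OK I') (h : m.OK I B) (a : m.V) :
    m'.pm B' x' (u a) = u (m.pm B x a) := by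
  have : u (m.p x a) = u a := congrArg (fun T : CL m.V m'.V => T a) (e.up h)
  simp only [Md.pm, smul_apply, add_apply, e.om g hB hB', e.pu_apply h, map_smul, map_add, this]

/-- conjugation preserves `g` -/
theorem cj_mem (g : BE B x B' x' U v) (h : m.OK I B) (h' : m'.OK I' B') {ξ : m.A}
    (hξ : ξ ∈ m.gS x) : cj u ξ ∈ m'.gS x' := by
  obtain ⟨h1, h2, h3, h4, h5⟩ := hξ
  have s := e.symm g h h'
  have key : ∀ {A : En (Fin m.N)} {A' : En (Fin m'.N)}, A' ∘L u = u ∘L A → trn u ∘L A' = A ∘L trn u →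
      A * opL ξ = opL ξ * A → A' * opL (cj u ξ) = opL (cj u ξ) * A' := by
    intro A A' k1 k2 k3
    ext1 w
    have k1' : ∀ a, A' (u a) = u (A a) := fun a => congrArg (fun T : CL m.V m'.V => T a) k1
    have k2' : ∀ a, trn u (A' a) = A (trn u a) := fun a => congrArg (fun T : CL m'.V m.V => T a) k2
    have k3' : ∀ a, A (opL ξ a) = opL ξ (A a) := fun a => congrArg (fun T : En _ => T a) k3
    simp only [opL_cj, mul_apply_eq_comp, ContinuousLinearMap.comp_apply, k1', k2', k3']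
  refine ⟨fun a b => ?_, ?_, key e.J.symm s.J h3, fun b => key (e.ρ b) ?_ ?_, fun t => ?_⟩
  · simp only [opL_cj, ContinuousLinearMap.comp_apply, ← inner_trn' u, h1 _ _, inner_trn u]
  · ext1 w
    simp only [opL_cj, mul_apply_eq_comp, ContinuousLinearMap.comp_apply, e.pu_apply h]
  · exact trn_intertw (e.ρ b).symm (skw_sum _ fun a => h.ρsk a x) (h'.ρsk b x')
  · simp only [sum_mul, mul_sum, smul_mul_assoc, mul_smul_comm, h4]
  · have := e.j (trn v t)
    rw [← ContinuousLinearMap.comp_apply v, g.vv', h'.jl] at this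
    exact key this (s.j t).symm (h5 _)

theorem pg (g : BE B x B' x' U v) (hB : B.OK I) (hB' : B'.OK I') (h : m.OK I B)
    (h' : m'.OK I' B') (ξ : m.A) : m'.pg x' (cj u ξ) = cj u (m.pg x ξ) :=
  proj_comm (inner_cj u) (fun _ ha => e.cj_mem g h h' ha)
    (fun _ hb => (e.symm g h h').cj_mem (g.symm hB hB') h' h hb) ξ

theorem p1 (g : BE B x B' x' U v) (hB : B.OK I) (hB' : B'.OK I') (h : m.OK I B)
    (h' : m'.OK I' B') (ξ : Fm ι m.A) :
    m'.p1 B' x' (ridx U (cj u) ξ) = ridx U (cj u) (m.p1 B x ξ) := by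
  simp only [Md.p1, idx_eq, ridx_ridx, g.PU hB', g.UP hB]
  exact ridx_congr _ fun b => e.pg g hB hB' h h' _

theorem p2 (g : BE B x B' x' U v) (hB : B.OK I) (hB' : B'.OK I') (h : m.OK I B)
    (h' : m'.OK I' B') (ξ : Fm (ι × ι) m.A) :
    m'.p2 B' x' (ridx (sq2 U) (cj u) ξ) = ridx (sq2 U) (cj u) (m.p2 B x ξ) := by
  simp only [Md.p2, idx_eq, ridx_ridx, g.sd hB hB']
  exact ridx_congr _ fun b => e.pg g hB hB' h h' _

theorem q (g : BE B x B' x' U v) (hB : B.OK I) (hB' : B'.OK I') (h : m.OK I B)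
    (h' : m'.OK I' B') (a b : m.V) : m'.q x' (u a) (u b) = cj u (m.q x a b) := by
  rw [Md.q, Md.q, rk1_map, ← cj_hsL, e.pg g hB hB' h h']

omit e in
theorem q_sum {α : Type} [Fintype α] (x : M) (a : m.V) (r : α → ℝ) (b : α → m.V) :
    m.q x a (∑ k, r k • b k) = ∑ k, r k • m.q x a (b k) := by
  have : rk1 a (∑ k, r k • b k) = ∑ k, r k • rk1 a (b k) := by
    ext1 w
    simp [rk1, sum_smul, mul_smul]
  simp only [Md.q, this, map_sum, map_smul]

theorem mu (g : BE B x B' x' U v) (hB : B.OK I) (hB' : B'.OK I') (h : m.OK I B)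
    (h' : m'.OK I' B') (a b : m.V) :
    m'.mu B' x' (u a) (u b) = ridx (sq2 U) (cj u) (m.mu B x a b) := by
  rw [Md.mu, Md.mu, ← e.p2 g hB hB' h h']
  congr 1
  ext1 t
  have : m'.ρ t.1 x' (m'.ρ t.2 x' (u b)) = ∑ s : ι × ι, sq2 U t s • u (m.ρ s.1 x (m.ρ s.2 x b)) := by
    simp only [e.ρ_apply, map_sum, map_smul, smul_sum, smul_smul, Fintype.sum_prod_type, sq2]
    rw [sum_comm]
    simp only [mul_comm]
  simp only [ridx_apply, this, q_sum, e.q g hB hB' h h']

omit e in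
theorem cj_p {ξ : m.A} (hξ : ξ ∈ m.gS x) : cj (m.p x) ξ = ξ := by
  have h1 : m.p x ∘L opL ξ = opL ξ := hξ.2.1
  have h2 := congrArg trn h1
  rw [trn_comp, trn_of_skw hξ.1, ContinuousLinearMap.neg_comp, neg_inj] at h2
  rw [cj_apply, h2, h1, hsL_opL]

/-- conjugation is isometric on `g` -/
theorem inner_cj (ξ : m.A) {η : m.A} (hη : η ∈ m.gS x) :
    ⟪cj u ξ, cj u η⟫_ℝ = ⟪ξ, η⟫_ℝ := by
  rw [Eqv71.inner_cj, cj_cj, e.uu, cj_p hη]

theorem trn_cj {η : m.A} (hη : η ∈ m.gS x) : cj (trn u) (cj u η) = η := by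
  rw [cj_cj, e.uu, cj_p hη]

/-- the intersection form of `g`-valued two-forms -/
theorem inner_st (g : BE B x B' x' U v) (hB : B.OK I) (ξ : Fm (ι × ι) m.A)
    {η : Fm (ι × ι) m.A} (hη : ∀ s, η s ∈ m.gS x) :
    ⟪ridx (sq2 U) (cj u) ξ, idx (B'.st x') (ContinuousLinearMap.id ℝ m'.A) (ridx (sq2 U) (cj u) η)⟫_ℝ
      = ⟪ξ, idx (B.st x) (ContinuousLinearMap.id ℝ m.A) η⟫_ℝ := by
  have h2 : ∀ a c, ∑ b, sq2 U b a * ∑ r, sq2 U b r * B.st x r c = B.st x a c := fun a c => by
    have := fun r => sq2_mul (fun a b => U b a) U a r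
    simp only [g.UU] at this
    simp only [mul_sum, ← mul_assoc]
    rw [sum_comm, ← P2_st hB x a c]
    exact sum_congr rfl fun r _ => by rw [← sum_mul, ← this]; rfl
  rw [inner_ridx _ (Eqv71.inner_cj u), idx_eq, idx_eq, ridx_ridx, ridx_ridx]
  simp only [sum_mul, mul_assoc]
  congr 1
  have h3 : (fun (a : ι × ι) (c : ι × ι) => ∑ b, ∑ i, sq2 U i a * (B'.st x' i b * sq2 U b c))
      = B.st x := by
    ext a c
    rw [sum_comm, ← h2 a c]
    exact sum_congr rfl fun b _ => by rw [← mul_sum, g.st hB]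
  rw [h3]
  exact ridx_congr _ fun b => e.trn_cj (hη b)

theorem hm (h : m.OK I B) (a : m.V) {b : m.V} (hb : m.p x b = b) :
    hm m'.J (u a) (u b) = hm m.J a b := by
  have : m.p x (m.J b) = m.J b := by
    rw [← mul_apply_eq_comp, ← h.Jp, mul_apply_eq_comp, hb]
  simp only [An.hm, e.J_apply, e.inner, hb, this]

theorem cs (c : ℂ) (a : m.V) : cs m'.J c (u a) = u (cs m.J c a) := (map_cs e.J c a).symm

end ME

end Crest.Agent.X212.Eqv71
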