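import Crest.Agent.X212.Eqv71.Rot

/-! Naturality of `nab`, `curv`, `hess`, `lap`, `dir` under a rotation of frames (`Rot`, `pb`) and
under an intertwiner of connections (`Itw`).  All hypotheses on connections are local. -/

set_option autoImplicit false
set_option linter.unusedSectionVars false

open scoped Manifold ContDiff Topology
open Finset Filter

noncomputable section
namespace Crest.Agent.X212.Eqv71
open Sob92 Wz78

variable {E H : Type*} [NormedAddCommGroup E] [NormedSpace ℝ E] [TopologicalSpace H]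
  {I : ModelWithCorners ℝ E H} {M : Type*} [TopologicalSpace M] [ChartedSpace H M]
  {E' H' : Type*} [NormedAddCommGroup E'] [NormedSpace ℝ E'] [TopologicalSpace H']
  {I' : ModelWithCorners ℝ E' H'} {M' : Type*} [TopologicalSpace M'] [ChartedSpace H' M']
  {V V' N : Type*} [NormedAddCommGroup V] [NormedSpace ℝ V] [NormedAddCommGroup V']
  [NormedSpace ℝ V'] [NormedAddCommGroup N] [NormedSpace ℝ N]
  {ι ι' : Type*} [Fintype ι] [Fintype ι'] [IsManifold I 1 M] [IsManifold I' 1 M']
  {φ : M → M'} {O : Set M} {e : ι → (x : M) → TangentSpace I x} {P : ι → ι → M → ℝ}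
  {e' : ι' → (y : M') → TangentSpace I' y} {P' : ι' → ι' → M' → ℝ} {U : ι' → ι → M → ℝ}
  {c Γ : ι → ι → ι → M → ℝ} {c' Γ' : ι' → ι' → ι' → M' → ℝ} {x : M}

/-- pull-back of a one-form given by its components -/
def pb (φ : M → M') (U : ι' → ι → M → ℝ) (B : ι' → M' → N) : ι → M → N :=
  fun a x => ∑ a', U a' a x • B a' (φ x)

/-- a family of components is a covector at `x` -/
def Pj (P : ι → ι → M → ℝ) (B : ι → M → N) (x : M) : Prop := ∀ a, ∑ b, P a b x • B b x = B a x

theorem pj_nab (F : Frm I e P c) {A : ι → M → V →L[ℝ] V} (hA : Pj P A x) (s : M → V) :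
    Pj P (fun a => nab I e A a s) x := fun a => by
  simp only [nab, smul_add, sum_add_distrib, F.projD]
  rw [← hA a, _root_.sum_apply]
  rfl

/-- `∇_a ∇_a` in terms of the projector -/
theorem nab_nab_proj (F : Frm I e P c) {A : ι → M → V →L[ℝ] V} (hs : ∀ a, SA I (A a) x)
    (hA : ∀ᶠ y in 𝓝 x, Pj P A y) {s : M → V} (h : SA I s x) (a l : ι) :
    nab I e A a (nab I e A l s) x = ∑ b, (dv I (e a) (P l b) x • nab I e A b s x
      + P l b x • nab I e A a (nab I e A b s) x) := by
  have hn := fun b => F.sN hs b h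
  rw [nab_congr (v := fun y => ∑ b, P l b y • nab I e A b s y) a
    (hA.mono fun y hy => (pj_nab F hy s l).symm), nab_sum a _ fun b => (F.sP l b x).smul (hn b)]
  exact sum_congr rfl fun b _ => nab_smul a (F.sP l b x) (hn b)

namespace Rot
variable (R : Rot I I' φ O e P e' P' U)
include R

theorem pj_pb (F : Frm I e P c) (hx : x ∈ O) (B : ι' → M' → N) : Pj P (pb φ U B) x := fun a => by
  simp only [pb, smul_sum, smul_smul]
  rw [sum_comm]
  refine sum_congr rfl fun a' _ => ?_
  rw [← sum_smul, ← R.UP F hx a' a]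
  congr 1
  exact sum_congr rfl fun b _ => by rw [(F.pr x).symm a b, mul_comm]

theorem sa_pb (hx : x ∈ O) {B : ι' → M' → N} (hB : ∀ a', SA I' (B a') (φ x)) (a : ι) :
    SA I (pb φ U B a) x :=
  SA.sum _ fun a' _ => (R.sU a' a x hx).smul (R.sa_comp hx (hB a'))

/-- a covector upstairs is recovered from its pull-back -/
theorem of_pb (hx : x ∈ O) {B : ι' → M' → N} (hB : Pj P' B (φ x)) (a' : ι') :
    B a' (φ x) = ∑ a, U a' a x • pb φ U B a x := by
  simp only [pb, smul_sum, smul_smul]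
  rw [sum_comm, ← hB a']
  exact sum_congr rfl fun b' _ => by rw [← sum_smul, R.UU' a' b' x hx]

/-- contraction of two rotated families -/
theorem sum_UU (hx : x ∈ O) (T : ι → ι → N) :
    ∑ a', ∑ a, ∑ b, (U a' a x * U a' b x) • T a b = ∑ a, ∑ b, P a b x • T a b := by
  rw [sum_comm]
  refine sum_congr rfl fun a _ => ?_
  rw [sum_comm]
  exact sum_congr rfl fun b _ => by rw [← sum_smul, R.UU a b x hx]

variable {A' : ι' → M' → V' →L[ℝ] V'} {s' : M' → V'}

theorem nab' (hx : x ∈ O) (hA : Pj P' A' (φ x)) (a' : ι')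
    (hs : MDifferentiableAt I' 𝓘(ℝ, V') s' (φ x)) :
    nab I' e' A' a' s' (φ x) = ∑ a, U a' a x • nab I e (pb φ U A') a (fun y => s' (φ y)) x := by
  simp only [nab, smul_add, sum_add_distrib]
  rw [R.D' hx a' hs, R.of_pb hx hA a', _root_.sum_apply]
  rfl

theorem nab_pb (F : Frm I e P c) (hx : x ∈ O) (a : ι)
    (hs : MDifferentiableAt I' 𝓘(ℝ, V') s' (φ x)) :
    nab I e (pb φ U A') a (fun y => s' (φ y)) x = ∑ a', U a' a x • nab I' e' A' a' s' (φ x) := by
  simp only [nab, smul_add, sum_add_distrib, pb]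
  rw [R.D F hx a hs, _root_.sum_apply]
  rfl

theorem nab_nab' (F : Frm I e P c) (F' : Frm I' e' P' c') (hx : x ∈ O)
    (hsA : ∀ a', SA I' (A' a') (φ x)) (hA : ∀ᶠ z in 𝓝 (φ x), Pj P' A' z) (a' b' : ι')
    (hs : SA I' s' (φ x)) :
    nab I' e' A' a' (nab I' e' A' b' s') (φ x) = ∑ a, U a' a x • ∑ b,
      (dv I (e a) (U b' b) x • nab I e (pb φ U A') b (fun y => s' (φ y)) x
        + U b' b x • nab I e (pb φ U A') a (nab I e (pb φ U A') b fun y => s' (φ y)) x) := by
  have hn := fun b => F.sN (R.sa_pb hx hsA) b (R.sa_comp hx hs)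
  rw [R.nab' hx hA.self_of_nhds a' (F'.sN hsA b' hs).md]
  refine sum_congr rfl fun a _ => ?_
  rw [nab_congr (v := fun y => ∑ b, U b' b y • nab I e (pb φ U A') b (fun y => s' (φ y)) y) a
    (by filter_upwards [R.ev hx, R.ev_map hx hs.ev, R.ev_map hx hA] with y hy h1 h2
      using R.nab' hy h2 b' h1), nab_sum a _ fun b => (R.sU b' b x hx).smul (hn b)]
  congr 1
  exact sum_congr rfl fun b _ => nab_smul a (R.sU b' b x hx) (hn b)

/-- contraction of a rotated covector with the transformed coefficients -/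
theorem sum_gam (L : LC I e P c Γ) (hx : x ∈ O) {T : ι → N} (hT : ∀ a, ∑ b, P a b x • T b = T a)
    (a' b' : ι') : ∑ k', gam I e Γ U a' b' k' x • ∑ k, U k' k x • T k
      = ∑ a, U a' a x • ∑ b, (dv I (e a) (U b' b) x • T b + U b' b x • ∑ k, Γ a b k x • T k) := by
  have h : ∀ b, ∑ k', U k' b x • ∑ k, U k' k x • T k = T b := fun b => by
    simp only [smul_sum, smul_smul]
    rw [sum_comm, ← hT b]
    exact sum_congr rfl fun k _ => by rw [← sum_smul, R.UU b k x hx]
  have _ := L
  simp only [gam, sum_smul, mul_smul, add_smul]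
  rw [sum_comm]
  refine sum_congr rfl fun a _ => ?_
  rw [← smul_sum, sum_add_distrib, sum_add_distrib]
  congr 2
  · rw [sum_comm]
    exact sum_congr rfl fun b _ => by rw [← smul_sum, h]
  · rw [sum_comm]
    refine sum_congr rfl fun b _ => ?_
    rw [sum_comm, smul_sum]
    refine sum_congr rfl fun k _ => ?_
    rw [← smul_sum]
    congr 1
    simp only [smul_comm (U _ k x) (Γ a b k x), ← smul_sum, h]

theorem hess' [IsManifold I' ∞ M'] (F : Frm I e P c) (F' : Frm I' e' P' c') (K : Ker e' P')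
    (L : LC I e P c Γ) (L' : LC I' e' P' c' Γ') (hx : x ∈ O)
    (hsA : ∀ a', SA I' (A' a') (φ x)) (hA : ∀ᶠ z in 𝓝 (φ x), Pj P' A' z) (a' b' : ι')
    (hs : SA I' s' (φ x)) :
    hess I' e' Γ' A' a' b' s' (φ x) = ∑ a, ∑ b, (U a' a x * U b' b x) •
      hess I e Γ (pb φ U A') a b (fun y => s' (φ y)) x := by
  simp only [hess, R.nab_nab' F F' hx hsA hA a' b' hs, R.gam_eq F F' K L L' hx,
    R.nab' hx hA.self_of_nhds _ hs.md]
  rw [R.sum_gam L hx (pj_nab F (R.pj_pb F hx A') _), ← sum_sub_distrib]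
  refine sum_congr rfl fun a _ => ?_
  rw [← smul_sub, ← sum_sub_distrib, smul_sum]
  exact sum_congr rfl fun b _ => by rw [mul_smul]; congr 1; rw [smul_sub]; abel

/-- the curvature is a two-form -/
theorem curv' [IsManifold I' ∞ M'] (F : Frm I e P c) (F' : Frm I' e' P' c') (K : Ker e' P')
    (hx : x ∈ O) (hsA : ∀ a', SA I' (A' a') (φ x)) (hA : ∀ᶠ z in 𝓝 (φ x), Pj P' A' z)
    (a' b' : ι') : curv I' e' c' A' a' b' (φ x)
      = ∑ a, ∑ b, (U a' a x * U b' b x) • curv I e c (pb φ U A') a b x := by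
  ext v
  have hs : SA I' (fun _ : M' => v) (φ x) := contMDiffAt_const
  have hs0 : SA I (fun _ : M => v) x := contMDiffAt_const
  set T := fun k => nab I e (pb φ U A') k (fun _ => v) x with hT
  have hP : ∀ a, ∑ b, P a b x • T b = T a := pj_nab F (R.pj_pb F hx A') _
  have h1 := F'.nab_comm hsA a' b' hs
  have h2 : ∑ k', c' a' b' k' (φ x) • nab I' e' A' k' (fun _ => v) (φ x)
      = ∑ l', (∑ k', c' a' b' k' (φ x) * P' k' l' (φ x)) • ∑ k, U l' k x • T k := by
    simp only [sum_smul, mul_smul]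
    rw [sum_comm]
    refine sum_congr rfl fun k' _ => ?_
    have hp : ∑ b, P' k' b (φ x) • nab I' e' A' b (fun _ => v) (φ x)
        = nab I' e' A' k' (fun _ => v) (φ x) := pj_nab F' hA.self_of_nhds _ k'
    rw [← smul_sum, ← hp]
    simp only [R.nab' hx hA.self_of_nhds _ hs.md, hT]
  have h : ∀ b, ∑ k', U k' b x • ∑ k, U k' k x • T k = T b := fun b => by
    simp only [smul_sum, smul_smul]
    rw [sum_comm, ← hP b]
    exact sum_congr rfl fun k _ => by rw [← sum_smul, R.UU b k x hx]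
  have h3 : ∀ (w : ι → ι → ℝ) (u : ι → ℝ), ∑ l', (∑ a, u a * ∑ b, w a b * U l' b x) •
      ∑ k, U l' k x • T k = ∑ a, u a • ∑ b, w a b • T b := fun w u => by
    simp only [sum_smul, mul_smul]
    rw [sum_comm]
    refine sum_congr rfl fun a _ => ?_
    rw [← smul_sum, sum_comm]
    congr 1
    exact sum_congr rfl fun b _ => by rw [← smul_sum, h]
  have h4 : ∑ l', (∑ a, ∑ b, U a' a x * U b' b x * ∑ k, c a b k x * U l' k x) •
      ∑ k, U l' k x • T k = ∑ a, ∑ b, (U a' a x * U b' b x) • ∑ k, c a b k x • T k := by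
    simp only [sum_smul]
    rw [sum_comm]
    refine sum_congr rfl fun a _ => ?_
    rw [sum_comm]
    refine sum_congr rfl fun b _ => ?_
    simp only [mul_smul (U a' a x * U b' b x), ← smul_sum, sum_smul, mul_smul (c a b _ x)]
    rw [sum_comm]
    congr 1
    exact sum_congr rfl fun k _ => by rw [← smul_sum, h]
  rw [h2, R.nab_nab' F F' hx hsA hA a' b' hs, R.nab_nab' F F' hx hsA hA b' a' hs] at h1
  simp only [R.br F F' K hx, add_smul, sub_smul, sum_add_distrib, sum_sub_distrib, h3, h4] at h1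
  rw [← h1]
  simp only [_root_.sum_apply, smul_apply, ← F.nab_comm (R.sa_pb hx hsA) _ _ hs0, smul_sub,
    sum_sub_distrib, smul_add, sum_add_distrib]
  have h5 : ∑ a, U b' a x • ∑ b, U a' b x • nab I e (pb φ U A') a
      (nab I e (pb φ U A') b fun _ => v) x = ∑ a, ∑ b, (U a' a x * U b' b x) •
      nab I e (pb φ U A') b (nab I e (pb φ U A') a fun _ => v) x := by
    simp only [smul_sum, smul_smul]
    rw [sum_comm]
    exact sum_congr rfl fun a _ => sum_congr rfl fun b _ => by rw [mul_comm]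
  have h6 : ∑ a, U a' a x • ∑ b, U b' b x • nab I e (pb φ U A') a
      (nab I e (pb φ U A') b fun _ => v) x = ∑ a, ∑ b, (U a' a x * U b' b x) •
      nab I e (pb φ U A') a (nab I e (pb φ U A') b fun _ => v) x := by
    simp only [smul_sum, smul_smul]
  rw [h5, h6]
  abel

/-- transformation of the divergences -/
theorem div' [IsManifold I' ∞ M'] (F : Frm I e P c) (F' : Frm I' e' P' c') (K : Ker e' P')
    (L : LC I e P c Γ) (L' : LC I' e' P' c' Γ') (hx : x ∈ O) {g : ι → M → ℝ} {g' : ι' → M' → ℝ}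
    (hg : ∀ k, g k x = ∑ a, Γ a k a x) (hg' : ∀ k, g' k (φ x) = ∑ a, Γ' a k a (φ x)) (k' : ι') :
    g' k' (φ x) = ∑ b, (dv I (e b) (U k' b) x + U k' b x * g b x) := by
  simp only [hg', R.gam_eq F F' K L L' hx, gam, mul_add, sum_add_distrib, hg]
  congr 1
  · have h := R.sum_UU hx fun a b => dv I (e a) (U k' b) x
    simp only [smul_eq_mul] at h
    calc _ = ∑ a, ∑ b, P a b x * dv I (e a) (U k' b) x := by
          rw [← h]
          exact sum_congr rfl fun a' _ => sum_congr rfl fun a _ => by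
            rw [mul_sum]; exact sum_congr rfl fun b _ => by ring
      _ = _ := by
          rw [sum_comm]
          exact sum_congr rfl fun b _ => by
            rw [← F.projD b (U k' b) x]
            exact sum_congr rfl fun a _ => by rw [(F.pr x).symm a b, smul_eq_mul]
  · have h := R.sum_UU hx fun a k => ∑ b, U k' b x * Γ a b k x
    simp only [smul_eq_mul] at h
    calc _ = ∑ a, ∑ k, P a k x * ∑ b, U k' b x * Γ a b k x := by
          rw [← h]
          refine sum_congr rfl fun a' _ => sum_congr rfl fun a _ => ?_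
          rw [sum_comm, mul_sum]
          refine sum_congr rfl fun k _ => ?_
          rw [mul_sum, mul_sum]
          exact sum_congr rfl fun b _ => by ring
      _ = _ := by
          simp only [mul_sum]
          rw [sum_congr rfl fun a _ => sum_comm, sum_comm]
          refine sum_congr rfl fun b _ => sum_congr rfl fun a _ => ?_
          rw [← L.proj a b a x, mul_sum]
          exact sum_congr rfl fun k _ => by rw [(F.pr x).symm a k]; ring

/-- the connection Laplacian, from the transformation of the divergences -/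
theorem lap' (F : Frm I e P c) (F' : Frm I' e' P' c') (hx : x ∈ O) {g : ι → M → ℝ}
    {g' : ι' → M' → ℝ} (hg : ∀ k', g' k' (φ x) = ∑ b, (dv I (e b) (U k' b) x + U k' b x * g b x))
    (hsA : ∀ a', SA I' (A' a') (φ x)) (hA : ∀ᶠ z in 𝓝 (φ x), Pj P' A' z) (hs : SA I' s' (φ x)) :
    lap I' e' g' A' s' (φ x) = lap I e g (pb φ U A') (fun y => s' (φ y)) x := by
  set B := pb φ U A' with hB
  set s : M → V' := fun y => s' (φ y) with hss
  have hP : ∀ a, ∑ b, P a b x • nab I e B b s x = nab I e B a s x := pj_nab F (R.pj_pb F hx A') _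
  have h0 := nab_nab_proj F (R.sa_pb hx hsA) ((R.ev hx).mono fun y hy => R.pj_pb F hy A')
    (R.sa_comp hx hs)
  have hd : ∀ a b, dv I (e a) (P a b) x
      = ∑ a', (dv I (e a) (U a' a) x * U a' b x + U a' a x * dv I (e a) (U a' b) x) := fun a b => by
    rw [dv_congr (v := fun y => ∑ a', U a' a y * U a' b y)
      ((R.ev hx).mono fun y hy => (R.UU a b y hy).symm),
      dv_sum' _ fun a' => (R.sU a' a x hx).mul (R.sU a' b x hx)]
    exact sum_congr rfl fun a' _ => dv_mul (R.sU a' a x hx) (R.sU a' b x hx)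
  simp only [lap, R.nab_nab' F F' hx hsA hA _ _ hs, R.nab' hx hA.self_of_nhds _ hs.md, hg,
    ← hB, ← hss]
  congr 1
  have e1 := R.sum_UU hx fun a b => nab I e B a (nab I e B b s) x
  have e2 := R.sum_UU hx fun a b => g a x • nab I e B b s x
  have e3 : ∑ a, ∑ b, P a b x • g a x • nab I e B b s x = ∑ a, g a x • nab I e B a s x :=
    sum_congr rfl fun a _ => by simp only [smul_comm (P a _ x) (g a x), ← smul_sum, hP]
  have e4 : ∑ a, nab I e B a (nab I e B a s) x = ∑ a, ∑ b, dv I (e a) (P a b) x • nab I e B b s x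
      + ∑ a, ∑ b, P a b x • nab I e B a (nab I e B b s) x := by
    rw [← sum_add_distrib]
    exact sum_congr rfl fun a _ => by rw [h0 a a, sum_add_distrib]
  have e5 : ∑ a, ∑ b, dv I (e a) (P a b) x • nab I e B b s x
      = ∑ a', ∑ a, ∑ b, (dv I (e a) (U a' a) x * U a' b x) • nab I e B b s x
        + ∑ a', ∑ a, ∑ b, (U a' a x * dv I (e a) (U a' b) x) • nab I e B b s x := by
    simp only [hd, sum_smul, add_smul, sum_add_distrib]
    congr 1 <;> rw [sum_congr rfl fun a _ => sum_comm, sum_comm]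
  rw [sum_add_distrib (s := univ) (f := fun a => nab I e B a (nab I e B a s) x), e4, e5, ← e3,
    ← e2, ← e1]
  simp only [sum_add_distrib, smul_add, smul_sum, smul_smul]
  simp only [add_mul, sum_mul, add_smul, sum_smul, sum_add_distrib]
  have e6 : ∑ a', ∑ a, ∑ b, (U a' b x * g b x * U a' a x) • nab I e B a s x
      = ∑ a', ∑ a, ∑ b, (U a' a x * U a' b x * g a x) • nab I e B b s x :=
    sum_congr rfl fun a' _ => by
      rw [sum_comm]; exact sum_congr rfl fun a _ => sum_congr rfl fun b _ => by ring_nf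
  have e7 : ∑ a', ∑ a, ∑ b, (dv I (e b) (U a' b) x * U a' a x) • nab I e B a s x
      = ∑ a', ∑ a, ∑ b, (dv I (e a) (U a' a) x * U a' b x) • nab I e B b s x :=
    sum_congr rfl fun a' _ => sum_comm
  rw [e6, e7]
  abel

theorem dir' (F : Frm I e P c) (hx : x ∈ O) (ρ' : ι' → M' → V' →L[ℝ] V')
    (hs : MDifferentiableAt I' 𝓘(ℝ, V') s' (φ x)) (hA : Pj P' A' (φ x)) :
    dir I' e' ρ' A' s' (φ x) = dir I e (pb φ U ρ') (pb φ U A') (fun y => s' (φ y)) x := by
  have _ := F
  simp only [dir, R.nab' hx hA _ hs, map_sum, map_smul]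
  rw [sum_comm]
  exact sum_congr rfl fun a _ => by rw [pb, _root_.sum_apply]; rfl

end Rot

variable (I) in
/-- `u` intertwines the connections `A` and `B` at `x` -/
def Itw (e : ι → (x : M) → TangentSpace I x) (A : ι → M → V →L[ℝ] V) (B : ι → M → V' →L[ℝ] V')
    (u : M → V →L[ℝ] V') (x : M) : Prop :=
  ∀ a, dv I (e a) u x + B a x ∘L u x = u x ∘L A a x

variable {A : ι → M → V →L[ℝ] V} {B : ι → M → V' →L[ℝ] V'} {u : M → V →L[ℝ] V'} {s : M → V}

theorem Itw.nab (h : Itw I e A B u x) (hu : MDifferentiableAt I 𝓘(ℝ, V →L[ℝ] V') u x)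
    (hs : MDifferentiableAt I 𝓘(ℝ, V) s x) (a : ι) :
    nab I e B a (fun y => u y (s y)) x = u x (nab I e A a s x) := by
  have := congrArg (fun T : V →L[ℝ] V' => T (s x)) (h a)
  simp only [add_apply, ContinuousLinearMap.comp_apply] at this
  simp only [Wz78.nab, dv_app hu hs, map_add, ← this]
  abel

theorem itw_nab_nab (F : Frm I e P c) (h : ∀ᶠ y in 𝓝 x, Itw I e A B u y) (hu : SA I u x)
    (hA : ∀ a, SA I (A a) x) (hs : SA I s x) (a b : ι) :
    nab I e B a (nab I e B b fun y => u y (s y)) x = u x (nab I e A a (nab I e A b s) x) := by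
  rw [nab_congr (v := fun y => u y (nab I e A b s y)) a
    (by filter_upwards [h, hu.ev, hs.ev] with y h1 h2 h3 using h1.nab h2 h3 b)]
  exact h.self_of_nhds.nab hu.md (F.sN hA b hs).md a

theorem itw_hess (F : Frm I e P c) (h : ∀ᶠ y in 𝓝 x, Itw I e A B u y) (hu : SA I u x)
    (hA : ∀ a, SA I (A a) x) (hs : SA I s x) (a b : ι) :
    hess I e Γ B a b (fun y => u y (s y)) x = u x (hess I e Γ A a b s x) := by
  simp only [hess, itw_nab_nab F h hu hA hs, h.self_of_nhds.nab hu.md hs.md, map_sub, map_sum,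
    map_smul]

theorem itw_lap (F : Frm I e P c) (h : ∀ᶠ y in 𝓝 x, Itw I e A B u y) (hu : SA I u x)
    (hA : ∀ a, SA I (A a) x) (hs : SA I s x) (g : ι → M → ℝ) :
    lap I e g B (fun y => u y (s y)) x = u x (lap I e g A s x) := by
  simp only [lap, itw_nab_nab F h hu hA hs, h.self_of_nhds.nab hu.md hs.md, map_neg, map_sum,
    map_smul, map_add]

theorem itw_curv (F : Frm I e P c) (h : ∀ᶠ y in 𝓝 x, Itw I e A B u y) (hu : SA I u x)
    (hA : ∀ a, SA I (A a) x) (hB : ∀ a, SA I (B a) x) (a b : ι) :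
    curv I e c B a b x ∘L u x = u x ∘L curv I e c A a b x := by
  ext v
  have hs : SA I (fun _ : M => v) x := contMDiffAt_const
  have h1 := F.nab_comm hB a b (hu.app hs)
  have h2 := F.nab_comm hA a b hs
  simp only [itw_nab_nab F h hu hA hs, h.self_of_nhds.nab hu.md hs.md] at h1
  simp only [ContinuousLinearMap.comp_apply, ← h1, ← h2, map_sub, map_sum, map_smul]

theorem Itw.dir (h : Itw I e A B u x) (hu : MDifferentiableAt I 𝓘(ℝ, V →L[ℝ] V') u x)
    (hs : MDifferentiableAt I 𝓘(ℝ, V) s x) {ρ : ι → M → V →L[ℝ] V} {σ : ι → M → V' →L[ℝ] V'}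
    (hρ : ∀ a, σ a x ∘L u x = u x ∘L ρ a x) :
    dir I e σ B (fun y => u y (s y)) x = u x (dir I e ρ A s x) := by
  simp only [Wz78.dir, h.nab hu hs, map_sum]
  exact sum_congr rfl fun a _ => congrArg (fun T : V →L[ℝ] V' => T (Wz78.nab I e A a s x)) (hρ a)

end Crest.Agent.X212.Eqv71
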