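import Crest.Agent.X212.Eqv71.Grp
import Crest.Agent.X212.Mp86.Res
import Crest.Agent.X212.Sob92.Bas

/-! Naturality of the equations; related perturbations `PRel`; invariance of `Sol` and `kap`. -/

set_option autoImplicit false
set_option linter.unusedSectionVars false

open scoped Manifold ContDiff Topology InnerProductSpace
open Finset Filter MeasureTheory

noncomputable section
namespace Crest.Agent.X212.Eqv71
open An Wz78 Sob92

section meas
variable {X Y : Type*} [TopologicalSpace X] [MeasurableSpace X] [BorelSpace X]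
  [TopologicalSpace Y] [MeasurableSpace Y] [BorelSpace Y] {μ : Measure X} {ν : Measure Y}
  {φ : X → Y} {ψ : Y → X} {O : Set X} {O' : Set Y}

theorem aem_of_cont (hO : IsOpen O) (h : ∀ x ∈ O, ContinuousAt φ x) :
    AEMeasurable φ (μ.restrict O) := by
  classical
  have hc : ContinuousOn φ O := fun x hx => (h x hx).continuousWithinAt
  rcases isEmpty_or_nonempty X with hX | ⟨⟨x₀⟩⟩
  · exact (measurable_of_empty φ).aemeasurable
  refine ⟨O.piecewise φ fun _ => φ x₀, hc.measurable_piecewise continuousOn_const hO.measurableSet,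
    (ae_restrict_mem hO.measurableSet).mono fun x hx => ?_⟩
  rw [Set.piecewise_eq_of_mem _ _ _ hx]

theorem map_inv (hO : IsOpen O) (hO' : IsOpen O') (h : ∀ x ∈ O, ContinuousAt φ x)
    (h' : ∀ y ∈ O', ContinuousAt ψ y) (hl : ∀ x ∈ O, ψ (φ x) = x)
    (hμ : (μ.restrict O).map φ = ν.restrict O') : (ν.restrict O').map ψ = μ.restrict O := by
  have h1 : AEMeasurable ψ ((μ.restrict O).map φ) := hμ ▸ aem_of_cont hO' h'
  rw [← hμ, h1.map_map_of_aemeasurable (aem_of_cont hO h),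
    Measure.map_congr (f := ψ ∘ φ) (g := id) ((ae_restrict_mem hO.measurableSet).mono hl), Measure.map_id]

theorem integral_inv {N : Type*} [NormedAddCommGroup N] [NormedSpace ℝ N] (hO : IsOpen O)
    (hO' : IsOpen O') (h : ∀ x ∈ O, ContinuousAt φ x) (h' : ∀ y ∈ O', ContinuousAt ψ y)
    (hl : ∀ x ∈ O, ψ (φ x) = x) (hr : ∀ y ∈ O', φ (ψ y) = y)
    (hμ : (μ.restrict O).map φ = ν.restrict O') (f : Y → N) :
    ∫ y in O', f y ∂ν = ∫ x in O, f (φ x) ∂μ := by
  by_cases hf : AEStronglyMeasurable f (ν.restrict O')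
  · rw [← hμ] at hf ⊢
    exact integral_map (aem_of_cont hO h) hf
  · rw [integral_non_aestronglyMeasurable hf, integral_non_aestronglyMeasurable fun hg => hf ?_]
    rw [← map_inv hO hO' h h' hl hμ] at hg
    exact (hg.comp_aemeasurable (aem_of_cont hO' h')).congr
      ((ae_restrict_mem hO'.measurableSet).mono fun y hy => congrArg f (hr y hy))

theorem map_restr (hO : IsOpen O) (h : ∀ x ∈ O, ContinuousAt φ x)
    (hμ : (μ.restrict O).map φ = ν.restrict O') {A : Set X} {A' : Set Y} (hA' : IsOpen A')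
    (hs' : A' ⊆ O') (he : φ ⁻¹' A' ∩ O = A) : (μ.restrict A).map φ = ν.restrict A' := by
  rw [← Measure.restrict_restrict_of_subset hs', ← hμ,
    Measure.restrict_map_of_aemeasurable (aem_of_cont hO h) hA'.measurableSet, ← he,
    Measure.restrict_restrict' hO.measurableSet]

end meas

variable {E : Type} [NormedAddCommGroup E] [NormedSpace ℝ E] [FiniteDimensional ℝ E]
  [MeasurableSpace E] [BorelSpace E]
  {HM : Type} [TopologicalSpace HM] {I : ModelWithCorners ℝ E HM}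
  {M : Type} [TopologicalSpace M] [ChartedSpace HM M] [IsManifold I ∞ M]
  [MeasurableSpace M] {ι : Type} [Fintype ι] {lam : Type} [Fintype lam]
  {E' : Type} [NormedAddCommGroup E'] [NormedSpace ℝ E'] [FiniteDimensional ℝ E']
  [MeasurableSpace E'] [BorelSpace E']
  {HM' : Type} [TopologicalSpace HM'] {I' : ModelWithCorners ℝ E' HM'}
  {M' : Type} [TopologicalSpace M'] [ChartedSpace HM' M'] [IsManifold I' ∞ M']
  [MeasurableSpace M'] {ι' : Type} [Fintype ι'] {lam' : Type} [Fintype lam']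
  {B : Base M ι lam} {G : Geo I M ι lam} {B' : Base M' ι' lam'} {G' : Geo I' M' ι' lam'}
  {O : Set M} {O' : Set M'} {ψ : M' → M}
  {U : M → ι' → ι → ℝ} {v : M → CL (Eu lam) (Eu lam')} {x : M}

/-- an isometry `O → O'` of backgrounds with inverse `ψ` -/
structure KG (B : Base M ι lam) (G : Geo I M ι lam) (B' : Base M' ι' lam') (G' : Geo I' M' ι' lam')
    (O : Set M) (O' : Set M') (φ : M → M') (ψ : M' → M) (U : M → ι' → ι → ℝ)
    (v : M → CL (Eu lam) (Eu lam')) : Prop extends LG B G B' G' O φ U v where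
  inv : Inv I I' φ ψ O O'
  μ : (G.F.μ.restrict O).map φ = G'.F.μ.restrict O'

theorem kg_refl (hB : B.OK I) (hG : G.OK B) (hO : IsOpen O) :
    KG B G B G O O id id (fun x b a => B.P b a x) B.l :=
  ⟨lg_refl hB hG hO, inv_refl hO, Measure.map_id⟩

theorem kg_of_geq [BorelSpace M] [BorelSpace M'] {φ : OpenPartialHomeomorph M M'}
    (g : GEq B G B' G' φ U v) (hB : B.OK I) (hG : G.OK B) (hB' : B'.OK I') (hG' : G'.OK B')
    (hO : IsOpen O) (hs : O ⊆ φ.source) : KG B G B' G' O (φ '' O) φ φ.symm U v :=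
  ⟨lg_of_geq g hB hG hB' hG' hO hs, inv_of_geq g hO hs,
    map_restr φ.open_source (fun _ hx => φ.continuousAt hx) g.μ
      (φ.isOpen_image_of_subset_source hO hs) (Set.image_subset_iff.2 fun _ hx => φ.map_source (hs hx))
      (φ.injOn.preimage_image_inter hs)⟩

variable {φ : M → M'}

namespace KG
variable [BorelSpace M] [BorelSpace M'] (g : KG B G B' G' O O' φ ψ U v)
include g

theorem symm : KG B' G' B G O' O ψ φ (fun y a b => U (ψ y) b a) fun y => trn (v (ψ y)) :=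
  ⟨g.toLG.symm g.inv, g.rot.inv g.inv, map_inv g.rot.opn g.inv.opn'
    (fun x hx => (g.rot.sφ x hx).continuousAt) (fun y hy => (g.inv.sψ y hy).continuousAt)
    g.inv.linv g.μ⟩

theorem integral {N : Type*} [NormedAddCommGroup N] [NormedSpace ℝ N] (f : M' → N) :
    ∫ y in O', f y ∂G'.F.μ = ∫ x in O, f (φ x) ∂G.F.μ :=
  integral_inv g.rot.opn g.inv.opn' (fun x hx => (g.rot.sφ x hx).continuousAt)
    (fun y hy => (g.inv.sψ y hy).continuousAt) g.inv.linv g.inv.rinv g.μ f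

/-- integrals of related functions -/
theorem integral_rel {N : Type*} [NormedAddCommGroup N] [NormedSpace ℝ N] {f : M → N} {f' : M' → N}
    (h : ∀ x ∈ O, f' (φ x) = f x) : ∫ y in O', f' y ∂G'.F.μ = ∫ x in O, f x ∂G.F.μ := by
  rw [g.integral]
  exact integral_congr_ae ((ae_restrict_mem g.rot.opn.measurableSet).mono h)

theorem integral_off {N : Type*} [NormedAddCommGroup N] [NormedSpace ℝ N] {f : M → N} {f' : M' → N}
    (h : ∀ x ∈ O, f' (φ x) = f x) (h0 : ∀ x ∉ O, f x = 0) (h0' : ∀ y ∉ O', f' y = 0) :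
    ∫ y, f' y ∂G'.F.μ = ∫ x, f x ∂G.F.μ := by
  rw [← setIntegral_eq_integral_of_forall_compl_eq_zero h0,
    ← setIntegral_eq_integral_of_forall_compl_eq_zero h0', g.integral_rel h]

end KG

section md
variable {m : Md M ι lam} {m' : Md M' ι' lam'} {u : M → CL m.V m'.V} {W : m.Cn} {W' : m'.Cn}

theorem kap_on [BorelSpace M] [BorelSpace M'] (g : KG B G B' G' O O' φ ψ U v)
    (h : LM B G B' G' O φ U v W W' u) :
    ∫ y in O', m'.kd B' G'.F W' y ∂G'.F.μ = ∫ x in O, m.kd B G.F W x ∂G.F.μ :=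
  g.integral_rel fun _ hx => h.kd hx

theorem kap_eq [BorelSpace M] [BorelSpace M'] (g : KG B G B' G' Set.univ Set.univ φ ψ U v)
    (h : LM B G B' G' Set.univ φ U v W W' u) : m'.kap B' G'.F W' = m.kap B G.F W := by
  simpa only [Measure.restrict_univ, Md.kap] using kap_on g h

/-- the phase acts trivially on `g` -/
theorem cj_phase {x' : M'} {U : ι' → ι → ℝ} {v : CL (Eu lam) (Eu lam')} {u : CL m.V m'.V}
    (e : ME m x m' x' U v u) (h : m.OK I B) (h' : m'.OK I' B') (ζ : Circle) {ξ : m.A}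
    (hξ : ξ ∈ m.gS x) : cj (csL m'.J ζ ∘L u) ξ = cj u ξ := by
  have s := trn_intertw e.J h.Jsk h'.Jsk
  rw [cj_apply, cj_apply, trn_comp, trn_csL h'.Jsk]
  congr 1
  ext1 w
  simp only [ContinuousLinearMap.comp_apply, csL_apply]
  rw [map_cs s, map_cs (u := opL ξ) (J' := m.J) (g_J hξ).symm, e.cs,
    cs_mul h.Jsq, Complex.mul_conj, Circle.normSq_coe, Complex.ofReal_one, cs_one]

theorem p2_mem (x : M) (ξ : Fm (ι × ι) m.A) (s : ι × ι) : m.p2 B x ξ s ∈ m.gS x := by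
  rw [Md.p2, Eqv71.idx_apply]
  exact Submodule.sum_mem _ fun b _ => Submodule.smul_mem _ _ (pg_mem x _)

theorem p1_mem (x : M) (ξ : Fm ι m.A) (s : ι) : m.p1 B x ξ s ∈ m.gS x := by
  rw [Md.p1, Eqv71.idx_apply]
  exact Submodule.sum_mem _ fun b _ => Submodule.smul_mem _ _ (pg_mem x _)

end md

variable {r n : ℕ} {c : Cfg M ι lam r} {c' : Cfg M' ι' lam' r} {u : M → CL c.m.V c'.m.V}
  {ζ : Circle}

section eqs
variable (g : LG B G B' G' O φ U v) (h : Ad0 c B G) (h' : Ad0 c' B' G')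
  (e : CEq G.F c c' O φ U v u ζ) (hx : x ∈ O)
include g h h' e hx

theorem ceq_dir : dir I' G'.F.e c'.m.ρ c'.W c'.Φ (φ x)
    = cs c'.m.J ζ (u x (dir I G.F.e c.m.ρ c.W c.Φ x)) :=
  ((g.of_ceq h h' e).phase ζ).dir hx (h.sm x) (h'.sm _) ((g.rot.ev hx).mono e.Φ)

theorem ceq_nab (b : ι') : nab I' G'.F.e c'.W b c'.Φ (φ x)
    = ∑ a, U x b a • cs c'.m.J ζ (u x (nab I G.F.e c.W a c.Φ x)) :=
  have k := (g.of_ceq h h' e).phase ζ
  g.nab hx h'.conn.cc.toCon (k.su x hx) (k.itw x hx) (h.sm x) (h'.sm _) ((g.rot.ev hx).mono e.Φ) b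

theorem ceq_norm : ‖c'.Φ (φ x)‖ = ‖c.Φ x‖ :=
  (e.Φ x hx).symm ▸ (((g.of_ceq h h' e).phase ζ).me x hx).norm (p_Φ h x)

theorem ceq_mu : c'.m.mu B' (φ x) (c'.Φ (φ x)) (c'.Φ (φ x))
    = ridx (sq2 (U x)) (cj (u x)) (c.m.mu B x (c.Φ x) (c.Φ x)) := by
  have k := (g.of_ceq h h' e).phase ζ
  rw [e.Φ x hx]
  refine ((k.me x hx).mu (k.be x hx) g.hB g.hB' h.ok h'.ok _ _).trans (ridx_congr _ fun s => ?_)
  exact cj_phase (me_of_meq e.m hx) h.ok h'.ok ζ (p2_mem x _ s)

theorem ceq_p2F : c'.m.p2 B' (φ x) (c'.m.Fg G'.F c'.W (φ x))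
    = ridx (sq2 (U x)) (cj (u x)) (c.m.p2 B x (c.m.Fg G.F c.W x)) := by
  have k := g.of_ceq h h' e
  rw [k.Fg hx, (k.me x hx).p2 (k.be x hx) g.hB g.hB' h.ok h'.ok]

theorem ceq_eD {τ : Pt M ι lam r n} {τ' : Pt M' ι' lam' r n}
    (t : τ'.D c' (φ x) = cs c'.m.J ζ (u x (τ.D c x))) :
    c'.eD G' τ' (φ x) = cs c'.m.J ζ (u x (c.eD G τ x)) := by
  rw [Cfg.eD, Cfg.eD, ceq_dir g h h' e hx, t, map_sub, ← csL_apply, ← csL_apply, ← csL_apply,
    map_sub]

theorem ceq_eC {τ : Pt M ι lam r n} {τ' : Pt M' ι' lam' r n}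
    (t : τ'.C c' (φ x) = ridx (sq2 (U x)) (cj (u x)) (τ.C c x)) :
    c'.eC B' G' τ' (φ x) = ridx (sq2 (U x)) (cj (u x)) (c.eC B G τ x) := by
  rw [Cfg.eC, Cfg.eC, ceq_p2F g h h' e hx, ceq_mu g h h' e hx, t, map_sub, map_sub]

end eqs

/-- off `O` the resolvent of the adjoint connection exists on `Cb`, and the curvature is in `Cb` -/
structure Ex (F : Fr I M ι) (c : Cfg M ι lam r) (O : Set M) : Prop where
  res : ∀ s, F.Cb s → (∀ x ∈ O, s x = 0) → ∃ w, F.IsRes (c.m.adW c.W) s w ∧ F.Cb w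
  cv : F.Cb (Oᶜ.indicator (c.m.Fg F c.W))

theorem ex_univ (F : Fr I M ι) (c : Cfg M ι lam r) : Ex F c Set.univ :=
  ⟨fun s _ h => ⟨0, by rw [show s = 0 from funext fun x => h x trivial]; exact Mp86.isRes_zero,
    Cb_const 0⟩, by rw [Set.compl_univ, Set.indicator_empty]; exact Cb_const 0⟩

/-- related configurations: equivalent over `O`, spinors supported in `O`, `O'` -/
structure CR (B : Base M ι lam) (G : Geo I M ι lam) (B' : Base M' ι' lam') (G' : Geo I' M' ι' lam')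
    (O : Set M) (O' : Set M') (φ : M → M') (U : M → ι' → ι → ℝ) (v : M → CL (Eu lam) (Eu lam'))
    (c : Cfg M ι lam r) (c' : Cfg M' ι' lam' r) (u : M → CL c.m.V c'.m.V) (ζ : Circle) : Prop where
  adm : Ad0 c B G
  adm' : Ad0 c' B' G'
  off : ∀ x ∉ O, c.Φ x = 0
  off' : ∀ y ∉ O', c'.Φ y = 0
  ex : Ex G.F c O
  ex' : Ex G'.F c' O'
  e : CEq G.F c c' O φ U v u ζ

theorem cr_univ (h : Ad0 c B G) (h' : Ad0 c' B' G') (e : CEq G.F c c' Set.univ φ U v u ζ) :
    CR B G B' G' Set.univ Set.univ φ U v c c' u ζ :=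
  ⟨h, h', fun _ h => absurd trivial h, fun _ h => absurd trivial h, ex_univ _ _, ex_univ _ _, e⟩

theorem CR.symm (k : CR B G B' G' O O' φ U v c c' u ζ) (g : LG B G B' G' O φ U v)
    (i : Inv I I' φ ψ O O') : CR B' G' B G O' O ψ (fun y a b => U (ψ y) b a)
      (fun y => trn (v (ψ y))) c' c (fun y => trn (u (ψ y))) ζ⁻¹ :=
  ⟨k.adm', k.adm, k.off', k.off, k.ex', k.ex, ceq_symm g i k.adm k.adm' k.e⟩

/-- related perturbations -/
structure PRel (B : Base M ι lam) (G : Geo I M ι lam) (B' : Base M' ι' lam')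
    (G' : Geo I' M' ι' lam') (O : Set M) (O' : Set M') (φ : M → M') (U : M → ι' → ι → ℝ)
    (v : M → CL (Eu lam) (Eu lam')) (τ : Pt M ι lam r n) (τ' : Pt M' ι' lam' r n) : Prop where
  D : ∀ {c c' u ζ}, CR B G B' G' O O' φ U v c c' u ζ → ∀ x ∈ O,
    τ'.D c' (φ x) = cs c'.m.J ζ (u x (τ.D c x))
  C : ∀ {c c' u ζ}, CR B G B' G' O O' φ U v c c' u ζ → ∀ x ∈ O,
    τ'.C c' (φ x) = ridx (sq2 (U x)) (cj (u x)) (τ.C c x)
  S : ∀ {c c' u ζ}, CR B G B' G' O O' φ U v c c' u ζ → ∀ i, τ'.S c' i = (ζ : ℂ) ^ 2 * τ.S c i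

/-- natural perturbations (gauge equivariance over `O`) -/
abbrev PNat (B : Base M ι lam) (G : Geo I M ι lam) (O : Set M) (τ : Pt M ι lam r n) : Prop :=
  PRel B G B G O O id (fun x b a => B.P b a x) B.l τ τ

variable {τ σ : Pt M ι lam r n} {τ' σ' : Pt M' ι' lam' r n}

theorem PRel.add (p : PRel B G B' G' O O' φ U v τ τ') (q : PRel B G B' G' O O' φ U v σ σ') :
    PRel B G B' G' O O' φ U v (τ.add σ) (τ'.add σ') where
  D k x hx := by
    simp only [Pt.add, p.D k x hx, q.D k x hx, map_add, ← csL_apply]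
  C k x hx := by simp only [Pt.add, p.C k x hx, q.C k x hx, map_add]
  S k i := by simp only [Pt.add, p.S k i, q.S k i, mul_add]

theorem PRel.eD (p : PRel B G B' G' O O' φ U v τ τ') (g : LG B G B' G' O φ U v)
    (k : CR B G B' G' O O' φ U v c c' u ζ) (hx : x ∈ O) :
    c'.eD G' τ' (φ x) = cs c'.m.J ζ (u x (c.eD G τ x)) :=
  ceq_eD g k.adm k.adm' k.e hx (p.D k x hx)

theorem PRel.eC (p : PRel B G B' G' O O' φ U v τ τ') (g : LG B G B' G' O φ U v)
    (k : CR B G B' G' O O' φ U v c c' u ζ) (hx : x ∈ O) :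
    c'.eC B' G' τ' (φ x) = ridx (sq2 (U x)) (cj (u x)) (c.eC B G τ x) :=
  ceq_eC g k.adm k.adm' k.e hx (p.C k x hx)

/-- solutions go to solutions -/
theorem PRel.sol (p : PRel B G B' G' Set.univ Set.univ φ U v τ τ')
    (g : LG B G B' G' Set.univ φ U v) (hs : Function.Surjective φ) (h : c.Sol B G τ)
    (h' : c'.Adm B' G') (e : CEq G.F c c' Set.univ φ U v u ζ) : c'.Sol B' G' τ' := by
  have k := cr_univ (ad0 h.toAdm) (ad0 h') e
  refine ⟨h', hs.forall.2 fun x => ?_, hs.forall.2 fun x => ?_, fun i => ?_⟩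
  · rw [p.eD g k trivial, h.D, map_zero, ← csL_apply, map_zero]
  · rw [p.eC g k trivial, h.C, map_zero]
  · rw [p.S k, h.S, mul_zero]

/-- the inverse relation, for a natural perturbation -/
theorem PRel.symm (p : PRel B G B' G' O O' φ U v τ τ') (g : LG B G B' G' O φ U v)
    (i : Inv I I' φ ψ O O') (q : PNat B G O τ) : PRel B' G' B G O' O ψ (fun y a b => U (ψ y) b a)
      (fun y => trn (v (ψ y))) τ' τ := by
  have key : ∀ {c' : Cfg M' ι' lam' r} {c : Cfg M ι lam r} {u : M' → CL c'.m.V c.m.V} {ζ : Circle},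
      CR B' G' B G O' O ψ (fun y a b => U (ψ y) b a) (fun y => trn (v (ψ y))) c' c u ζ →
      CR B G B' G' O O' φ U v c c' (fun x => trn (u (φ x))) ζ⁻¹ ∧
      CR B G B G O O id (fun x b a => B.P b a x) B.l c c c.m.p 1 := by
    intro c' c u ζ k
    have k1 := k.symm (g.symm i) (g.rot.inv i)
    refine ⟨⟨k1.adm, k1.adm', k1.off, k1.off', k1.ex, k1.ex', ?_⟩, k1.adm, k1.adm, k1.off,
      k1.off, k1.ex, k1.ex, ceq_refl g.hB g.hG k1.adm g.rot.opn⟩
    refine ⟨⟨k1.e.m.su, k1.e.m.uu, k1.e.m.uu', k1.e.m.J, fun x hx => ?_, fun x hx => ?_⟩,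
      fun x hx => ?_, k1.e.Φ, k1.e.z⟩
    · simpa only [i.linv x hx] using k1.e.m.ρ x hx
    · simpa only [i.linv x hx, trn_trn] using k1.e.m.j x hx
    · simpa only [i.linv x hx] using k1.e.W x hx
  refine ⟨fun {c' c u ζ} k y hy => ?_, fun {c' c u ζ} k y hy => ?_, fun {c' c u ζ} k j => ?_⟩
  · obtain ⟨x, hx, rfl⟩ := i.surj hy
    have m := me_of_meq k.e.m hy
    have h1 : ∀ a, u (φ x) (trn (u (φ x)) a) = c.m.p (ψ (φ x)) a := fun a =>
      congrArg (fun T : En _ => T a) m.uu'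
    have h2 := q.D (key k).2 x hx
    rw [Circle.coe_one, cs_one] at h2
    rw [p.D (key k).1 x hx, ← m.cs, cs_mul k.adm'.ok.Jsq, h1, i.linv x hx, ← h2]
    simp
  · obtain ⟨x, hx, rfl⟩ := i.surj hy
    have m := me_of_meq k.e.m hy
    have h2 := q.C (key k).2 x hx
    rw [p.C (key k).1 x hx, ridx_ridx, i.linv x hx]
    refine h2.trans ?_
    simp only [sq2_mul (fun a b => U x b a) (U x), (g.be x hx).UU]
    exact ridx_congr _ fun s => by
      rw [ContinuousLinearMap.comp_apply, cj_cj, m.uu', i.linv x hx]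
  · rw [p.S (key k).1 j, ← mul_assoc]; simp

end Crest.Agent.X212.Eqv71
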