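import Crest.Agent.X212.An.Gauge

/-! Pointwise algebra of equivalences of modules: conjugation `cj`, rotation of indices `ridx`,
the pointwise equivalence `PE` and what it intertwines. -/

set_option autoImplicit false
set_option linter.unusedSectionVars false

open scoped Manifold ContDiff Topology InnerProductSpace
open Finset

noncomputable section
namespace Crest.Agent.X212.Eqv71
open An Wz78

section lin0
variable {κ κ' κ'' : Type} [Fintype κ] [Fintype κ'] [Fintype κ'']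

theorem inner_trn (u : CL (Eu κ) (Eu κ')) (a : Eu κ') (b : Eu κ) : ⟪trn u a, b⟫_ℝ = ⟪a, u b⟫_ℝ :=
  ContinuousLinearMap.adjoint_inner_left u b a

theorem inner_trn' (u : CL (Eu κ) (Eu κ')) (a : Eu κ) (b : Eu κ') : ⟪a, trn u b⟫_ℝ = ⟪u a, b⟫_ℝ :=
  ContinuousLinearMap.adjoint_inner_right u a b

@[simp] theorem trn_trn (u : CL (Eu κ) (Eu κ')) : trn (trn u) = u :=
  ContinuousLinearMap.adjoint_adjoint u

theorem trn_comp (u : CL (Eu κ) (Eu κ')) (w : CL (Eu κ') (Eu κ'')) :
    trn (w ∘L u) = trn u ∘L trn w := ContinuousLinearMap.adjoint_comp w u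

theorem trn_of_skw {A : En κ} (h : Skw A) : trn A = -A :=
  ContinuousLinearMap.ext fun a => ext_inner_right ℝ fun b => by
    rw [inner_trn, neg_apply, inner_neg_left, h, neg_neg]

theorem trn_of_sym {A : En κ} (h : Sym A) : trn A = A :=
  ContinuousLinearMap.ext fun a => ext_inner_right ℝ fun b => by rw [inner_trn, h]

theorem skw_of_trn {A : En κ} (h : trn A = -A) : Skw A := fun a b => by
  rw [← inner_trn' A, h, neg_apply, inner_neg_right]

theorem sym_of_trn {A : En κ} (h : trn A = A) : Sym A := fun a b => by rw [← inner_trn' A, h]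

/-- orthogonal projectors commute with a map that preserves the subspaces with its adjoint -/
theorem proj_comm {A A' : Type} [NormedAddCommGroup A] [InnerProductSpace ℝ A]
    [NormedAddCommGroup A'] [InnerProductSpace ℝ A'] [FiniteDimensional ℝ A]
    [FiniteDimensional ℝ A'] {S : Submodule ℝ A} {S' : Submodule ℝ A'} {T : A →L[ℝ] A'}
    {T' : A' →L[ℝ] A} (h : ∀ a b, ⟪T a, b⟫_ℝ = ⟪a, T' b⟫_ℝ) (h1 : ∀ a ∈ S, T a ∈ S')
    (h2 : ∀ b ∈ S', T' b ∈ S) (a : A) : S'.starProjection (T a) = T (S.starProjection a) := by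
  refine Submodule.eq_starProjection_of_mem_of_inner_eq_zero
    (h1 _ (S.starProjection_apply_mem a)) fun b hb => ?_
  rw [← map_sub, h]
  exact S.starProjection_inner_eq_zero a _ (h2 b hb)

theorem cs_mul {J : En κ} (h : J * J = -1) (c d : ℂ) (a : Eu κ) :
    cs J c (cs J d a) = cs J (c * d) a := by
  have : ∀ a, J (J a) = -a := fun a => congrArg (fun T : En κ => T a) h
  simp only [cs, map_add, map_smul, this, Complex.mul_re, Complex.mul_im]
  module

@[simp] theorem cs_one (J : En κ) (a : Eu κ) : cs J 1 a = a := by simp [cs]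

/-- the complex scalar as an endomorphism -/
def csL (J : En κ) (c : ℂ) : En κ := c.re • (1 : En κ) + c.im • J

theorem csL_apply (J : En κ) (c : ℂ) (a : Eu κ) : csL J c a = cs J c a := rfl

theorem trn_csL {J : En κ} (h : Skw J) (c : ℂ) : trn (csL J c) = csL J (starRingEnd ℂ c) := by
  refine ContinuousLinearMap.ext fun a => ext_inner_right ℝ fun b => ?_
  simp only [inner_trn, csL_apply, cs, inner_add_left, inner_add_right, real_inner_smul_left,
    real_inner_smul_right, h a b, Complex.conj_re, Complex.conj_im]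
  ring

theorem csL_mul {J : En κ} (h : J * J = -1) (c d : ℂ) : csL J c ∘L csL J d = csL J (c * d) :=
  ContinuousLinearMap.ext fun a => cs_mul h c d a

@[simp] theorem csL_one (J : En κ) : csL J 1 = 1 := by simp [csL]

theorem map_cs {J : En κ} {J' : En κ'} {u : CL (Eu κ) (Eu κ')} (h : u ∘L J = J' ∘L u) (c : ℂ)
    (a : Eu κ) : u (cs J c a) = cs J' c (u a) := by
  have : u (J a) = J' (u a) := congrArg (fun T : CL (Eu κ) (Eu κ') => T a) h
  simp only [cs, map_add, map_smul, this]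

theorem map_cs_anti {J : En κ} {J' : En κ'} {u : CL (Eu κ) (Eu κ')} (h : u ∘L J = -(J' ∘L u))
    (c : ℂ) (a : Eu κ) : u (cs J c a) = cs J' (starRingEnd ℂ c) (u a) := by
  have : u (J a) = -J' (u a) := congrArg (fun T : CL (Eu κ) (Eu κ') => T a) h
  simp only [cs, map_add, map_smul, this, Complex.conj_re, Complex.conj_im, smul_neg, neg_smul]

theorem hm_cs_left {J : En κ} (h : J * J = -1) (hs : Skw J) (c : ℂ) (a b : Eu κ) :
    hm J (cs J c a) b = starRingEnd ℂ c * hm J a b := by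
  have : ∀ a, J (J a) = -a := fun a => congrArg (fun T : En κ => T a) h
  refine Complex.ext ?_ ?_ <;>
    simp [hm, cs, inner_add_left, real_inner_smul_left, hs a, this] <;> ring

end lin0

section lin
variable {κ κ' κ'' : Type} [Fintype κ] [DecidableEq κ] [Fintype κ'] [DecidableEq κ']
  [Fintype κ''] [DecidableEq κ'']

theorem hsL_apply (T : En κ) (i k : κ) : hsL T (i, k) = T (EuclideanSpace.single k 1) i := rfl

theorem opL_single (ξ : HS κ) (i k : κ) : opL ξ (EuclideanSpace.single k 1) i = ξ (i, k) := by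
  change (Matrix.toEuclideanCLM (n := κ) (𝕜 := ℝ) (Matrix.of fun i k => ξ (i, k))
    (EuclideanSpace.single k 1)) i = _
  simp [Matrix.ofLp_toEuclideanCLM]

@[simp] theorem hsL_opL (ξ : HS κ) : hsL (opL ξ) = ξ := by
  ext ⟨i, k⟩
  rw [hsL_apply, opL_single]

theorem en_ext {S T : CL (Eu κ) (Eu κ')}
    (h : ∀ k, S (EuclideanSpace.single k 1) = T (EuclideanSpace.single k 1)) : S = T := by
  refine ContinuousLinearMap.coe_injective
    ((EuclideanSpace.basisFun κ ℝ).toBasis.ext fun k => ?_)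
  simpa using h k

@[simp] theorem opL_hsL (T : En κ) : opL (hsL T) = T :=
  en_ext fun k => by ext i; rw [opL_single, hsL_apply]

theorem inner_hsL (S T : En κ) : ⟪hsL S, hsL T⟫_ℝ
    = ∑ k, ⟪S (EuclideanSpace.single k 1), T (EuclideanSpace.single k 1)⟫_ℝ := by
  simp only [PiLp.inner_apply, Fintype.sum_prod_type, hsL_apply]
  exact sum_comm

theorem hs_trn (A B : CL (Eu κ') (Eu κ)) :
    ∑ k, ⟪A (EuclideanSpace.single k 1), B (EuclideanSpace.single k 1)⟫_ℝ
      = ∑ k, ⟪trn A (EuclideanSpace.single k 1), trn B (EuclideanSpace.single k 1)⟫_ℝ := by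
  have h : ∀ (C : CL (Eu κ') (Eu κ)) k i, trn C (EuclideanSpace.single k 1) i
      = C (EuclideanSpace.single i 1) k := fun C k i => by
    have := inner_trn C (EuclideanSpace.single k 1) (EuclideanSpace.single i 1)
    simpa [EuclideanSpace.inner_single_left, EuclideanSpace.inner_single_right] using this
  simp only [PiLp.inner_apply, h]
  exact sum_comm

/-- conjugation `ξ ↦ u ξ uᵀ` of Hilbert-Schmidt vectors -/
def cj (u : CL (Eu κ) (Eu κ')) : CL (HS κ) (HS κ') :=
  hsL ∘L (ContinuousLinearMap.compL ℝ (Eu κ') (Eu κ) (Eu κ') u ∘L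
    (ContinuousLinearMap.compL ℝ (Eu κ') (Eu κ) (Eu κ)).flip (trn u)) ∘L opL

theorem cj_apply (u : CL (Eu κ) (Eu κ')) (ξ : HS κ) : cj u ξ = hsL (u ∘L opL ξ ∘L trn u) := rfl

theorem opL_cj (u : CL (Eu κ) (Eu κ')) (ξ : HS κ) : opL (cj u ξ) = u ∘L opL ξ ∘L trn u := by
  rw [cj_apply, opL_hsL]

theorem cj_hsL (u : CL (Eu κ) (Eu κ')) (T : En κ) : cj u (hsL T) = hsL (u ∘L T ∘L trn u) := by
  rw [cj_apply, opL_hsL]

theorem cj_cj (u : CL (Eu κ) (Eu κ')) (w : CL (Eu κ') (Eu κ'')) (ξ : HS κ) :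
    cj w (cj u ξ) = cj (w ∘L u) ξ := by
  rw [cj_apply, opL_cj, cj_apply, trn_comp]
  rfl

theorem inner_cj (u : CL (Eu κ) (Eu κ')) (ξ : HS κ) (η : HS κ') :
    ⟪cj u ξ, η⟫_ℝ = ⟪ξ, cj (trn u) η⟫_ℝ := by
  rw [← hsL_opL η, cj_hsL, cj_apply, ← hsL_opL ξ, opL_hsL, inner_hsL, inner_hsL, trn_trn]
  have := hs_trn (trn u) (trn (opL ξ) ∘L trn u ∘L opL η)
  simp only [trn_comp, trn_trn, ContinuousLinearMap.comp_apply] at this ⊢
  simp only [inner_trn'] at this ⊢
  rw [this]
  exact sum_congr rfl fun k _ => real_inner_comm _ _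

theorem rk1_map (u : CL (Eu κ) (Eu κ')) (a b : Eu κ) :
    rk1 (u a) (u b) = u ∘L rk1 a b ∘L trn u := by
  ext1 w
  simp [rk1, inner_trn']

end lin

section ridx
variable {α α' α'' : Type} [Fintype α] [Fintype α'] [Fintype α'']
  {V V' V'' : Type} [NormedAddCommGroup V] [InnerProductSpace ℝ V] [NormedAddCommGroup V']
  [InnerProductSpace ℝ V'] [NormedAddCommGroup V''] [InnerProductSpace ℝ V'']

/-- rectangular version of `idx` -/
def ridx (S : α' → α → ℝ) (T : V →L[ℝ] V') : CL (Fm α V) (Fm α' V') :=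
  (PiLp.continuousLinearEquiv 2 ℝ fun _ : α' => V').symm.toContinuousLinearMap ∘L
    ContinuousLinearMap.pi fun a => ∑ b, S a b • (T ∘L PiLp.proj 2 (fun _ : α => V) b)

theorem ridx_apply (S : α' → α → ℝ) (T : V →L[ℝ] V') (ξ : Fm α V) (a : α') :
    ridx S T ξ a = ∑ b, S a b • T (ξ b) := by
  simp [ridx]

theorem idx_apply (S : α → α → ℝ) (T : V →L[ℝ] V) (ξ : Fm α V) (a : α) :
    idx S T ξ a = ∑ b, S a b • T (ξ b) := ridx_apply S T ξ a

theorem idx_eq (S : α → α → ℝ) (T : V →L[ℝ] V) : idx S T = ridx S T := rfl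

theorem ridx_ridx (S' : α'' → α' → ℝ) (T' : V' →L[ℝ] V'') (S : α' → α → ℝ) (T : V →L[ℝ] V')
    (ξ : Fm α V) : ridx S' T' (ridx S T ξ) = ridx (fun a c => ∑ b, S' a b * S b c) (T' ∘L T) ξ := by
  ext a
  simp only [ridx_apply, map_sum, map_smul, smul_sum, smul_smul, sum_smul]
  exact sum_comm

theorem inner_ridx (S : α' → α → ℝ) {T : V →L[ℝ] V'} {T' : V' →L[ℝ] V}
    (h : ∀ a b, ⟪T a, b⟫_ℝ = ⟪a, T' b⟫_ℝ) (ξ : Fm α V) (η : Fm α' V') :
    ⟪ridx S T ξ, η⟫_ℝ = ⟪ξ, ridx (fun b a => S a b) T' η⟫_ℝ := by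
  simp only [PiLp.inner_apply, ridx_apply, sum_inner, inner_sum, real_inner_smul_left,
    real_inner_smul_right, h]
  exact sum_comm

theorem ridx_congr (S : α' → α → ℝ) {T T' : V →L[ℝ] V'} {ξ : Fm α V} (h : ∀ b, T (ξ b) = T' (ξ b)) :
    ridx S T ξ = ridx S T' ξ := by
  ext a
  simp only [ridx_apply, h]

/-- the action on pairs of indices -/
def sq2 (U : α' → α → ℝ) (t : α' × α') (s : α × α) : ℝ := U t.1 s.1 * U t.2 s.2

theorem sq2_mul (U : α'' → α' → ℝ) (W : α' → α → ℝ) (t : α'' × α'') (s : α × α) :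
    ∑ r, sq2 U t r * sq2 W r s = sq2 (fun a c => ∑ b, U a b * W b c) t s := by
  simp only [sq2, Fintype.sum_prod_type, sum_mul_sum]
  exact sum_congr rfl fun _ _ => sum_congr rfl fun _ _ => by ring

end ridx

end Crest.Agent.X212.Eqv71
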