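import Crest.Agent.X212.Eqv71.Nk1
import Crest.Agent.X212.An.Str
import Crest.Agent.X212.Cht98.Wld

/-! The perturbations of a job are natural over every clopen set; gauge invariance of `Sol`. -/

set_option autoImplicit false
set_option linter.unusedSectionVars false
noncomputable section
open scoped Manifold ContDiff Topology InnerProductSpace
open MeasureTheory Set Function Filter

namespace Crest.Agent.X212.An.Job
open M Nd18 Wrd81 Eqv71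

variable {Wi : Type} {X : Mf 4} {A κ lam : Type} [Fintype A] [Fintype κ] [Fintype lam]
  [DecidableEq lam] {M : Mark X A κ} {W : World M} {N : ML M lam}
  {Λ : Lns W N} {A' h : Type} [Fintype A'] [DecidableEq A'] [Fintype h] {r n : ℕ}
  {J : Job Wi Λ A' h r n} {c : M.Cl} {σ : Cel A'} {q : Wi →₀ ℝ} {s : A' → ℝ}
  {O O₁ : Set (W.Z c).M}

theorem conn_xs (J : Job Wi Λ A' h r n) (a : A) : ConnectedSpace (J.xs a).Y.M :=
  have := (M.bn a).con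
  (J.g a).symm.toHomeomorph.surjective.connectedSpace (J.g a).symm.continuous

theorem ov_of {y : J.Obc c} (h1 : y.s ∈ cl σ) (h2 : Sys.inf (J.Θ y.s).2 = c.1) : J.Ov σ c y.s :=
  ⟨J.cl_dom h1, h2⟩

theorem Sol.ov {y : J.Obc c} (h : Sol σ q y) : J.Ov σ c y.s := ov_of h.cell h.inf

theorem SolOn.ov {p : Prt A A' h} {y : J.Obc c} (h : SolOn p σ q y) : J.Ov σ c y.s :=
  ov_of h.cell h.inf

theorem isClopen_un {P : Set (Reg A)} (hP : ∀ π ∈ P, M.sys.Piece c.1 π) : IsClopen (W.un c P) :=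
  (toFinite P).isClopen_biUnion fun π hπ => Cyl58.isClopen_pc W.toCaps (hP π hπ)

namespace OK
variable (hJ : J.OK)
include hJ

theorem okZ (a : A) : OKZ (J.xs a).D := Eqv71.okZ (hJ.xs a).1.yd (J.xs a).Y.dim.le

variable (hσ : σ ∈ J.𝒦) (hs : J.Ov σ c s)
include hσ hs

theorem memO : J.Θ s ∈ M.O c.1 := by
  have := Mark.mem_O_cOf (hJ.par σ hσ s hs.1)
  exact hs.2 ▸ this

theorem memBr : J.Θ s ∈ M.Br c.1 := ⟨hJ.par σ hσ s hs.1, hs.2.ge⟩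

theorem G_ok : (J.G c s).OK (J.B c) := Λ.G_ok _ (hJ.memO hσ hs)

theorem tame : ∃ C, (J.G c s).F.Tame C := Cht98.tame_W W J.m (hJ.memO hσ hs)

theorem sub_hw : c.1 ⊆ J.hw := fun x hx => (hJ.inf σ hσ s hs.1 x (hs.2.ge hx)).imp fun _ k => k.1

theorem tp_in {Ω : Set X.M} (hΩ : Ω ⊆ (M.sys.cores c.1)ᶜ) :
    (J.tp c).In X.I (W.Z c).I Ω (W.φ c '' Ω) :=
  Tp.in_of (W.φ c) (fun x hx => (Line51.fsm_rl
    ((Λ.iso J.m c _ (hJ.memBr hσ hs)).sm x hx)).contMDiffWithinAt) (W.src c ▸ hΩ)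

/-- a coefficient that does not vanish sees no broken wall -/
theorem hw_sub {V : Set A} {f : (A' → ℝ) → ℝ} (hV : ∃ s₀ < (1 : ℝ), ∀ σ ∈ J.𝒦, ∀ s ∈ J.dom σ,
    ∀ a x, J.hd a = some x → x ∈ V → s₀ ≤ s a → f s = 0) (h0 : f s ≠ 0) :
    (M.sys.cores (J.hw \ V))ᶜ ⊆ (M.sys.cores c.1)ᶜ :=
  compl_subset_compl.2 (biUnion_subset_biUnion_left fun x hx => ⟨hJ.sub_hw hσ hs hx, fun k =>
    let ⟨_, h1, h2⟩ := hV
    let ⟨a, h3, h4⟩ := hJ.inf σ hσ s hs.1 x (hs.2.ge hx)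
    h0 (h2 σ hσ s hs.1 a x h3 k (h1.le.trans h4.ge))⟩)

theorem tw_in {w : Wi} (h0 : J.co w s ≠ 0) : ∃ Ω, TmIn (W.Z c).I Ω ((J.tp c).tm (J.tw w)) :=
  let ⟨_, h1, h2⟩ := hJ.tw w
  ⟨_, (hJ.tp_in hσ hs (hJ.hw_sub hσ hs h2 h0)).tm h1⟩

theorem tc_in {i : h} {w : Wi} (h0 : J.cc i w s ≠ 0) :
    ∃ Ω, XiIn (W.Z c).I Ω ((J.tp c).tc (J.tc i w)).ξ :=
  let ⟨_, h1, h2⟩ := hJ.tc i w
  ⟨_, (hJ.tp_in hσ hs (hJ.hw_sub hσ hs h2 h0)).xi h1⟩

variable (hO : IsClopen O)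
include hO

theorem kt : KT (J.B c) (J.G c s) (J.B c) (J.G c s) O O id id (fun x b a => (J.B c).P b a x)
    (J.B c).l := kt_refl (Λ.B_ok _ _) (hJ.G_ok hσ hs) hO (hJ.tame hσ hs)

theorem τ0_nat : PNat0 (J.B c) (J.G c s) O (J.τ0 c s) := pnat0_dsum fun i _ =>
  have := J.conn_xs i.1
  q1_nat1 _ (Λ.B_ok _ _) (hJ.G_ok hσ hs) (hJ.tame hσ hs) hO (nd_smul (hJ.xs i.1).2 _)

theorem tw_nat (w : Wi) : PNat0 (J.B c) (J.G c s) O
    ((tmP (J.B c) (J.G c s).F ((J.tp c).tm (J.tw w))).smul (J.co w s)) := by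
  by_cases h0 : J.co w s = 0
  · rw [h0]
    exact prel0_zero (mapsTo_id _) (fun _ _ _ => ⟨zero_smul _ _, zero_smul _ _⟩)
      (fun _ _ _ => ⟨zero_smul _ _, zero_smul _ _⟩) (fun _ _ => by simp [Pt.smul])
      fun _ _ => by simp [Pt.smul]
  · exact (tm_nat0 (Λ.B_ok _ _) (hJ.G_ok hσ hs) hO (hJ.tame hσ hs)
      (hJ.tw_in hσ hs h0).choose_spec).smul _

theorem τw_nat (w : Wi) : PNat0 (J.B c) (J.G c s) O (J.τw c s w) :=
  (hJ.tw_nat hσ hs hO w).add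
    (pnat0_dsum fun i _ => prel0_fsum (fun T =>
      have := J.conn_xs i.1
      q2_nat1 _ (Λ.B_ok _ _) (hJ.G_ok hσ hs) (hJ.tame hσ hs) hO (hJ.xs i.1).2 T.2) _)

/-- **the perturbation of a job is natural over every clopen set** -/
theorem τ_nat (q : Wi →₀ ℝ) : PNat0 (J.B c) (J.G c s) O (J.τ c q s) :=
  (hJ.τ0_nat hσ hs hO).add (prel0_fsum (hJ.τw_nat hσ hs hO) q)

theorem natOn {m : ℕ} {τ : Mod61.PtX (W.Z c).M (Option κ) (lam ⊕ lam) r n m} (h1 : O₁ ⊆ O)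
    (p : PNat0 (J.B c) (J.G c s) O τ.toPt) (hR : ∀ x x' : Cfg _ _ _ r, ‖x'.z‖ = ‖x.z‖ → τ.R x' = τ.R x) :
    Mod61.NatOn (J.B c) (J.G c s) O O₁ τ :=
  natOn_of_pnat0 (Λ.B_ok _ _) (hJ.G_ok hσ hs) hO.2 h1 p fun _ _ _ _ k => hR _ _ (ceq_norm_z k.e)

/-- one term of the row of a cut -/
theorem tc_nat {i : h} (hi : i ∈ J.unc c) (hk : (J.cut c i).supp ⊆ O) (w : Wi) :
    PcRel0 (J.B c) (J.G c s) (J.B c) (J.G c s) O O id (fun x b a => (J.B c).P b a x) (J.B c).l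
      (fun x => J.cc i w s • x.tc (J.B c) (J.G c s).F (J.cut c i) ((J.tp c).tc (J.tc i w)))
      fun x => J.cc i w s • x.tc (J.B c) (J.G c s).F (J.cut c i) ((J.tp c).tc (J.tc i w)) :=
  fun e η a => by
    have k := hJ.ct σ hσ s hs.1 c hs.2 i hi
    by_cases h0 : J.cc i w s = 0
    · simp only [h0, zero_smul, ContinuousLinearMap.zero_apply, map_zero]
    · obtain ⟨_, t⟩ := hJ.tc_in hσ hs h0
      simp only [_root_.smul_apply, map_smul, e.tc (hJ.kt hσ hs hO) η k k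
        (Cnt93.rel_refl (Λ.B_ok _ _) hk) (Cnt93.tcR_refl (Λ.B_ok _ _) _) t t a]

/-- **the rows of the cuts are natural** -/
theorem σc_nat {i : h} (hi : i ∈ J.unc c) (hk : (J.cut c i).supp ⊆ O) (q : Wi →₀ ℝ) :
    PcRel0 (J.B c) (J.G c s) (J.B c) (J.G c s) O O id (fun x b a => (J.B c).P b a x) (J.B c).l
      (J.σc c q s i) (J.σc c q s i) := fun e η a => by
  simp only [σc, Finsupp.sum, mul_smul, _root_.sum_apply, map_sum]
  refine Finset.sum_congr rfl fun w _ => ?_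
  exact (congrArg (q w • ·) (hJ.tc_nat hσ hs hO hi hk w e η a)).trans (map_smul _ _ _).symm

end OK

/-- a cut inside the pieces `P` -/
theorem OK.cut_sub (hJ : J.OK) {P : Set (Reg A)} {i : h} (hi : J.nb i ⊆ ⋃ π ∈ P, M.sys.U π) :
    (J.cut c i).supp ⊆ W.un c P := by
  rintro _ ⟨z, rfl⟩
  obtain ⟨π, h1, h2⟩ := mem_iUnion₂.1 (hi ((hJ.nb i).2.sub ⟨z, rfl⟩))
  exact mem_iUnion₂.2 ⟨π, h1, .inl ⟨_, h2, rfl⟩⟩

theorem unc_of {P : Set (Reg A)} (hP : ∀ π ∈ P, M.sys.Piece c.1 π) {i : h}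
    (hi : J.nb i ⊆ ⋃ π ∈ P, M.sys.U π) : i ∈ J.unc c := disjoint_left.2 fun _ hx => by
  obtain ⟨π, h1, h2⟩ := mem_iUnion₂.1 (hi hx)
  exact Cyl58.U_sub (hP π h1) h2

/-- the ends of a part lie in the part -/
theorem OK.end_sub (hJ : J.OK) {a : A} {b : Bool} {t : Prm A} (ha : Act J.m c a (some b) t)
    {P : Set (Reg A)} (hP : ∀ π ∈ P, M.sys.Piece c.1 π) (hb : ∃ π ∈ P, π a = some b) :
    (J.K c a _ _ ha).ψ.target ⊆ W.un c P := fun z hz => by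
  obtain ⟨π, h1, h2⟩ := hb
  have := (hJ.nk _ _ _ _ ha).end_mem ha (hP π h1) h2
    ((J.K c a _ _ ha).mem_src.1 ((J.K c a _ _ ha).ψ.map_target hz))
  rw [(J.K c a _ _ ha).ψ.right_inv hz] at this
  exact mem_un.2 ⟨π, h1, this⟩

/-- the object with new fields, related to the old ones by the phase `ξ` -/
abbrev Obc.re (y : J.Obc c) (x : Cfg (W.Z c).M (Option κ) (lam ⊕ lam) r)
    (ψ : ∀ i, (J.cut c i).H (J.B c) x.m) (ξ : Circle) : J.Obc c :=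
  ⟨y.s, x, y.H, ψ, y.β, fun a b => y.ζ a b * ξ, y.k, y.j, y.l⟩

variable {y : J.Obc c} {x : Cfg (W.Z c).M (Option κ) (lam ⊕ lam) r}
  {ψ : ∀ i, (J.cut c i).H (J.B c) x.m} {ξ : Circle} {u : (W.Z c).M → CL x.m.V y.x.m.V}

/-- **`Sol` is gauge invariant** -/
theorem Sol.re (hJ : J.OK) (hσ : σ ∈ J.𝒦) (H : Sol σ q y) (hx : Ad0 x (J.B c) (J.G c y.s))
    (e : CEq (J.G c y.s).F x y.x univ id (fun x b a => (J.B c).P b a x) (J.B c).l u ξ)
    (f : ∀ i ∈ y.H, (J.cut c i).Eqv (J.cut c i) (J.B c) (J.B c) u (ψ i) (y.ψ i)) :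
    Sol σ q (y.re x ψ ξ) := by
  have g := hJ.kt hσ H.ov isClopen_univ
  have a := ad0 H.sol.toAdm
  have k := cr0_univ hx a e
  have l := k.lm g.toKC
  have kd : (y.re x ψ ξ).kd = y.kd := funext fun z => (l.kd (mem_univ z)).symm
  exact ⟨H.cell, H.inf, (hJ.τ_nat hσ H.ov isClopen_univ q).rel.sol g.toLG surjective_id H.sol
      ⟨hx.ok, hx.conn, hx.sm, hx.pos, H.sol.z.imp id fun z => (ceq_norm_z e).symm.trans z⟩
      (ceq_symm_id g.hB g.hG isOpen_univ hx a e), H.sub, fun i hi =>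
      have ok := hJ.ct σ hσ _ H.ov.1 c H.inf i (H.sub hi)
      (PcRel0.sol (hJ.σc_nat hσ H.ov isClopen_univ (H.sub hi) (subset_univ _) q) g.toLG ok ok
        (Cnt93.rel_refl g.hB (subset_univ _)) k (f i hi)).1 (H.cut i hi), H.drop,
    fun b d ha => lim_pre g.hB isOpen_univ (subset_univ _)
      ⟨(H.crit b ⟨ha.2.2.2, ha.1⟩ d).sol.toAdm, (H.crit b ⟨ha.2.2.2, ha.1⟩ d).tmp⟩ hx a e
      (H.lim b d ha), H.crit, fun b hb => brk_phs ξ (hJ.okZ b) (hJ.xs b).2 (H.brk b hb),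
    kd ▸ H.int, (congrArg (· + _ + _) (kap_eq g.toKG l).symm).trans H.lev⟩

/-- isomorphic objects: the fields of `y'` with the discrete data of `y` -/
theorem Sol.iso (hJ : J.OK) (hσ : σ ∈ J.𝒦) (H : Sol σ q y) {y' : J.Obc c} (h' : y'.Ok)
    (e : Iso y' y) : ∃ ξ, Sol σ q (y.re y'.x y'.ψ ξ) := by
  obtain ⟨e1, u, ξ, e2, e3⟩ := e
  exact ⟨ξ, H.re hJ hσ (e1 ▸ h'.1) (e1 ▸ e2) fun i hi => e3 ⟨i, H.sub hi⟩⟩

/-- **the equations of a part are gauge invariant** -/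
theorem SolOn.re (hJ : J.OK) (hσ : σ ∈ J.𝒦) {p : Prt A A' h} (hp : J.POK σ c p)
    (H : SolOn p σ q y) (hx : Ad0 x (J.B c) (J.G c y.s))
    (h0 : ∀ z ∉ W.un c p.P', x.Φ z = 0)
    (e : CEq (J.G c y.s).F x y.x (W.un c p.P) id (fun x b a => (J.B c).P b a x) (J.B c).l u ξ)
    (f : ∀ i ∈ p.H, (J.cut c i).Eqv (J.cut c i) (J.B c) (J.B c) u (ψ i) (y.ψ i)) :
    SolOn p σ q (y.re x ψ ξ) := by
  have hO := isClopen_un (W := W) hp.pc
  have hs : W.un c p.P' ⊆ W.un c p.P := biUnion_subset_biUnion_left hp.sub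
  have g := hJ.kt hσ H.ov hO
  have a := ad0 H.adm
  have k : CR0 _ _ _ _ _ _ _ _ _ x y.x u ξ :=
    ⟨hx, a, fun z hz => h0 z fun k => hz (hs k), fun z hz => H.off z fun k => hz (hs k), e⟩
  have k' : CR0 _ _ _ _ _ _ _ _ _ y.x x _ _ :=
    ⟨a, hx, k.off', k.off, ceq_symm_id g.hB g.hG hO.2 hx a e⟩
  have l := k.lm g.toKC
  have t := hJ.τ_nat hσ H.ov hO q
  refine ⟨H.cell, H.inf, ⟨hx.ok, hx.conn, hx.sm, hx.pos,
    H.adm.z.imp id fun z => (ceq_norm_z e).symm.trans z⟩, h0, fun z hz => ?_, fun z hz => ?_,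
    fun i => ?_, fun i hi => ?_, fun b d ha hb => ?_, H.crit,
    H.int.congr_fun (fun z hz => l.kd hz) hO.2.measurableSet⟩
  · exact (t.eD g.toLG k' (hs hz)).trans (by rw [H.D z hz, map_zero, ← csL_apply, map_zero])
  · exact (t.eC g.toLG k' hz).trans (by rw [H.C z hz, map_zero])
  · exact (t.S k' i).trans (by rw [H.S, mul_zero])
  · have ui := unc_of hp.pc (hp.nb i hi)
    have ok := hJ.ct σ hσ _ H.ov.1 c H.inf i ui
    have su := hJ.cut_sub (c := c) (hp.nb i hi)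
    exact (PcRel0.sol (hJ.σc_nat hσ H.ov hO ui su q) g.toLG ok ok (Cnt93.rel_refl g.hB su) k
      (f i hi)).1 (H.cut i hi)
  · have cr := H.crit b ⟨ha.2.2.2, ha.1⟩ d hb
    exact lim_pre g.hB hO.2 (hJ.end_sub ha hp.pc hb) ⟨cr.sol.toAdm, cr.tmp⟩ hx a e (H.lim b d ha hb)

end Crest.Agent.X212.An.Job
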