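import Crest.Agent.X212.Eqv71.Res

/-! Naturality of words and of the perturbations `wpt` for related terms. -/

set_option autoImplicit false
set_option linter.unusedSectionVars false

open scoped Manifold ContDiff Topology InnerProductSpace
open Finset Filter MeasureTheory

noncomputable section
namespace Crest.Agent.X212.Eqv71
open An Wz78 Sob92 Mp86
open Wrd81 (wd)

section rel
variable {M M' : Type} {lam lam' : Type} [Fintype lam] [Fintype lam'] (O : Set M) (φ : M → M')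
  (v : M → CL (Eu lam) (Eu lam'))

/-- corresponding functions -/
abbrev FR (f : M → ℝ) (f' : M' → ℝ) : Prop := Set.EqOn (f' ∘ φ) f O

/-- corresponding sections of the lines -/
def SR (s : M → Eu lam) (s' : M' → Eu lam') : Prop :=
  ∀ x ∈ O, trn (v x) (s' (φ x)) = trn (v x) (v x (s x))

inductive LtR : Lt M → Lt M' → Prop
  | mul {f f'} : FR O φ f f' → LtR (.mul f) (.mul f')
  | cl {g g'} : FR O φ g g' → LtR (.cl g) (.cl g')
  | im : LtR .im .im
  | G : LtR .G .G

abbrev SWR : SW M → SW M' → Prop := List.Forall₂ (LtR O φ)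

inductive LaR : La M → La M' → Prop
  | mul {f f'} : FR O φ f f' → LaR (.mul f) (.mul f')
  | G : LaR .G .G

inductive SdR : Sd M → Sd M' → Prop
  | q {a a' b b'} : SWR O φ a a' → SWR O φ b b' → SdR (.q a b) (.q a' b')
  | cv {f f' g g' h h'} : FR O φ f f' → FR O φ g g' → FR O φ h h' → SdR (.cv f g h) (.cv f' g' h')

structure AWR (ξ : AW M) (ξ' : AW M') : Prop where
  s : SdR O φ ξ.s ξ'.s
  l : List.Forall₂ (LaR O φ) ξ.l ξ'.l

structure SgR (g : Sg M lam) (g' : Sg M' lam') : Prop where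
  s : SR O φ v g.s g'.s
  u : SWR O φ g.u g'.u
  v : SWR O φ g.v g'.v

inductive CoR {r : ℕ} : Co M lam r → Co M' lam' r → Prop
  | z (i) : CoR (.z i) (.z i)
  | s {g g' L L'} : SgR O φ v g g' → List.Forall₂ (SgR O φ v) L L' → CoR (.s g L) (.s g' L')

/-- corresponding terms -/
inductive TmR {r n : ℕ} : Tm M lam r n → Tm M' lam' r n → Prop
  | lin {a a'} : SWR O φ a a' → TmR (.lin a) (.lin a')
  | anti {d d' s s' a a'} : CoR O φ v d d' → SR O φ v s s' → SWR O φ a a' →
      TmR (.anti d s a) (.anti d' s' a')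
  | ad {g g' h h' ξ ξ'} : FR O φ g g' → FR O φ h h' → AWR O φ ξ ξ' → TmR (.ad g h ξ) (.ad g' h' ξ')
  | adj {d d' s s' g g' h h' a a' b b' l l'} : CoR O φ v d d' → SR O φ v s s' → FR O φ g g' →
      FR O φ h h' → SWR O φ a a' → SWR O φ b b' → List.Forall₂ (LaR O φ) l l' →
      TmR (.adj d s g h a b l) (.adj d' s' g' h' a' b' l')
  | adn {f f' g g' h h' L L'} (χ) : FR O φ f f' → FR O φ g g' → FR O φ h h' →
      List.Forall₂ (AWR O φ) L L' → TmR (.adn f g h χ L) (.adn f' g' h' χ L')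
  | cut (i w) {g g'} : SgR O φ v g g' → TmR (.cut i w g) (.cut i w g')
  | cz (i w k) : TmR (.cz i w k) (.cz i w k)

theorem ltR_refl (t : Lt M) : LtR O id t t := by
  cases t
  exacts [.mul fun _ _ => rfl, .cl fun _ _ => rfl, .im, .G]

theorem swR_refl (w : SW M) : SWR O id w w := List.forall₂_same.2 fun t _ => ltR_refl O t

theorem laR_refl (t : La M) : LaR O id t t := by
  cases t
  exacts [.mul fun _ _ => rfl, .G]

theorem lasR_refl (l : List (La M)) : List.Forall₂ (LaR O id) l l :=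
  List.forall₂_same.2 fun t _ => laR_refl O t

theorem awR_refl (ξ : AW M) : AWR O id ξ ξ := ⟨by
  cases ξ.s
  exacts [.q (swR_refl O _) (swR_refl O _), .cv (fun _ _ => rfl) (fun _ _ => rfl) fun _ _ => rfl],
  lasR_refl O _⟩

variable {l : M → En lam} (hl : ∀ x a, trn (l x) (l x a) = trn (l x) a)
include hl

theorem sR_refl (s : M → Eu lam) : SR O id l s s := fun x _ => (hl x _).symm

theorem sgR_refl (g : Sg M lam) : SgR O id l g g := ⟨sR_refl O hl _, swR_refl O _, swR_refl O _⟩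

theorem coR_refl {r : ℕ} (d : Co M lam r) : CoR O id l d d := by
  cases d
  exacts [.z _, .s (sgR_refl O hl _) (List.forall₂_same.2 fun t _ => sgR_refl O hl t)]

theorem tmR_refl {r n : ℕ} (t : Tm M lam r n) : TmR O id l t t := by
  have f : ∀ f : M → ℝ, FR O id f f := fun _ _ _ => rfl
  cases t
  exacts [.lin (swR_refl O _), .anti (coR_refl O hl _) (sR_refl O hl _) (swR_refl O _),
    .ad (f _) (f _) (awR_refl O _), .adj (coR_refl O hl _) (sR_refl O hl _) (f _) (f _)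
      (swR_refl O _) (swR_refl O _) (lasR_refl O _),
    .adn _ (f _) (f _) (f _) (List.forall₂_same.2 fun t _ => awR_refl O t),
    .cut _ _ (sgR_refl O hl _), .cz _ _ _]

end rel

theorem wd_rel₂ {τ τ' α β : Type*} {op : τ → α → α} {op' : τ' → β → β} {s : α} {s' : β}
    {r : α → β → Prop} {R : τ → τ' → Prop} {p : τ → Prop} {p' : τ' → Prop} (h0 : r s s')
    (h : ∀ t t' a b, R t t' → p t → p' t' → r a b → r (op t a) (op' t' b)) {l : List τ}
    {l' : List τ'} (hl : List.Forall₂ R l l') (hp : ∀ t ∈ l, p t) (hp' : ∀ t ∈ l', p' t) :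
    r (wd op s l) (wd op' s' l') := by
  induction hl with
  | nil => exact h0
  | cons k _ ih =>
    rw [List.forall_mem_cons] at hp hp'
    exact h _ _ _ _ k hp.1 hp'.1 (ih hp.2 hp'.2)

theorem map_eq₂ {τ τ' α : Type*} {R : τ → τ' → Prop} {p : τ → Prop} {p' : τ' → Prop} {f : τ → α}
    {f' : τ' → α} (h : ∀ t t', R t t' → p t → p' t' → f' t' = f t) {l : List τ} {l' : List τ'}
    (hl : List.Forall₂ R l l') (hp : ∀ t ∈ l, p t) (hp' : ∀ t ∈ l', p' t) : l'.map f' = l.map f := by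
  induction hl with
  | nil => rfl
  | cons k _ ih =>
    rw [List.forall_mem_cons] at hp hp'
    rw [List.map_cons, List.map_cons, h _ _ k hp.1 hp'.1, ih hp.2 hp'.2]

variable {E : Type} [NormedAddCommGroup E] [NormedSpace ℝ E] [FiniteDimensional ℝ E]
  [MeasurableSpace E] [BorelSpace E]
  {HM : Type} [TopologicalSpace HM] {I : ModelWithCorners ℝ E HM} [I.Boundaryless]
  {M : Type} [TopologicalSpace M] [ChartedSpace HM M] [IsManifold I ∞ M]
  [MeasurableSpace M] [BorelSpace M] [T2Space M] {ι : Type} [Fintype ι] {lam : Type} [Fintype lam]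
  {E' : Type} [NormedAddCommGroup E'] [NormedSpace ℝ E'] [FiniteDimensional ℝ E']
  [MeasurableSpace E'] [BorelSpace E']
  {HM' : Type} [TopologicalSpace HM'] {I' : ModelWithCorners ℝ E' HM'} [I'.Boundaryless]
  {M' : Type} [TopologicalSpace M'] [ChartedSpace HM' M'] [IsManifold I' ∞ M']
  [MeasurableSpace M'] [BorelSpace M'] [T2Space M'] {ι' : Type} [Fintype ι'] {lam' : Type}
  [Fintype lam']
  {B : Base M ι lam} {G : Geo I M ι lam} {B' : Base M' ι' lam'} {G' : Geo I' M' ι' lam'}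
  {O : Set M} {O' : Set M'} {φ : M → M'} {ψ : M' → M}
  {U : M → ι' → ι → ℝ} {v v₁ : M → CL (Eu lam) (Eu lam')} {x : M}

theorem LG.DD (g : LG B G B' G' O φ U v) (hx : x ∈ O) {a b : M → ℝ} {a' b' : M' → ℝ}
    (ha : FR O φ a a') (hb : FR O φ b b') (sa : Sm I' a') (sb : Sm I' b') (t : ι' × ι') :
    G'.F.D t.1 a' (φ x) * G'.F.D t.2 b' (φ x)
      = ∑ s, sq2 (U x) t s * (G.F.D s.1 a x * G.F.D s.2 b x) := by
  rw [g.D hx (sa _) ha, g.D hx (sb _) hb, sum_mul_sum, Fintype.sum_prod_type]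
  exact sum_congr rfl fun _ _ => sum_congr rfl fun _ _ => by simp only [sq2, smul_eq_mul]; ring

theorem toLp_rel {A A' : Type} [NormedAddCommGroup A] [InnerProductSpace ℝ A]
    [NormedAddCommGroup A'] [InnerProductSpace ℝ A'] {α α' : Type} [Fintype α] [Fintype α']
    (S : α' → α → ℝ) (T : A →L[ℝ] A') {w : α → ℝ} {w' : α' → ℝ} (h : ∀ t, w' t = ∑ s, S t s * w s)
    (ξ : A) : (WithLp.toLp 2 fun t => w' t • T ξ : Fm α' A')
      = ridx S T (WithLp.toLp 2 fun s => w s • ξ) :=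
  PiLp.ext fun t => by simp only [ridx_apply, h, sum_smul, map_smul, smul_smul]

section md
variable {m : Md M ι lam} {m' : Md M' ι' lam'} {W : m.Cn} {W' : m'.Cn}

/-- related spinors, supported in `O` and `O'` -/
structure RV (O : Set M) (O' : Set M') (φ : M → M') (u : M → CL m.V m'.V) (s : M → m.V)
    (s' : M' → m'.V) : Prop where
  rel : ∀ x ∈ O, s' (φ x) = u x (s x)
  p : ∀ x ∈ O, m.p x (s x) = s x
  off : ∀ x ∉ O, s x = 0
  off' : ∀ y ∉ O', s' y = 0

/-- related sections of the endomorphism bundles, of class `Cb` off `O` and `O'` -/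
structure RA (F : Fr I M ι) (F' : Fr I' M' ι') (O : Set M) (O' : Set M') (φ : M → M')
    (u : M → CL m.V m'.V) (s : M → m.A) (s' : M' → m'.A) : Prop where
  rel : ∀ x ∈ O, s' (φ x) = cj (u x) (s x)
  p : ∀ x ∈ O, cj (m.p x) (s x) = s x
  off : F.Cb (Oᶜ.indicator s)
  off' : F'.Cb (O'ᶜ.indicator s')

variable {u : M → CL m.V m'.V}

theorem cb_off {N : Type} [NormedAddCommGroup N] [NormedSpace ℝ N] {F : Fr I M ι} {s : M → N}
    (h : ∀ x ∉ O, s x = 0) : F.Cb (Oᶜ.indicator s) := by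
  rw [show Oᶜ.indicator s = fun _ => 0 from funext fun y => Set.indicator_apply_eq_zero.2 (h y)]
  exact Cb_const 0

theorem RV.res (g : KC B G B' G' O O' φ ψ U v) (h : LM B G B' G' O φ U v₁ W W' u) {s : M → m.V}
    {s' : M' → m'.V} (k : RV O O' φ u s s') : RV O O' φ u (G.F.res W s) (G'.F.res W' s') := by
  have e : ∀ x ∈ O, ∀ a, trn (u (ψ (φ x))) (u x a) = m.p x a := fun x hx a => by
    rw [g.inv.linv x hx]; exact congrArg (fun T : En _ => T a) (h.me x hx).uu
  have := res_rel g h.it (h.symm g.inv).it (fun x hx => ⟨k.rel x hx, (e x hx _).trans (k.p x hx)⟩)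
    (ex_off k.off) (ex_off k.off')
  exact ⟨fun x hx => (this x hx).1, fun x hx => (e x hx _).symm.trans (this x hx).2,
    fun x hx => res_off g.clopen g.bu (mc_W h.cn) k.off hx,
    fun y hy => res_off g.clopen' g.bu' (mc_W h.cn') k.off' hy⟩

theorem RA.q (h : LM B G B' G' O φ U v₁ W W' u) {a b : M → m.V} {a' b' : M' → m'.V}
    (ka : RV O O' φ u a a') (kb : RV O O' φ u b b') :
    RA G.F G'.F O O' φ u (fun x => m.q x (a x) (b x)) fun y => m'.q y (a' y) (b' y) :=
  ⟨fun x hx => by rw [ka.rel x hx, kb.rel x hx, (h.me x hx).q (h.be x hx) h.hB h.hB' h.ok h.ok'],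
    fun x _ => ME.cj_p (pg_mem x _),
    cb_off fun x hx => by simp [Md.q, rk1, kb.off x hx], cb_off fun y hy => by
      simp [Md.q, rk1, kb.off' y hy]⟩

theorem RA.norm {F : Fr I M ι} {F' : Fr I' M' ι'} (h : LM B G B' G' O φ U v₁ W W' u) {s : M → m.A}
    {s' : M' → m'.A} (k : RA F F' O O' φ u s s') (hx : x ∈ O) : ‖s' (φ x)‖ = ‖s x‖ := by
  rw [norm_eq_sqrt_real_inner, k.rel x hx, inner_cj, cj_cj, (h.me x hx).uu, k.p x hx,
    ← norm_eq_sqrt_real_inner]

theorem ind_smul {N : Type} [NormedAddCommGroup N] [NormedSpace ℝ N] (f : M → ℝ) (s : M → N) :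
    O.indicator (fun x => f x • s x) = fun x => f x • O.indicator s x :=
  funext fun x => Set.indicator_smul_apply O f s x

end md

variable {r n : ℕ} {c : Cfg M ι lam r} {c' : Cfg M' ι' lam' r}

theorem Ex.cb_res {F : Fr I M ι} (e : Ex F c O) (hO : IsClopen O) (hB : Bumps I F.e F.dv)
    (hA : Mc I (c.m.adW c.W)) {s : M → c.m.A} (hs : F.Cb (Oᶜ.indicator s)) :
    (∃ w, F.IsRes (c.m.adW c.W) (Oᶜ.indicator s) w) ∧
      F.Cb (Oᶜ.indicator (F.res (c.m.adW c.W) s)) := by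
  obtain ⟨w, h1, h2⟩ := e.res _ hs fun x hx => Set.indicator_of_notMem (Set.notMem_compl_iff.2 hx) _
  refine ⟨⟨w, h1⟩, ?_⟩
  rcases ind_res hO.compl hB hA h1 with k | k
  · rw [k]; exact h2
  · rw [k]; exact cb_off fun _ _ => rfl

theorem Ex.cb_cv {F : Fr I M ι} (e : Ex F c O) {f a b : M → ℝ} (hf : F.Cb f) (ha : F.Cd a)
    (hb : F.Cd b) : F.Cb (Oᶜ.indicator fun x =>
      ∑ s : ι × ι, (f x * F.D s.1 a x * F.D s.2 b x) • c.m.Fg F c.W x s) := by
  have : (Oᶜ.indicator fun x => ∑ s : ι × ι, (f x * F.D s.1 a x * F.D s.2 b x) • c.m.Fg F c.W x s)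
      = fun x => ∑ s : ι × ι, (f x * F.D s.1 a x * F.D s.2 b x) •
        PiLp.proj (𝕜 := ℝ) 2 (fun _ : ι × ι => c.m.A) s (Oᶜ.indicator (c.m.Fg F c.W) x) := by
    funext x
    by_cases hx : x ∈ Oᶜ
    · simp only [Set.indicator_of_mem hx]; rfl
    · simp only [Set.indicator_of_notMem hx, map_zero, smul_zero, sum_const_zero]
  rw [this]
  exact Cb_sum _ fun s _ => Cb_smul (Cb_smul (Cb_smul hf (ha.2 _)) (hb.2 _)) (Cb_clm _ e.cv)

section free
variable {u : M → CL c.m.V c'.m.V} (g : KC B G B' G' O O' φ ψ U v)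
  (h : LM B G B' G' O φ U v₁ c.W c'.W u)
include g h

theorem lt_rel {t : Lt M} {t' : Lt M'} (ht : LtR O φ t t') (ok' : t'.OK G'.F) {s : M → c.m.V}
    {s' : M' → c'.m.V} (k : RV O O' φ u s s') : RV O O' φ u (c.lt G.F t s) (c'.lt G'.F t' s') := by
  cases ht with
  | mul hf => exact ⟨fun x hx => by simp only [Cfg.lt, k.rel x hx, map_smul, ← hf hx]; rfl,
      fun x hx => by simp only [Cfg.lt, map_smul, k.p x hx],
      fun x hx => by simp only [Cfg.lt, k.off x hx, smul_zero],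
      fun x hx => by simp only [Cfg.lt, k.off' x hx, smul_zero]⟩
  | cl hf =>
    refine ⟨fun x hx => ?_, fun x _ => ?_, fun x hx => by simp [Cfg.lt, k.off x hx],
      fun x hx => by simp [Cfg.lt, k.off' x hx]⟩
    · have e := fun a w => congrArg (fun T : CL c.m.V c'.m.V => T w)
        ((h.me x hx).ρ' (h.be x hx) h.ok a)
      simp only [ContinuousLinearMap.comp_apply, _root_.sum_apply, smul_apply] at e
      simp only [Cfg.lt, k.rel x hx, g.toLG.D hx (ok'.1 _) hf, map_sum, map_smul, ← e, smul_sum,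
        sum_smul, smul_smul, smul_eq_mul]
      rw [sum_comm]
      simp only [mul_comm]
    · simp only [Cfg.lt, map_sum, map_smul, ← mul_apply_eq_comp, (h.ok.cl x).pl]
  | im => exact ⟨fun x hx => by simp only [Cfg.lt, k.rel x hx, (h.me x hx).J_apply],
      fun x hx => by
        simp only [Cfg.lt]; rw [← mul_apply_eq_comp, ← h.ok.Jp, mul_apply_eq_comp, k.p x hx],
      fun x hx => by simp only [Cfg.lt, k.off x hx, map_zero],
      fun x hx => by simp only [Cfg.lt, k.off' x hx, map_zero]⟩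
  | G => exact k.res g h

theorem sw_rel (k : RV O O' φ u c.Φ c'.Φ) {w : SW M} {w' : SW M'} (hw : SWR O φ w w')
    (ok' : w'.OK G'.F) : RV O O' φ u (c.sw G.F w) (c'.sw G'.F w') :=
  wd_rel₂ (p := fun _ => True) (p' := Lt.OK G'.F) (R := LtR O φ) (op := c.lt G.F)
    (op' := c'.lt G'.F) k (fun _ _ _ _ a _ b d => lt_rel g h a b d) hw (fun _ _ => trivial) ok'

variable (ex : Ex G.F c O) (ex' : Ex G'.F c' O')
include ex ex'

theorem RA.res {s : M → c.m.A} {s' : M' → c'.m.A} (k : RA G.F G'.F O O' φ u s s') :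
    RA G.F G'.F O O' φ u (G.F.res (c.m.adW c.W) s) (G'.F.res (c'.m.adW c'.W) s') := by
  have e : ∀ x ∈ O, ∀ a, cj (trn (u (ψ (φ x)))) (cj (u x) a) = cj (c.m.p x) a := fun x hx a => by
    rw [g.inv.linv x hx, cj_cj, (h.me x hx).uu]
  have k1 := ex.cb_res g.clopen g.bu (mc_adW h.cn) k.off
  have k2 := ex'.cb_res g.clopen' g.bu' (mc_adW h.cn') k.off'
  have := res_rel g h.it_ad (h.symm g.inv).it_ad
    (fun x hx => ⟨k.rel x hx, (e x hx _).trans (k.p x hx)⟩) k1.1 k2.1
  exact ⟨fun x hx => (this x hx).1, fun x hx => (e x hx _).symm.trans (this x hx).2, k1.2, k2.2⟩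

/-- adjoint words on arbitrary related seeds -/
theorem la_rel {s : M → c.m.A} {s' : M' → c'.m.A} (k : RA G.F G'.F O O' φ u s s')
    {l : List (La M)} {l' : List (La M')} (hl : List.Forall₂ (LaR O φ) l l')
    (ok : ∀ t ∈ l, La.OK G.F t) (ok' : ∀ t ∈ l', La.OK G'.F t) :
    RA G.F G'.F O O' φ u (wd (c.la G.F) s l) (wd (c'.la G'.F) s' l') := by
  refine wd_rel₂ k (fun t t' a b ht o o' k => ?_) hl ok ok'
  cases ht with
  | mul hf => exact ⟨fun x hx => by simp only [Cfg.la, k.rel x hx, map_smul, ← hf hx]; rfl,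
      fun x hx => by simp only [Cfg.la, map_smul, k.p x hx],
      by unfold Cfg.la; rw [ind_smul]; exact Cb_smul o k.off,
      by unfold Cfg.la; rw [ind_smul]; exact Cb_smul o' k.off'⟩
  | G => exact k.res g h ex ex'

theorem aw_rel (k : RV O O' φ u c.Φ c'.Φ) {ξ : AW M} {ξ' : AW M'} (hξ : AWR O φ ξ ξ')
    (ok : ξ.OK G.F) (ok' : ξ'.OK G'.F) : RA G.F G'.F O O' φ u (c.aw G.F ξ) (c'.aw G'.F ξ') := by
  refine la_rel g h ex ex' ?_ hξ.l ok.2 ok'.2
  obtain ⟨s, l⟩ := ξ
  obtain ⟨s', l'⟩ := ξ'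
  obtain ⟨hs, -⟩ := hξ
  cases hs with
  | q ha hb => exact RA.q h (sw_rel g h k ha ok'.1.1) (sw_rel g h k hb ok'.1.2)
  | @cv f f' a a' b b' hf ha hb =>
    refine RA.res g h ex ex' (RA.res g h ex ex' ⟨fun x hx => ?_, fun x _ => ME.cj_p
      (Submodule.sum_mem _ fun s _ => Submodule.smul_mem _ _ (pg_mem x _)),
      ex.cb_cv ok.1.1 ok.1.2.1 ok.1.2.2, ex'.cb_cv ok'.1.1 ok'.1.2.1 ok'.1.2.2⟩)
    have h1 : ∀ s, ∑ t, G'.F.D t.1 a' (φ x) * G'.F.D t.2 b' (φ x) * sq2 (U x) t s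
        = G.F.D s.1 a x * G.F.D s.2 b x := fun s => by
      have k1 := g.rot.D (geo_frm g.hG) hx s.1 (SA.md (ok'.1.2.1.1 (φ x)))
      have k2 := g.rot.D (geo_frm g.hG) hx s.2 (SA.md (ok'.1.2.2.1 (φ x)))
      rw [Sob92.dv_congr (u := fun y => a' (φ y)) (v := a)
        ((g.rot.ev hx).mono fun y hy => ha hy)] at k1
      rw [Sob92.dv_congr (u := fun y => b' (φ y)) (v := b)
        ((g.rot.ev hx).mono fun y hy => hb hy)] at k2
      rw [Pre.D_def, Pre.D_def G.F.toPre, k1, k2, sum_mul_sum, Fintype.sum_prod_type]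
      exact sum_congr rfl fun _ _ => sum_congr rfl fun _ _ => by
        simp only [sq2, smul_eq_mul, Pre.D_def]; ring
    have h2 : f' (φ x) = f x := hf hx
    simp only [h.Fg hx, ridx_apply, smul_sum, smul_smul, map_sum, map_smul, h2]
    rw [sum_comm]
    refine sum_congr rfl fun s _ => ?_
    rw [← sum_smul, mul_assoc, ← h1, mul_sum]
    simp only [mul_assoc]

theorem aws_rel (k : RV O O' φ u c.Φ c'.Φ) {L : List (AW M)} {L' : List (AW M')}
    (hL : List.Forall₂ (AWR O φ) L L') (ok : ∀ ξ ∈ L, AW.OK G.F ξ) (ok' : ∀ ξ ∈ L', AW.OK G'.F ξ) :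
    RA G.F G'.F O O' φ u (c.aws G.F L) (c'.aws G'.F L') := by
  induction hL with
  | nil => exact ⟨fun _ _ => (map_zero _).symm, fun _ _ => map_zero _, cb_off fun _ _ => rfl,
      cb_off fun _ _ => rfl⟩
  | cons a _ ih =>
    rw [List.forall_mem_cons] at ok ok'
    have k1 := aw_rel g h ex ex' k a ok.1 ok'.1
    have k2 := ih ok.2 ok'.2
    refine ⟨fun x hx => ?_, fun x hx => ?_, ?_, ?_⟩
    · exact (congrArg₂ (· + ·) (k1.rel x hx) (k2.rel x hx)).trans (map_add _ _ _).symm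
    · exact (map_add _ _ _).trans (congrArg₂ (· + ·) (k1.p x hx) (k2.p x hx))
    · have := Cb_add k1.off k2.off
      rwa [← Set.indicator_add'] at this
    · have := Cb_add k1.off' k2.off'
      rwa [← Set.indicator_add'] at this

end free

end Crest.Agent.X212.Eqv71
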