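import Crest.Agent.X212.Eqv71.Nek
import Crest.Agent.X212.An.Syn
import Crest.Agent.X212.Cnt93.Main

/-! Naturality of compactly supported terms over clopen sets of tame backgrounds. -/

set_option autoImplicit false
set_option linter.unusedSectionVars false

open scoped Manifold ContDiff Topology InnerProductSpace
open Finset Filter MeasureTheory

noncomputable section
namespace Crest.Agent.X212.Eqv71
open An Wz78 Sob92 Mp86
open Wrd81 (wd TmIn AwIn LlIn)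
open Cnt93 (Rh XiR TcR It)

variable {E : Type} [NormedAddCommGroup E] [NormedSpace ℝ E] [FiniteDimensional ℝ E]
  [MeasurableSpace E] [BorelSpace E]
  {HM : Type} [TopologicalSpace HM] {I : ModelWithCorners ℝ E HM} [I.Boundaryless]
  {M : Type} [TopologicalSpace M] [ChartedSpace HM M] [IsManifold I ∞ M]
  [MeasurableSpace M] [BorelSpace M] [T2Space M] [SecondCountableTopology M]
  {ι : Type} [Fintype ι] {lam : Type} [Fintype lam]
  {E' : Type} [NormedAddCommGroup E'] [NormedSpace ℝ E'] [FiniteDimensional ℝ E']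
  [MeasurableSpace E'] [BorelSpace E']
  {HM' : Type} [TopologicalSpace HM'] {I' : ModelWithCorners ℝ E' HM'} [I'.Boundaryless]
  {M' : Type} [TopologicalSpace M'] [ChartedSpace HM' M'] [IsManifold I' ∞ M']
  [MeasurableSpace M'] [BorelSpace M'] [T2Space M'] [SecondCountableTopology M']
  {ι' : Type} [Fintype ι'] {lam' : Type} [Fintype lam']
  {B : Base M ι lam} {G : Geo I M ι lam} {B' : Base M' ι' lam'} {G' : Geo I' M' ι' lam'}
  {O Ω : Set M} {O' Ω' : Set M'} {φ : M → M'} {ψ : M' → M}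
  {U : M → ι' → ι → ℝ} {v v₁ : M → CL (Eu lam) (Eu lam')} {x : M}
  {r n : ℕ} {c : Cfg M ι lam r} {c' : Cfg M' ι' lam' r} {u : M → CL c.m.V c'.m.V} {ζ : Circle}

section sb
variable {N : Type} [NormedAddCommGroup N] [NormedSpace ℝ N] {s : M → N}

theorem Sb.ind (hO : IsClopen O) (h : Sb I s) : Sb I (O.indicator s) :=
  ⟨sm_ind hO fun x _ => h.sm x, h.bd.imp fun _ k x => (norm_indicator_le_norm_self _ _).trans (k x)⟩

theorem sb_off (h : ∀ x ∉ O, s x = 0) : Sb I (Oᶜ.indicator s) := by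
  rw [show Oᶜ.indicator s = fun _ => 0 from funext fun y => Set.indicator_apply_eq_zero.2 (h y)]
  exact sb_const 0

end sb

/-- an isometry of clopen sets of tame backgrounds -/
structure KT (B : Base M ι lam) (G : Geo I M ι lam) (B' : Base M' ι' lam') (G' : Geo I' M' ι' lam')
    (O : Set M) (O' : Set M') (φ : M → M') (ψ : M' → M) (U : M → ι' → ι → ℝ)
    (v : M → CL (Eu lam) (Eu lam')) : Prop extends KC B G B' G' O O' φ ψ U v where
  tame : ∃ C, G.F.Tame C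
  tame' : ∃ C, G'.F.Tame C

theorem KT.symm (g : KT B G B' G' O O' φ ψ U v) :
    KT B' G' B G O' O ψ φ (fun y a b => U (ψ y) b a) fun y => trn (v (ψ y)) :=
  ⟨g.toKC.symm, g.tame', g.tame⟩

theorem kt_of (g : KG B G B' G' O O' φ ψ U v) (h : IsClosed O) (h' : IsClosed O')
    (t : ∃ C, G.F.Tame C) (t' : ∃ C, G'.F.Tame C) : KT B G B' G' O O' φ ψ U v :=
  ⟨⟨g, h, h', bumps_of_tame _ t.choose_spec, bumps_of_tame _ t'.choose_spec⟩, t, t'⟩

theorem kt_refl (hB : B.OK I) (hG : G.OK B) (hO : IsClopen O) (t : ∃ C, G.F.Tame C) :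
    KT B G B G O O id id (fun x b a => B.P b a x) B.l := kt_of (kg_refl hB hG hO.2) hO.1 hO.1 t t

variable (I I') in
/-- related sections of the endomorphism bundles, smooth and bounded off `O` and `O'` -/
structure RB (O : Set M) (O' : Set M') (φ : M → M') (u : M → CL c.m.V c'.m.V) (s : M → c.m.A)
    (s' : M' → c'.m.A) : Prop where
  rel : ∀ x ∈ O, s' (φ x) = cj (u x) (s x)
  p : ∀ x ∈ O, cj (c.m.p x) (s x) = s x
  off : Sb I (Oᶜ.indicator s)
  off' : Sb I' (O'ᶜ.indicator s')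

theorem RA.rb {s : M → c.m.A} {s' : M' → c'.m.A} (k : RA G.F G'.F O O' φ u s s') :
    RB I I' O O' φ u s s' := ⟨k.rel, k.p, .of_cb k.off, .of_cb k.off'⟩

theorem sb_cv (hB : B.OK I) (hG : G.OK B) (ok : c.m.OK I B) (cn : c.m.IsConn B G c.W)
    {f a b : M → ℝ} (hf : Wrd81.Tf I Ω f) (ha : Sm I a) (hb : Sm I b) : Sb I fun x =>
      ∑ s : ι × ι, (f x * G.F.D s.1 a x * G.F.D s.2 b x) • c.m.Fg G.F c.W x s :=
  .of_cb (F := G.F) (Cb_of_hcs (fun x => SA.sum _ fun s _ => SA.smul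
    (SA.mul (SA.mul (hf.sm x) (G.F.sm_D ha _ x)) (G.F.sm_D hb _ x))
    (SA.clm (PiLp.proj (𝕜 := ℝ) 2 (fun _ : ι × ι => c.m.A) s) (Mp86.sm_Fg hB hG ok cn x)))
    (hf.hcs.mono fun x hx h => hx (by simp [h])))

section free
variable (g : KT B G B' G' O O' φ ψ U v) (h : LM B G B' G' O φ U v₁ c.W c'.W u)
include g h

theorem RB.norm {s : M → c.m.A} {s' : M' → c'.m.A} (k : RB I I' O O' φ u s s') (hx : x ∈ O) :
    ‖s' (φ x)‖ = ‖s x‖ := by
  rw [norm_eq_sqrt_real_inner, k.rel x hx, inner_cj, cj_cj, (h.me x hx).uu, k.p x hx,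
    ← norm_eq_sqrt_real_inner]

theorem RB.res {s : M → c.m.A} {s' : M' → c'.m.A} (k : RB I I' O O' φ u s s') :
    RB I I' O O' φ u (G.F.res (c.m.adW c.W) s) (G'.F.res (c'.m.adW c'.W) s') := by
  have e : ∀ x ∈ O, ∀ a, cj (trn (u (ψ (φ x)))) (cj (u x) a) = cj (c.m.p x) a := fun x hx a => by
    rw [g.inv.linv x hx, cj_cj, (h.me x hx).uu]
  have := res_rel g.toKC h.it_ad (h.symm g.inv).it_ad
    (fun x hx => ⟨k.rel x hx, (e x hx _).trans (k.p x hx)⟩)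
    (Mon62.exists_res_sm g.tame.choose_spec (mc_adW h.cn).sm (mc_adW h.cn).sk k.off.sm k.off.bd)
    (Mon62.exists_res_sm g.tame'.choose_spec (mc_adW h.cn').sm (mc_adW h.cn').sk k.off'.sm k.off'.bd)
  exact ⟨fun x hx => (this x hx).1, fun x hx => (e x hx _).symm.trans (this x hx).2,
    (sb_res _ _ _).ind g.clopen.compl, (sb_res _ _ _).ind g.clopen'.compl⟩

theorem la_rel0 {s : M → c.m.A} {s' : M' → c'.m.A} (k : RB I I' O O' φ u s s')
    {l : List (La M)} {l' : List (La M')} (hl : List.Forall₂ (LaR O φ) l l')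
    (ok : ∀ t ∈ l, La.OK G.F t) (ok' : ∀ t ∈ l', La.OK G'.F t) :
    RB I I' O O' φ u (wd (c.la G.F) s l) (wd (c'.la G'.F) s' l') := by
  refine wd_rel₂ k (fun t t' a b ht o o' k => ?_) hl ok ok'
  cases ht with
  | mul hf => exact ⟨fun x hx => by simp only [Cfg.la, k.rel x hx, map_smul, ← hf hx]; rfl,
      fun x hx => by simp only [Cfg.la, map_smul, k.p x hx],
      by unfold Cfg.la; rw [ind_smul]; exact (Sb.of_cb o).smul k.off,
      by unfold Cfg.la; rw [ind_smul]; exact (Sb.of_cb o').smul k.off'⟩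
  | G => exact k.res g h

/-- the curvature seeds -/
theorem cv_rel0 {f a b : M → ℝ} {f' a' b' : M' → ℝ} (hf : FR O φ f f') (ha : FR O φ a a')
    (hb : FR O φ b b') (i : Wrd81.SdIn I Ω (.cv f a b)) (i' : Wrd81.SdIn I' Ω' (.cv f' a' b')) :
    RB I I' O O' φ u (c.sd G.F (.cv f a b)) (c'.sd G'.F (.cv f' a' b')) := by
  refine RB.res g h (RB.res g h ⟨fun x hx => ?_, fun x _ => ME.cj_p
    (Submodule.sum_mem _ fun s _ => Submodule.smul_mem _ _ (pg_mem x _)),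
    (sb_cv g.hB g.hG h.ok h.cn i.1 i.2.1.sm i.2.2.sm).ind g.clopen.compl,
    (sb_cv g.hB' g.hG' h.ok' h.cn' i'.1 i'.2.1.sm i'.2.2.sm).ind g.clopen'.compl⟩)
  have h1 : ∀ s, ∑ t, G'.F.D t.1 a' (φ x) * G'.F.D t.2 b' (φ x) * sq2 (U x) t s
      = G.F.D s.1 a x * G.F.D s.2 b x := fun s => by
    have k1 := g.rot.D (geo_frm g.hG) hx s.1 (SA.md (i'.2.1.sm (φ x)))
    have k2 := g.rot.D (geo_frm g.hG) hx s.2 (SA.md (i'.2.2.sm (φ x)))
    rw [Sob92.dv_congr (u := fun y => a' (φ y)) (v := a)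
      ((g.rot.ev hx).mono fun y hy => ha hy)] at k1
    rw [Sob92.dv_congr (u := fun y => b' (φ y)) (v := b)
      ((g.rot.ev hx).mono fun y hy => hb hy)] at k2
    rw [Pre.D_def, Pre.D_def G.F.toPre, k1, k2, sum_mul_sum, Fintype.sum_prod_type]
    exact sum_congr rfl fun _ _ => sum_congr rfl fun _ _ => by
      simp only [sq2, smul_eq_mul, Pre.D_def]; ring
  have h2 : f' (φ x) = f x := hf hx
  simp only [h.Fg hx, ridx_apply, smul_sum, smul_smul, map_sum, map_smul, h2]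
  rw [sum_comm]
  refine sum_congr rfl fun s _ => ?_
  rw [← sum_smul, mul_assoc, ← h1, mul_sum]
  simp only [mul_assoc]

end free

namespace CR0
variable (k : CR0 B G B' G' O O' φ U v c c' u ζ) (g : KT B G B' G' O O' φ ψ U v)
include k g

theorem ph (η : Circle) {s : M → c.m.A} {s' : M' → c'.m.A} (h : RA G.F G'.F O O' φ (uz u ζ) s s')
    (hs : ∀ x, s x ∈ c.m.gS x) : RB I I' O O' φ (uz u η) s s' :=
  ⟨fun x hx => by
    have e := fun θ => cj_phase ((k.lm g.toKC).me x hx) k.adm.ok k.adm'.ok θ (hs x)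
    rw [h.rel x hx, e, e], h.p, h.rb.off, h.rb.off'⟩

theorem aw (η : Circle) {ξ : AW M} {ξ' : AW M'} (hξ : AWR O φ ξ ξ') (i : AwIn I Ω ξ)
    (i' : AwIn I' Ω' ξ') : RB I I' O O' φ (uz u η) (c.aw G.F ξ) (c'.aw G'.F ξ') := by
  refine la_rel0 g ((k.lm g.toKC).phase η) ?_ hξ.l (i.2.ok _) (i'.2.ok _)
  obtain ⟨s, l⟩ := ξ
  obtain ⟨s', l'⟩ := ξ'
  obtain ⟨hs, -⟩ := hξ
  cases hs with
  | q ha hb => exact k.ph g η (RA.q (k.lz g.toKC) (k.sw g.toKC ha (i'.1.1.ok _))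
      (k.sw g.toKC hb (i'.1.2.ok _))) fun x => pg_mem x _
  | cv hf ha hb => exact cv_rel0 g ((k.lm g.toKC).phase η) hf ha hb i.1 i'.1

theorem aws {L : List (AW M)} {L' : List (AW M')} (hL : List.Forall₂ (AWR O φ) L L')
    (i : ∀ ξ ∈ L, AwIn I Ω ξ) (i' : ∀ ξ ∈ L', AwIn I' Ω' ξ) :
    RB I I' O O' φ (uz u ζ) (c.aws G.F L) (c'.aws G'.F L') := by
  induction hL with
  | nil => exact ⟨fun _ _ => (map_zero _).symm, fun _ _ => map_zero _, sb_off fun _ _ => rfl,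
      sb_off fun _ _ => rfl⟩
  | cons a _ ih =>
    rw [List.forall_mem_cons] at i i'
    have k1 := k.aw g ζ a i.1 i'.1
    have k2 := ih i.2 i'.2
    refine ⟨fun x hx => ?_, fun x hx => ?_, ?_, ?_⟩
    · exact (congrArg₂ (· + ·) (k1.rel x hx) (k2.rel x hx)).trans (map_add _ _ _).symm
    · exact (map_add _ _ _).trans (congrArg₂ (· + ·) (k1.p x hx) (k2.p x hx))
    · have := k1.off.add k2.off
      rwa [← Set.indicator_add] at this
    · have := k1.off'.add k2.off'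
      rwa [← Set.indicator_add] at this

theorem qj (η : Circle) {d : Co M lam r} {d' : Co M' lam' r} (hd : CoR O φ v d d')
    (okd : d'.OK G'.F) {s : M → Eu lam} {s' : M' → Eu lam'} (hs : SR O φ v s s') {a b : SW M}
    {a' b' : SW M'} (ha : SWR O φ a a') (oka : a'.OK G'.F) (hb : SWR O φ b b') (okb : b'.OK G'.F)
    {l : List (La M)} {l' : List (La M')} (hl : List.Forall₂ (LaR O φ) l l') (i : LlIn I Ω l)
    (i' : LlIn I' Ω' l') : RB I I' O O' φ (uz u η) (wd (c.la G.F) (c.qj G.F d s a b) l)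
      (wd (c'.la G'.F) (c'.qj G'.F d' s' a' b') l') :=
  la_rel0 g ((k.lm g.toKC).phase η) (k.ph g η (RA.q (k.lz g.toKC) (k.cjw g.toKC hd okd hs ha oka)
    (k.sw g.toKC hb okb)) fun x => pg_mem x _) hl (i.ok _) (i'.ok _)

theorem p2 {s : M → c.m.A} {s' : M' → c'.m.A} (h : RB I I' O O' φ (uz u ζ) s s') (hx : x ∈ O)
    {w : ι × ι → ℝ} {w' : ι' × ι' → ℝ} (hw : ∀ t, w' t = ∑ s, sq2 (U x) t s * w s) :
    c'.m.p2 B' (φ x) (WithLp.toLp 2 fun t => w' t • s' (φ x))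
      = ridx (sq2 (U x)) (cj (u x)) (c.m.p2 B x (WithLp.toLp 2 fun t => w t • s x)) :=
  k.p2' g.toKC hx (by rw [h.rel x hx, toLp_rel _ _ hw])

theorem tC {t : Tm M lam r n} {t' : Tm M' lam' r n} (ht : TmR O φ v t t') (i : TmIn I Ω t)
    (i' : TmIn I' Ω' t') (hx : x ∈ O) :
    c'.tC B' G'.F t' (φ x) = ridx (sq2 (U x)) (cj (u x)) (c.tC B G.F t x) := by
  cases ht with
  | ad ha hb hξ => exact k.p2 g (k.aw g ζ hξ i.2.2 i'.2.2) hx (g.toLG.DD hx ha hb i'.1.sm i'.2.1.sm)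
  | adj hd hs ha hb h1 h2 hl =>
    exact k.p2 g (k.qj g ζ hd (i'.1.ok _) hs h1 (i'.2.2.2.2.1.ok _) h2 (i'.2.2.2.2.2.1.ok _) hl
      i.2.2.2.2.2.2 i'.2.2.2.2.2.2) hx (g.toLG.DD hx ha hb i'.2.2.1.sm i'.2.2.2.1.sm)
  | @adn f f' a a' b b' L L' χ hf ha hb hL =>
    have k1 := k.aws g hL i.2.2.2.2.2 i'.2.2.2.2.2
    refine k.p2 g k1 hx fun t => ?_
    have h2 : f' (φ x) = f x := hf hx
    rw [k1.norm g (k.lz g.toKC) hx, h2, mul_assoc (f x), g.toLG.DD hx ha hb i'.2.1.sm i'.2.2.1.sm,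
      mul_sum, sum_mul]
    exact sum_congr rfl fun s _ => by ring
  | _ => exact (map_zero _).symm

theorem rb_it (η : Circle) {s : M → c.m.A} {s' : M' → c'.m.A} (h : RB I I' O O' φ (uz u η) s s')
    (hx : x ∈ O) : It (uz u η x) (opL (s x)) (opL (s' (φ x))) := by
  have h1 := congrArg opL (h.p x hx)
  have h2 : trn (uz u η x) ∘L uz u η x = _ := (((k.lm g.toKC).phase η).me x hx).uu
  rw [opL_cj, trn_of_sym (k.adm.ok.psym x)] at h1
  rw [It, h.rel x hx, opL_cj]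
  generalize uz u η x = w at h2 ⊢
  rw [ContinuousLinearMap.comp_assoc, ContinuousLinearMap.comp_assoc, h2, ← h1,
    ContinuousLinearMap.comp_assoc, ContinuousLinearMap.comp_assoc,
    show c.m.p x ∘L c.m.p x = _ from k.adm.ok.pidem x]

theorem xi_it (η : Circle) {ξ : Xi M lam r} {ξ' : Xi M' lam' r} (h : XiR O φ v ξ ξ')
    (i : XiIn I Ω ξ) (i' : XiIn I' Ω' ξ') (hx : x ∈ O) :
    It (uz u η x) (c.xi G.F ξ x) (c'.xi G'.F ξ' (φ x)) := by
  cases h with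
  | one => exact It.one
  | aw h => exact k.rb_it g η (k.aw g η h i i') hx
  | qj hd hs ha hb hl =>
    exact k.rb_it g η (k.qj g η hd (i'.1.ok _) hs ha (i'.2.2.1.ok _) hb (i'.2.2.2.1.ok _) hl
      i.2.2.2.2 i'.2.2.2.2) hx

/-- the terms of the rows of the cuts -/
theorem tc (η : Circle) {κ : Cut M lam} {κ' : Cut M' lam'} (hk : κ.OK B G.F) (hk' : κ'.OK B' G'.F)
    (R : κ.Rel κ' O φ v) {t : Tc M lam r} {t' : Tc M' lam' r} (h : TcR O φ v t t')
    (i : XiIn I Ω t.ξ) (i' : XiIn I' Ω' t'.ξ) (a : κ.H B c.m) :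
    c'.tc B' G'.F κ' t' (Rh κ κ' B B' u η a) = Rh κ κ' B B' u η (c.tc B G.F κ t a) := by
  have h0 : κ.x0 ∈ O := Cnt93.γ_mem R 0 0
  have e := Cnt93.hi_Rh (k.lm g.toKC) R η
  have p : It (csE c'.m.J η ∘L u κ.x0) (κ.pi B G.F c.m κ.x0) (κ'.pi B' G'.F c'.m (φ κ.x0)) :=
    (Cnt93.pi_it (k.lm g.toKC) hk hk' R h0).comp (It.comm.2
      ((It.comm.2 (It.comm.1 (Cnt93.J_pi κ' k.adm'.ok)).symm).csE _ :))
  rw [Cfg.tc, Cfg.tc, h.m, h.n, h.w]
  refine e.frk ?_ _ _ a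
  rw [show κ'.x0 = φ κ.x0 from R.γ 0 0]
  exact ((p.mul (e.hJ.csE _)).mul (k.xi_it g η h.ξ i i' h0)).mul p

end CR0

/-- **related compactly supported terms give related perturbations** -/
theorem tm_rel0 (g : KT B G B' G' O O' φ ψ U v) {t : Tm M lam r n} {t' : Tm M' lam' r n}
    (ht : TmR O φ v t t') (i : TmIn I Ω t) (i' : TmIn I' Ω' t') :
    PRel0 B G B' G' O O' φ U v (tmP B G.F t) (tmP B' G'.F t') :=
  ⟨fun k _ hx => k.tD g.toKC ht (i'.ok _) hx, fun k _ hx => k.tC g ht i i' hx,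
    fun k j => k.tS g.toKC ht (i'.ok _) j⟩

theorem tm_nat0 (hB : B.OK I) (hG : G.OK B) (hO : IsClopen O) (hT : ∃ C, G.F.Tame C)
    {t : Tm M lam r n} (i : TmIn I Ω t) : PNat0 B G O (tmP B G.F t) :=
  tm_rel0 (kt_refl hB hG hO hT) (tmR_refl O (trn_l hB) t) i i

theorem wpt_rel0 (g : KT B G B' G' O O' φ ψ U v) {K : Type} [Fintype K] {T : K → Tm M lam r n}
    {T' : K → Tm M' lam' r n} (hT : ∀ i, TmR O φ v (T i) (T' i)) (i : ∀ j, TmIn I Ω (T j))
    (i' : ∀ j, TmIn I' Ω' (T' j)) (w : K → ℝ) :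
    PRel0 B G B' G' O O' φ U v (wpt B G.F T w) (wpt B' G'.F T' w) :=
  prel0_sum univ (fun j _ => tm_rel0 g (hT j) (i j) (i' j)) w

theorem wpt_nat0 (hB : B.OK I) (hG : G.OK B) (hO : IsClopen O) (hT : ∃ C, G.F.Tame C)
    {K : Type} [Fintype K] {T : K → Tm M lam r n} (i : ∀ j, TmIn I Ω (T j)) (w : K → ℝ) :
    PNat0 B G O (wpt B G.F T w) :=
  wpt_rel0 (kt_refl hB hG hO hT) (fun j => tmR_refl O (trn_l hB) (T j)) i i w

/-- **the leaf `NatOn`** from `PNat0` -/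
theorem natOn_of_pnat0 {m : ℕ} {O₁ : Set M} (hB : B.OK I) (hG : G.OK B) (hO : IsOpen O)
    (hs : O₁ ⊆ O) {τ : Mod61.PtX M ι lam r n m} (p : PNat0 B G O τ.toPt)
    (hR : ∀ (c c' : Cfg M ι lam r) u ζ,
      CR0 B G B G O O id (fun x b a => B.P b a x) B.l c c' u ζ → τ.R c' = τ.R c) :
    Mod61.NatOn B G O O₁ τ := fun c c' u ζ h h' h0 h0' e => by
  have k : CR0 B G B G O O id (fun x b a => B.P b a x) B.l c c' u ζ :=
    ⟨ad0_of h, ad0_of h', fun x hx => h0 x fun h => hx (hs h), fun x hx => h0' x fun h => hx (hs h), e⟩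
  exact ⟨fun x hx => p.D k x (hs hx), fun x hx s => (congrFun (congrArg _ (p.C k x hx)) s).trans
    (ridx_P (hB.pr x) (p.C (cr0_refl hB hG hO k.adm k.off) x hx) _ s), p.S k, hR c c' u ζ k⟩

/-! ### the rows of the cuts -/

section pc
variable {κ : Cut M lam} {κ' : Cut M' lam'}

/-- related perturbations of the rows of two cuts -/
def PcRel0 (B : Base M ι lam) (G : Geo I M ι lam) (B' : Base M' ι' lam') (G' : Geo I' M' ι' lam')
    (O : Set M) (O' : Set M') (φ : M → M') (U : M → ι' → ι → ℝ) (v : M → CL (Eu lam) (Eu lam'))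
    (σ : Pc r B κ) (σ' : Pc r B' κ') : Prop :=
  ∀ {c c' u ζ}, CR0 B G B' G' O O' φ U v c c' u ζ → ∀ η a,
    σ' c' (Rh κ κ' B B' u η a) = Rh κ κ' B B' u η (σ c a)

variable {σ : Pc r B κ} {σ' : Pc r B' κ'}

theorem PcRel0.rel (p : PcRel0 B G B' G' O O' φ U v σ σ') :
    Cnt93.PcRel B G B' G' O O' φ U v σ σ' := fun k => p k.to0

/-- finitely supported combinations of terms -/
theorem pcRel0_sum (g : KT B G B' G' O O' φ ψ U v) (hk : κ.OK B G.F) (hk' : κ'.OK B' G'.F)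
    (R : κ.Rel κ' O φ v) {K : Type} {T : K → Tc M lam r} {T' : K → Tc M' lam' r}
    (h : ∀ i, TcR O φ v (T i) (T' i)) (i : ∀ j, XiIn I Ω (T j).ξ) (i' : ∀ j, XiIn I' Ω' (T' j).ξ)
    (s : Finset K) (w : K → ℝ) : PcRel0 B G B' G' O O' φ U v
      (fun c => ∑ j ∈ s, w j • c.tc B G.F κ (T j)) fun c => ∑ j ∈ s, w j • c.tc B' G'.F κ' (T' j) :=
  fun e η a => by
    simp only [_root_.sum_apply, _root_.smul_apply, map_sum, map_smul,
      fun j => e.tc g η hk hk' R (h j) (i j) (i' j) a]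

/-- **solutions of the row of a cut go to solutions** -/
theorem PcRel0.sol (p : PcRel0 B G B' G' O O' φ U v σ σ') (g : LG B G B' G' O φ U v)
    (hk : κ.OK B G.F) (hk' : κ'.OK B' G'.F) (R : κ.Rel κ' O φ v)
    (e : CR0 B G B' G' O O' φ U v c c' u ζ) {a : κ.H B c.m} {a' : κ'.H B' c'.m}
    (h : κ.Eqv κ' B B' u a a') : κ'.Sol B' G'.F σ' c' a' ↔ κ.Sol B G.F σ c a := by
  have l := g.of_ceq e.adm e.adm' e.e
  obtain ⟨η, rfl⟩ := (Cnt93.eqv_iff l R).1 h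
  rw [Cut.Sol, Cut.Sol, Cnt93.norm_Rh l R, Cnt93.T_nat l R η hk hk', p e,
    (Cnt93.inj_Rh l R η).eq_iff]

end pc

end Crest.Agent.X212.Eqv71
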