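import Crest.Agent.X212.Eqv71.Nat
import Crest.Agent.X212.Abel74.Lab
import Crest.Agent.X212.Eq82.Bas

/-! The leaf `ObnL`; naturality of the perturbations of `Eq82`. -/

set_option autoImplicit false
set_option linter.unusedSectionVars false

open scoped Manifold ContDiff Topology InnerProductSpace
open Finset Filter MeasureTheory

noncomputable section
namespace Crest.Agent.X212.Eqv71
open An Wz78 Sob92 Mp86 Eq82
open Line51 (Ln)

variable {E : Type} [NormedAddCommGroup E] [NormedSpace ℝ E] [FiniteDimensional ℝ E]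
  [MeasurableSpace E] [BorelSpace E]
  {HM : Type} [TopologicalSpace HM] {I : ModelWithCorners ℝ E HM} [I.Boundaryless]
  {M : Type} [TopologicalSpace M] [ChartedSpace HM M] [IsManifold I ∞ M]
  [MeasurableSpace M] [BorelSpace M] [SecondCountableTopology M] [T2Space M]
  {ι : Type} [Fintype ι] {r n : ℕ}

/-! ### on a closed manifold admissible words do not depend on the frame -/

section cpt
variable [CompactSpace M] {lam : Type} [Fintype lam] {F₀ : Fr I M ι} (F : Fr I M ι)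

theorem cb_cpt {N : Type} [NormedAddCommGroup N] [NormedSpace ℝ N] {f : M → N} (h : F₀.Cb f) :
    F.Cb f := Cb_of_compact h.choose_spec.1

theorem cd_cpt {f : M → ℝ} (h : F₀.Cd f) : F.Cd f := ⟨h.1, fun a => Cb_of_compact (F.sm_D h.1 a)⟩

theorem sw_cpt {w : SW M} (h : w.OK F₀) : w.OK F := fun t ht => by
  have := h t ht
  cases t
  exacts [cb_cpt F this, cd_cpt F this, trivial, trivial]

theorem las_cpt {w : List (La M)} (h : ∀ t ∈ w, La.OK F₀ t) : ∀ t ∈ w, La.OK F t := fun t ht => by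
  have := h t ht
  cases t
  exacts [cb_cpt F this, trivial]

theorem aw_cpt {ξ : AW M} (h : ξ.OK F₀) : ξ.OK F := by
  obtain ⟨s, l⟩ := ξ
  refine ⟨?_, las_cpt F h.2⟩
  cases s
  exacts [⟨sw_cpt F h.1.1, sw_cpt F h.1.2⟩, ⟨cb_cpt F h.1.1, cd_cpt F h.1.2.1, cd_cpt F h.1.2.2⟩]

theorem sg_cpt {g : Sg M lam} (h : g.OK F₀) : g.OK F :=
  ⟨h.1, h.2.1, sw_cpt F h.2.2.1, sw_cpt F h.2.2.2⟩

theorem co_cpt {d : Co M lam r} (h : d.OK F₀) : d.OK F := by
  cases d
  exacts [trivial, ⟨sg_cpt F h.1, fun g hg => sg_cpt F (h.2 g hg)⟩]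

theorem tm_cpt {t : Tm M lam r n} (h : t.OK F₀) : t.OK F := by
  cases t
  exacts [sw_cpt F h, ⟨co_cpt F h.1, cb_cpt F h.2.1, sw_cpt F h.2.2⟩,
    ⟨cd_cpt F h.1, cd_cpt F h.2.1, aw_cpt F h.2.2⟩,
    ⟨co_cpt F h.1, cb_cpt F h.2.1, cd_cpt F h.2.2.1, cd_cpt F h.2.2.2.1, sw_cpt F h.2.2.2.2.1,
      sw_cpt F h.2.2.2.2.2.1, las_cpt F h.2.2.2.2.2.2⟩,
    ⟨cb_cpt F h.1, cd_cpt F h.2.1, cd_cpt F h.2.2.1, h.2.2.2.1, h.2.2.2.2.1,
      fun ξ hξ => aw_cpt F (h.2.2.2.2.2 ξ hξ)⟩, sg_cpt F h, h]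

variable {F} {B : Base M ι lam} {G : Geo I M ι lam} (hB : B.OK I) (hG : G.OK B)
include hB hG

theorem kc_cpt : KC B G B G Set.univ Set.univ id id (fun x b a => B.P b a x) B.l :=
  kc_refl hB hG isClopen_univ bumps_of_compact

theorem ob_iso {c c' : Cfg M ι lam r} (h : Ad0 c B G) (h' : Ad0 c' B G) (e : Cfg.Iso B G.F c c')
    (o : Ob F₀) : ob G.F c o = ob G.F c' o := by
  obtain ⟨u, ζ, e⟩ := e
  have g := kc_cpt hB hG
  have k := cr_univ h h' e
  rcases o with _ | ⟨ξ, η⟩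
  · exact integral_congr_ae (.of_forall fun x => by
      simp only [← ceq_norm g.toLG h h' e (Set.mem_univ x), id])
  · have a := k.aw g (awR_refl _ ξ.1) (aw_cpt _ ξ.2) (aw_cpt _ ξ.2)
    have b := k.aw g (awR_refl _ η.1) (aw_cpt _ η.2) (aw_cpt _ η.2)
    refine integral_congr_ae (.of_forall fun x => ?_)
    have a1 := a.rel x trivial
    have b1 := b.rel x trivial
    simp only [id] at a1 b1
    simp only [a1, b1, inner_cj, cj_cj, ((k.lz g).me x trivial).uu, b.p x trivial]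

theorem wq_nat (q : Eq82.Wt lam r n F₀ →₀ ℝ) : PNat B G Set.univ (wq B G.F q) :=
  prel_sum q.support (fun T _ => tm_nat hB hG isClopen_univ bumps_of_compact (tm_cpt _ T.2.1))
    (a := fun w _ _ => q w) (a' := fun w _ _ => q w) (b := fun w _ => q w) (b' := fun w _ => q w)
    fun _ _ _ _ _ _ _ => ⟨fun _ _ => rfl, rfl⟩

theorem ed_nat {D : Ed M} (h : D.OK F₀) (w : Fin D.N → ℝ) : PNat B G Set.univ (D.pt B G.F w r n) :=
  wpt_nat hB hG isClopen_univ bumps_of_compact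
    (fun k => tm_cpt (F₀ := F₀) _ (t := D.tm lam r n k) (h k)) w

omit hB hG in
theorem sml_nat {O : Set M} {τ : Pt M ι lam r n} (p : PNat B G O τ) (a : ℝ) : PNat B G O (sml a τ) :=
  ⟨fun k x hx => by simp only [sml, p.D k x hx, map_smul, ← csL_apply],
    fun k x hx => by simp only [sml, p.C k x hx, map_smul],
    fun k i => by simp only [sml, p.S k i, mul_left_comm]⟩

/-- solutions are carried to solutions -/
theorem sol_iso {τ : Pt M ι lam r n} (p : PNat B G Set.univ τ) {c c' : Cfg M ι lam r}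
    (h : c.Sol B G τ) (h' : c'.Adm B G) (e : Cfg.Iso B G.F c c') : c'.Sol B G τ :=
  let ⟨_, _, e⟩ := e; p.sol (kc_cpt hB hG).toLG Function.surjective_id h h' e

end cpt

variable [CompactSpace M] [DecidableEq ι] {κ : Type} [Fintype κ] [DecidableEq κ]

/-- **LEAF `ObnL`** -/
theorem obnL (X : Bk I M ι) {L : Ln E M κ} (hL : L.On I Set.univ) : ObnL X L :=
  fun _ hF _ _ _ h h' e o =>
    ob_iso (Abel74.B_ok X hL) (Abel74.G_ok hL hF) (ad0 h) (ad0 h') e o

end Crest.Agent.X212.Eqv71
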