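import Crest.Agent.X212.Eqv71.Nek
import Crest.Agent.X212.Dec35.Hyp
import Crest.Agent.X212.Bki64.Eng
import Crest.Agent.X212.Pj41.Nkg

/-! Neck terms on the cylinder: gauge and translation invariance. -/

set_option autoImplicit false
set_option linter.unusedSectionVars false

open scoped Manifold ContDiff Topology InnerProductSpace
open Filter MeasureTheory Set

noncomputable section
namespace Crest.Agent.X212.Eqv71
open An Wz78 Sob92 Mp86 Dgr80 Nd18 Cyf70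
open Tmp64 (AdmOn admOn_univ sm_add deriv_add')
open Bki64 (cyD Cl sh_eq)

variable {E3 : Type} [NormedAddCommGroup E3] [NormedSpace ℝ E3] [FiniteDimensional ℝ E3]
  [MeasurableSpace E3] [BorelSpace E3]
  {H3 : Type} [TopologicalSpace H3] {I3 : ModelWithCorners ℝ E3 H3} [I3.Boundaryless]
  {Y : Type} [TopologicalSpace Y] [ChartedSpace H3 Y] [IsManifold I3 ∞ Y] [T2Space Y]
  [MeasurableSpace Y] [BorelSpace Y] [SecondCountableTopology Y] [CompactSpace Y]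
  {κ : Type} [Fintype κ] {lam : Type} [Fintype lam] {D : YD I3 Y κ lam} {r n : ℕ}
  {c c' : Cfg (Y × ℝ) (Option κ) lam r} {u : Y × ℝ → CL c.m.V c'.m.V} {ζ : Circle}
  {τ : Pt (Y × ℝ) (Option κ) lam r n} {N : ND Y lam} {β β' : YC Y κ lam}

/-- the translation -/
abbrev trZ (s : ℝ) (z : Y × ℝ) : Y × ℝ := (z.1, z.2 + s)

variable (D) in
/-- the frame change of the identity -/
abbrev PZ : Y × ℝ → Option κ → Option κ → ℝ := fun x b a => D.B.P b a x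

variable (D) in
/-- the cylinder is tame -/
structure OKZ : Prop extends D.OK where
  tame : ∃ C, D.Z.Tame C

theorem okZ (h : D.OK) (h3 : Module.finrank ℝ E3 ≤ 3) : OKZ D := ⟨h, Cht98.tame_cyl D.F h3⟩

variable (D τ) in
/-- invariance under gauge transformations, phases and translations -/
structure InvZ : Prop where
  nat : PNat0 D.B D.G univ τ
  tr : ∀ s, PRel0 D.B D.G D.B D.G univ univ (trZ s) (PZ D) D.B.l τ τ

theorem ad0_noz {M : Type} [TopologicalSpace M] [ChartedSpace (ModelProd H3 ℝ) M]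
    [IsManifold (IC I3) ∞ M] [MeasurableSpace M] {B : Base M (Option κ) lam}
    {G : Geo (IC I3) M (Option κ) lam} {c : Cfg M (Option κ) lam r} (h : Ad0 c B G) :
    (noz c).Adm B G := ⟨h.ok, h.conn, h.sm, h.pos, .inl rfl⟩

theorem ad0_sh (h : Ad0 c D.B D.G) (s : ℝ) : Ad0 (sh s c) D.B D.G :=
  have k := admOn_univ.1 (Bki64.admOn_sh (admOn_univ.2 (ad0_noz h)) s)
  ⟨k.ok, k.conn, k.sm, k.pos⟩

theorem adm_sh (h : c.Adm D.B D.G) (s : ℝ) : (sh s c).Adm D.B D.G :=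
  admOn_univ.1 (Bki64.admOn_sh (admOn_univ.2 h) s)

namespace OKZ
variable (hD : OKZ D)
include hD

theorem bu : Bumps (IC I3) D.G.F.e D.G.F.dv := bumps_of_tame _ hD.tame.choose_spec

theorem kc : KC D.B D.G D.B D.G univ univ id id (PZ D) D.B.l :=
  kc_refl hD.B hD.G isClopen_univ hD.bu

theorem kc_sh (s : ℝ) : KC D.B D.G D.B D.G univ univ (trZ s) (trZ (-s)) (PZ D) D.B.l :=
  ⟨kg_univ ((cyD D).geq_tr hD.B hD.G s) hD.B hD.G hD.B hD.G rfl rfl, isClosed_univ, isClosed_univ,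
    hD.bu, hD.bu⟩

theorem cr_sh (h : Ad0 c D.B D.G) (s : ℝ) : CR0 D.B D.G D.B D.G univ univ (trZ s) (PZ D) D.B.l
    (sh s c) c (fun x => c.m.p (trZ s x)) 1 := by
  have k := (cyD D).ceq_sq hD.B (sm_add s) (O := univ) (admOn_univ.2 (ad0_noz h)) subset_rfl
    fun x _ => deriv_add' s x.2
  have e : (fun a x => Tmp64.sw (· + s) a x.2 • c.W a (trZ s x) : (sh s c).m.Cn) = (sh s c).W :=
    funext₂ fun a x => by cases a <;> simp [Tmp64.sw] <;> rfl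
  exact cr0_univ (ad0_sh h s) h ⟨k.m, e ▸ k.W, k.Φ, by rw [Circle.coe_one, one_pow, one_smul]; rfl⟩

theorem kap_sh (h : Ad0 c D.B D.G) (s : ℝ) : (sh s c).kap D.B D.G = c.kap D.B D.G :=
  (kap_eq (hD.kc_sh s).toKG ((hD.cr_sh h s).lm (hD.kc_sh s))).symm

theorem dr_snd (s : ℝ) : DR D.G.F D.G.F univ (trZ s) (PZ D) Prod.snd Prod.snd :=
  (hD.kc_sh s).toLG.dr contMDiff_snd contMDiff_snd (s := s) fun _ _ => rfl

theorem en_sh (h : Ad0 c D.B D.G) (s : ℝ) (x : Y × ℝ) :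
    en D.Z (sh s c) Prod.snd x = en D.Z c Prod.snd (trZ s x) :=
  ((hD.cr_sh h s).en (hD.kc_sh s) (hD.dr_snd s) (mem_univ x)).symm

theorem en_iso (h : Ad0 c D.B D.G) (h' : Ad0 c' D.B D.G)
    (e : CEq D.Z c c' univ id (PZ D) D.B.l u ζ) (x : Y × ℝ) :
    en D.Z c' Prod.snd x = en D.Z c Prod.snd x :=
  (cr0_univ h h' e).en hD.kc (hD.kc.toLG.dr contMDiff_snd contMDiff_snd (s := 0)
    fun _ _ => (add_zero _).symm) (mem_univ x)

theorem moves_sh {c : Cfg (Y × ℝ) (Option κ) lam 0} (h : Ad0 c D.B D.G) (s : ℝ) :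
    D.Moves (sh s c) ↔ D.Moves c :=
  ⟨fun ⟨x, hx⟩ => ⟨_, hD.en_sh h s x ▸ hx⟩, fun ⟨x, hx⟩ => ⟨trZ (-s) x, by
    rw [hD.en_sh h]; simpa only [trZ, neg_add_cancel_right] using hx⟩⟩

theorem moves_iso {c c' : Cfg (Y × ℝ) (Option κ) lam 0} {u : Y × ℝ → CL c.m.V c'.m.V}
    (h : Ad0 c D.B D.G) (h' : Ad0 c' D.B D.G) (e : CEq D.Z c c' univ id (PZ D) D.B.l u ζ) :
    D.Moves c' ↔ D.Moves c := by simp only [YD.Moves, hD.en_iso h h' e]

theorem kap_iso (h : Ad0 c D.B D.G) (h' : Ad0 c' D.B D.G)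
    (e : CEq D.Z c c' univ id (PZ D) D.B.l u ζ) : c'.kap D.B D.G = c.kap D.B D.G :=
  kap_eq hD.kc.toKG ((cr0_univ h h' e).lm hD.kc)

variable (hN : N.OK D)
include hN

theorem sr_sh (s : ℝ) (j : N.J2) :
    SR univ (trZ s) D.B.l (D.nk.ext (N.d2 j).s) (D.nk.ext (N.d2 j).s) := (nkR_shift D s).sr hD.B _

theorem q1 : InvZ D (N.q1 D.nk : Pt _ _ _ r n) :=
  let ⟨_, hT⟩ := hD.tame
  ⟨q1_nat0 _ hD.B hD.G hT isClopen_univ (fun _ h => (h trivial).elim) hN, fun s =>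
    (nkR_shift D s).q1_rel0 (hD.kc_sh s) hN hT hT (hD.sr_sh hN s)⟩

theorem q2 {T : YT Y} (h : T.OK I3) : InvZ D (N.q2 D.nk T : Pt _ _ _ r n) :=
  let ⟨_, hT⟩ := hD.tame
  ⟨q2_nat0 _ hD.B hD.G hT isClopen_univ (fun _ h => (h trivial).elim) hN h, fun s =>
    (nkR_shift D s).q2_rel0 (hD.kc_sh s) hN h⟩

theorem pt (q : YW I3 Y →₀ ℝ) : InvZ D (N.pt D.nk q : Pt _ _ _ r n) :=
  let ⟨_, hT⟩ := hD.tame
  ⟨pt_nat0 _ hD.B hD.G hT isClopen_univ (fun _ h => (h trivial).elim) hN q, fun s =>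
    (nkR_shift D s).pt_rel0 (hD.kc_sh s) hN hT hT (hD.sr_sh hN s) q⟩

theorem Iv_sh (h : Ad0 c D.B D.G) (s t : ℝ) :
    N.cx ((N.dg D.nk).Iv D.Z (sh s c) t) = N.cx ((N.dg D.nk).Iv D.Z c (t + s)) := by
  obtain ⟨_, hT⟩ := hD.tame
  have := (nkR_shift D s).Iv (hD.kc_sh s) hN hT hT (hD.sr_sh hN s) (hD.cr_sh h s) t
  rw [Circle.coe_one, one_pow, one_smul] at this
  exact this.symm

theorem Iv_iso (h : Ad0 c D.B D.G) (h' : Ad0 c' D.B D.G)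
    (e : CEq D.Z c c' univ id (PZ D) D.B.l u ζ) (t : ℝ) : N.cx ((N.dg D.nk).Iv D.Z c' t) =
      ((N.cx ((N.dg D.nk).Iv D.Z c t)).1, (ζ : ℂ) ^ 2 • (N.cx ((N.dg D.nk).Iv D.Z c t)).2) := by
  obtain ⟨_, hT⟩ := hD.tame
  have k := nkR_refl (O := univ) D.nk fun _ h => (h trivial).elim
  have := k.Iv hD.kc hN hT hT (fun _ => k.sr hD.B _) (cr0_univ h h' e) t
  rwa [add_zero] at this

/-- the window invariants of a `t`-invariant configuration do not depend on the time -/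
theorem Iv_cy (h : Ad0 (cy β) D.B D.G) (t : ℝ) :
    N.cx ((N.dg D.nk).Iv D.Z (cy β) t) = N.cx ((N.dg D.nk).Iv D.Z (cy β) 0) := by
  have := hD.Iv_sh hN h t 0
  rw [zero_add] at this
  exact this.symm

/-- the functional is gauge invariant -/
theorem lv_iso (h : Ad0 (cy β) D.B D.G) (h' : Ad0 (cy β') D.B D.G) (e : D.Eqv β β') :
    N.lv D β' = N.lv D β := by
  obtain ⟨u, ζ, e⟩ := e
  have k := cr0_univ h h' e
  rw [ND.lv, ND.lv, hD.Iv_iso hN h h' e, ← Circle.coe_pow, hN.inv]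
  congr 3
  funext y
  have m := (k.lz hD.kc).me (y, 0) trivial
  have h1 := ceq_dir hD.kc.toLG h h' e (mem_univ (y, 0))
  have h2 := e.Φ (y, 0) trivial
  have h4 : ∑ a, D.B.P none a (y, 0) • (cy β).m.ρ a (y, 0) = β.m.ρ none y := (h.ok.cl (y, 0)).proj none
  have h3 : ∀ a, β'.m.ρ none y (uz u ζ (y, 0) a) = uz u ζ (y, 0) (β.m.ρ none y a) := fun a => by
    refine (m.ρ_apply none a).trans ?_
    rw [← h4]
    show _ = uz u ζ (y, 0) ((∑ a, D.B.P none a (y, 0) • (cy β).m.ρ a (y, 0)) a)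
    simp only [_root_.sum_apply, _root_.smul_apply, map_sum, map_smul]
  erw [h1, h2, ← csL_apply, ← csL_apply, h3, inner_neg_left, inner_neg_left, m.inner, p_Φ h]
  rfl

theorem ew_sh (h : Ad0 c D.B D.G) (s : ℝ) (x : Y × ℝ) :
    N.ew D.nk (sh s c) x = N.ew D.nk c (trZ s x) :=
  ((nkR_shift D s).ew (hD.kc_sh s) (hD.cr_sh h s) hN (mem_univ x)).symm

theorem ew_iso (h : Ad0 c D.B D.G) (h' : Ad0 c' D.B D.G)
    (e : CEq D.Z c c' univ id (PZ D) D.B.l u ζ) (x : Y × ℝ) : N.ew D.nk c' x = N.ew D.nk c x :=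
  (nkR_refl (O := univ) D.nk fun _ h => (h trivial).elim).ew hD.kc (cr0_univ h h' e) hN (mem_univ x)

end OKZ

namespace InvZ
variable (p : InvZ D τ) (hD : OKZ D)
include p hD

theorem D_sh (h : Ad0 c D.B D.G) (s : ℝ) (x : Y × ℝ) : τ.D (sh s c) x = τ.D c (trZ s x) :=
  (p.nat.D (cr0_refl hD.B hD.G isOpen_univ (ad0_sh h s) fun _ h => (h trivial).elim) x trivial).trans
    ((p.tr s).D (hD.cr_sh h s) x trivial).symm

theorem C_sh (h : Ad0 c D.B D.G) (s : ℝ) (x : Y × ℝ) : τ.C (sh s c) x = τ.C c (trZ s x) :=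
  (p.nat.C (cr0_refl hD.B hD.G isOpen_univ (ad0_sh h s) fun _ h => (h trivial).elim) x trivial).trans
    ((p.tr s).C (hD.cr_sh h s) x trivial).symm

theorem sol_iso (h : c.Sol D.B D.G τ) (h' : c'.Adm D.B D.G)
    (e : CEq D.Z c c' univ id (PZ D) D.B.l u ζ) : c'.Sol D.B D.G τ :=
  p.nat.rel.sol hD.kc.toLG Function.surjective_id h h' e

theorem sol_sh (h : c.Sol D.B D.G τ) (s : ℝ) : (sh s c).Sol D.B D.G τ := by
  have h1 := adm_sh h.toAdm s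
  have e : sh (-s) (sh s c) = c := by
    show Nd18.pb (fun x : Y × ℝ => (x.1, x.2 + -s + s)) c = c
    simp only [neg_add_cancel_right]; rfl
  have k := hD.cr_sh (ad0 h1) (-s)
  refine (p.tr (-s)).rel.sol (hD.kc_sh (-s)).toLG (fun z => ⟨trZ s z, ?_⟩) (e.symm ▸ h :) h1 k.e
  simp [trZ]

end InvZ

/-! ### limits and trajectories -/

section lim
variable {E : Type} [NormedAddCommGroup E] [NormedSpace ℝ E] [FiniteDimensional ℝ E]
  [MeasurableSpace E] [BorelSpace E]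
  {HM : Type} [TopologicalSpace HM] {I : ModelWithCorners ℝ E HM} [I.Boundaryless]
  {M : Type} [TopologicalSpace M] [ChartedSpace HM M] [IsManifold I ∞ M]
  [MeasurableSpace M] [BorelSpace M] [T2Space M] [SecondCountableTopology M] {O : Set M} {k : ℕ} {η : ℝ} {ξ : Circle}

theorem cl_pre {ι : Type} [Fintype ι] {F : Fr I M ι} {r₀ r' : ℕ} {c₀ : Cfg M ι lam r₀}
    {c : Cfg M ι lam r} {c' : Cfg M ι lam r'} {g : M → CL c₀.m.V c.m.V} {u : M → CL c.m.V c'.m.V}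
    {ζ : M → Circle} (h : Cl F c c' u ζ O k η) (hJ : c'.m.J * c'.m.J = -1)
    (hi : Pj41.Iso0 I c₀.m c.m O g) (hp : Pj41.Par0 F c₀.W c.W O g)
    (hΦ : ∀ x ∈ O, c.Φ x = cs c.m.J ξ (g x (c₀.Φ x))) :
    Cl F c₀ c' (fun x => u x ∘L g x) (fun x => ζ x * ξ) O k η :=
  ⟨h.op, hi.trans h.iso, fun a => (h.A a).congr h.op fun x hx => by
      rw [Bki64.dA_comp hi h.iso hx, Bki64.dA, Bki64.dA, Bki64.cov, Bki64.cov, hp x hx a]; simp,
    h.P.congr h.op fun x hx => by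
      rw [Bki64.dP_comp hJ h.iso hx, Bki64.dP, Bki64.dP, ← hΦ x hx]; simp⟩

variable {B : Base M (Option κ) lam} {G : Geo I M (Option κ) lam} (K : Nk D B G)
  {c₀ c : Cfg M (Option κ) lam r} {g : M → CL c₀.m.V c.m.V}

theorem admOn_pb (h : Ad0 c B G) {S : Set ℝ} (hS : S ⊆ K.J) :
    AdmOn (K.pb (noz c)) D.B D.G (univ ×ˢ S) :=
  (((Pj41.nk_gRel K).admOn_iff (c := noz c)).2 ((admOn_univ.2
    (show (noz c).Adm B G from ⟨h.ok, h.conn, h.sm, h.pos, .inl rfl⟩)).mono (subset_univ _))).mono fun _ hz => K.mem_src.2 (hS hz.2)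

variable {K} (hB : B.OK I) (hO : IsOpen O) (hK : K.ψ.target ⊆ O) (hβ : D.Adm β) (h₀ : Ad0 c₀ B G)
  (h : Ad0 c B G) (e : CEq G.F c₀ c O id (fun x b a => B.P b a x) B.l g ξ)
include hB hO hK hβ h₀ h e

theorem cls_pre {u : Y × ℝ → CL c.m.V β.m.V} {S : Set ℝ} (hS : S ⊆ K.J)
    (H : D.Cls (K.pb c) β u ζ S k η) :
    D.Cls (K.pb c₀) β (fun x => u x ∘L g (K.ψ x)) (ζ * ξ) S k η := by
  have s : univ ×ˢ S ⊆ K.ψ.source := fun _ hz => K.mem_src.2 (hS hz.2)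
  have m : MapsTo K.ψ (univ ×ˢ S) O := fun _ hz => hK (K.ψ.map_source (s hz))
  have f := K.rel.mono (isOpen_univ.prod H.op) s
  have k1 := Bki64.cl_of_cls (c := K.pb (noz c)) hβ (admOn_pb K h hS) ⟨H.op, H.m, H.A, H.P⟩
  have k2 := (cl_pre (c₀ := K.pb (noz c₀)) k1 hβ.adm.ok.Jsq (Pj41.cm_iso0
    (fun x hx => (f.ld x hx).contMDiffAt) m (Pj41.Iso0.of_mEq hO e.m (Pj41.OK.on h₀.ok _)
      (Pj41.OK.on h.ok _))) (f.par0 m ((Pj41.par0_iff ((Pj41.IsConn.on h.conn O).proj' hB)).2 e.W))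
    fun x hx => e.Φ _ (m hx)).cls hβ H.op (admOn_pb K h₀ hS)
  exact ⟨k2.op, k2.m, k2.A, k2.P⟩

theorem lim_pre {l : Filter ℝ} (H : K.Lim c β ζ l) : K.Lim c₀ β (ζ * ξ) l :=
  let ⟨_, H⟩ := H
  ⟨_, fun k η hη => let ⟨S, a, b, d⟩ := H k η hη; ⟨S, a, b, cls_pre hB hO hK hβ h₀ h e b d⟩⟩

theorem std_pre {l : Filter ℝ} (H : K.Std c β ζ l) : K.Std c₀ β (ζ * ξ) l :=
  let ⟨_, S, a, b, d⟩ := H; ⟨_, S, a, b, cls_pre hB hO hK hβ h₀ h e b d⟩

theorem elim_pre {l : Filter ℝ} {d : ℝ} (H : K.ELim d c β ζ l) : K.ELim d c₀ β (ζ * ξ) l :=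
  let ⟨_, S, a, b, f, H⟩ := H
  ⟨_, S, a, b, cls_pre hB hO hK hβ h₀ h e b f, fun k => (H k).imp fun _ H s hs =>
    cls_pre hB hO hK hβ h₀ h e (hs.trans b) (H s hs)⟩

theorem near_pre {s : ℝ} (H : K.Near c s β η) : K.Near c₀ s β η :=
  let ⟨a, _, _, b⟩ := H; ⟨a, _, _, cls_pre hB hO hK hβ h₀ h e a b⟩

end lim

theorem cls_sh (hβ : D.Adm β) (h : Ad0 c D.B D.G) {u : Y × ℝ → CL c.m.V β.m.V} {S : Set ℝ} {k : ℕ}
    {η : ℝ} (H : D.Cls c β u ζ S k η) (s : ℝ) :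
    D.Cls (sh s c) β (fun x => u (trZ s x)) ζ ((· + s) ⁻¹' S) k η := by
  have a := fun {c : Cfg (Y × ℝ) (Option κ) lam r} (h : Ad0 c D.B D.G) (S : Set ℝ) =>
    (admOn_univ.2 (ad0_noz h)).mono (subset_univ (univ ×ˢ S))
  have k2 := Bki64.Cl.cls (c := noz (sh s c)) hβ (H.op.preimage (continuous_add_const s))
    (a (ad0_sh h s) _) (((Bki64.cl_of_cls (c := noz c) hβ (a h S) ⟨H.op, H.m, H.A, H.P⟩).sh s).mono
      (isOpen_univ.prod (H.op.preimage (continuous_add_const s))) (fun _ hx => ⟨trivial, hx.2⟩)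
      le_rfl le_rfl)
  exact ⟨k2.op, k2.m, k2.A, k2.P⟩

theorem lim_sh (hβ : D.Adm β) (h : Ad0 c D.B D.G) {l : Filter ℝ} (s : ℝ) (hl : Tendsto (· + s) l l)
    (H : D.nk.Lim c β ζ l) : D.nk.Lim (sh s c) β ζ l :=
  let ⟨_, H⟩ := H
  ⟨_, fun k η hη => let ⟨_, a, _, d⟩ := H k η hη
    ⟨_, hl a, fun _ _ => by simp [Jv, YD.nk], cls_sh (c := c) hβ h d s⟩⟩

section traj
variable (hD : OKZ D) (hN : N.OK D) (hβ : D.Adm β) (hβ' : D.Adm β') {q : YW I3 Y →₀ ℝ}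
  {c c₀ : Cfg (Y × ℝ) (Option κ) lam 0} {ζ' ξ : Circle} (h : N.Traj D q c β β' ζ ζ')
include hD hN hβ hβ' h

theorem traj_sh (s : ℝ) : N.Traj D q (sh s c) β β' ζ ζ' :=
  ⟨(hD.pt hN q).sol_sh hD h.sol s,
    lim_sh hβ (ad0 h.sol.toAdm) s (tendsto_atBot_add_const_right _ s tendsto_id) h.bot,
    lim_sh hβ' (ad0 h.sol.toAdm) s (tendsto_atTop_add_const_right _ s tendsto_id) h.top⟩

theorem traj_pre {g : Y × ℝ → CL c₀.m.V c.m.V} (h₀ : c₀.Adm D.B D.G)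
    (e : CEq D.Z c₀ c univ id (PZ D) D.B.l g ξ) : N.Traj D q c₀ β β' (ζ * ξ) (ζ' * ξ) := by
  have a := ad0 h.sol.toAdm
  obtain ⟨_, _, e'⟩ := IsoOn.symm hD.B hD.G isOpen_univ (ad0 h₀) a ⟨_, _, e⟩
  exact ⟨(hD.pt hN q).sol_iso hD h.sol h₀ e',
    lim_pre hD.B isOpen_univ (subset_univ _) hβ (ad0 h₀) a e h.bot,
    lim_pre hD.B isOpen_univ (subset_univ _) hβ' (ad0 h₀) a e h.top⟩

end traj

theorem crit_iso (hD : OKZ D) (hN : N.OK D) (h : N.Crit D β) (h' : D.Adm β') (e : D.Eqv β β') :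
    N.Crit D β' := let ⟨_, _, e⟩ := e; ⟨(hD.q1 hN).sol_iso hD h.sol h'.adm e, h'.tmp⟩

theorem natZ {τ : Pt (Y × ℝ) (Option κ) lam 0 0} (p : InvZ D τ) (hD : OKZ D) : Dec35.NatZ D τ :=
  fun _ _ _ _ h h' e x => ⟨p.nat.D (cr0_univ (ad0 h) (ad0 h') e) x trivial, fun s =>
    (congrFun (congrArg _ (p.nat.C (cr0_univ (ad0 h) (ad0 h') e) x trivial)) s).trans
      (ridx_P (hD.B.pr x) (p.nat.C (cr0_refl hD.B hD.G isOpen_univ (ad0 h)
        fun _ h => (h trivial).elim) x trivial) _ s)⟩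

end Crest.Agent.X212.Eqv71
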