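import Crest.Agent.X212.Eqv71.Fre
import Crest.Agent.X212.Eqv71.Cyl
import Crest.Agent.X212.An.Job

/-! Neck terms over arbitrary clopen sets; sums; phases of chains. -/

set_option autoImplicit false
set_option linter.unusedSectionVars false

open scoped Manifold ContDiff Topology InnerProductSpace
open Filter MeasureTheory Set

noncomputable section
namespace Crest.Agent.X212.Eqv71
open An Wz78 Sob92 Mp86 Dgr80 Nd18 Cyf70

variable {E : Type} [NormedAddCommGroup E] [NormedSpace ℝ E] [FiniteDimensional ℝ E]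
  [MeasurableSpace E] [BorelSpace E]
  {HM : Type} [TopologicalSpace HM] {I : ModelWithCorners ℝ E HM} [I.Boundaryless]
  {M : Type} [TopologicalSpace M] [ChartedSpace HM M] [IsManifold I ∞ M]
  [MeasurableSpace M] [BorelSpace M] [T2Space M] [SecondCountableTopology M]
  {lam : Type} [Fintype lam]
  {E' : Type} [NormedAddCommGroup E'] [NormedSpace ℝ E'] [FiniteDimensional ℝ E']
  [MeasurableSpace E'] [BorelSpace E']
  {HM' : Type} [TopologicalSpace HM'] {I' : ModelWithCorners ℝ E' HM'} [I'.Boundaryless]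
  {M' : Type} [TopologicalSpace M'] [ChartedSpace HM' M'] [IsManifold I' ∞ M']
  [MeasurableSpace M'] [BorelSpace M'] [T2Space M'] [SecondCountableTopology M']
  {O : Set M} {O' : Set M'} {φ : M → M'} {r n : ℕ} {x : M}

section gen
variable {ι : Type} [Fintype ι] {ι' : Type} [Fintype ι'] {lam' : Type} [Fintype lam']
  {B : Base M ι lam} {G : Geo I M ι lam} {B' : Base M' ι' lam'} {G' : Geo I' M' ι' lam'}
  {U : M → ι' → ι → ℝ} {v : M → CL (Eu lam) (Eu lam')}

theorem PRel0.smul {τ : Pt M ι lam r n} {τ' : Pt M' ι' lam' r n}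
    (p : PRel0 B G B' G' O O' φ U v τ τ') (a : ℝ) :
    PRel0 B G B' G' O O' φ U v (τ.smul a) (τ'.smul a) where
  D k x hx := by simp only [Pt.smul, p.D k x hx, map_smul, ← csL_apply]
  C k x hx := by simp only [Pt.smul, p.C k x hx, map_smul]
  S k i := by simp only [Pt.smul, p.S k i]; ring

/-- a perturbation vanishes over `O` -/
structure Van0 (O : Set M) (τ : Pt M ι lam r n) : Prop where
  D : ∀ c, ∀ x ∈ O, τ.D c x = 0
  C : ∀ c, ∀ x ∈ O, τ.C c x = 0
  S : ∀ c i, τ.S c i = 0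

theorem Van0.rel {τ : Pt M ι lam r n} {τ' : Pt M' ι' lam' r n} (h : Van0 O τ) (h' : Van0 O' τ')
    (hm : MapsTo φ O O') : PRel0 B G B' G' O O' φ U v τ τ' :=
  prel0_zero hm (fun c x hx => ⟨h.D c x hx, h.C c x hx⟩) (fun c x hx => ⟨h'.D c x hx, h'.C c x hx⟩)
    h.S h'.S

theorem Van0.mono {τ : Pt M ι lam r n} {O₁ : Set M} (h : Van0 O τ) (k : O₁ ⊆ O) : Van0 O₁ τ :=
  ⟨fun c x hx => h.D c x (k hx), fun c x hx => h.C c x (k hx), h.S⟩

theorem Van0.add {τ σ : Pt M ι lam r n} (h : Van0 O τ) (k : Van0 O σ) : Van0 O (τ.add σ) :=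
  ⟨fun c x hx => by simp only [Pt.add, h.D c x hx, k.D c x hx, add_zero],
    fun c x hx => by simp only [Pt.add, h.C c x hx, k.C c x hx, add_zero],
    fun c i => by simp only [Pt.add, h.S c i, k.S c i, add_zero]⟩

theorem van0_fsum {W : Type} {τ : W → Pt M ι lam r n} (h : ∀ w, Van0 O (τ w)) (q : W →₀ ℝ) :
    Van0 O (fsum τ q) :=
  ⟨fun c x hx => Finset.sum_eq_zero fun w _ => by simp only [(h w).D c x hx, smul_zero],
    fun c x hx => Finset.sum_eq_zero fun w _ => by simp only [(h w).C c x hx, smul_zero],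
    fun c i => Finset.sum_eq_zero fun w _ => by simp only [(h w).S c i, mul_zero]⟩

open Classical in
/-- the term with index `i`, or zero -/
def dz {K : Type} (p : K → Prop) (τ : ∀ i, p i → Pt M ι lam r n) (i : K) : Pt M ι lam r n where
  D c x := if h : p i then (τ i h).D c x else 0
  C c x := if h : p i then (τ i h).C c x else 0
  S c j := if h : p i then (τ i h).S c j else 0

theorem dz_pos {K : Type} {p : K → Prop} (τ : ∀ i, p i → Pt M ι lam r n) {i : K} (h : p i) :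
    dz p τ i = τ i h := by simp only [dz, dif_pos h]

theorem van0_dz {K : Type} {p : K → Prop} {τ : ∀ i, p i → Pt M ι lam r n} {i : K}
    (h : ∀ k, Van0 O (τ i k)) : Van0 O (dz p τ i) := by
  by_cases k : p i
  · exact dz_pos τ k ▸ h k
  · exact ⟨fun _ _ _ => dif_neg k, fun _ _ _ => dif_neg k, fun _ _ => dif_neg k⟩

/-- sums over active indices: terms correspond along `e` on a set `A`, the others vanish -/
theorem prel0_dsum {K K' : Type} [Fintype K] [Fintype K'] {p : K → Prop} {p' : K' → Prop}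
    {τ : ∀ i, p i → Pt M ι lam r n} {τ' : ∀ i, p' i → Pt M' ι' lam' r n} (hm : MapsTo φ O O')
    (A : Set K) (e : K → K') (he : InjOn e A)
    (h1 : ∀ i ∈ A, PRel0 B G B' G' O O' φ U v (dz p τ i) (dz p' τ' (e i)))
    (h2 : ∀ i ∉ A, ∀ k, Van0 O (τ i k)) (h3 : ∀ i ∉ e '' A, ∀ k, Van0 O' (τ' i k)) :
    PRel0 B G B' G' O O' φ U v (Pt.dsum p τ) (Pt.dsum p' τ') := by
  classical
  have key : ∀ {N N' : Type} [AddCommMonoid N] [AddCommMonoid N'] (L : N →+ N') (f : K → N)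
      (f' : K' → N'), (∀ i ∈ A, f' (e i) = L (f i)) → (∀ i ∉ A, f i = 0) → (∀ i ∉ e '' A, f' i = 0) →
      ∑ i, f' i = L (∑ i, f i) := fun L f f' a b d => by
    rw [← Finset.sum_subset (Finset.subset_univ ((Finset.univ.filter (· ∈ A)).image e))
      fun i _ hi => d i (by simpa using hi), Finset.sum_image (by simpa using he),
      ← Finset.sum_subset (Finset.subset_univ (Finset.univ.filter (· ∈ A)))
      fun i _ hi => b i (by simpa using hi), map_sum]
    exact Finset.sum_congr rfl fun i hi => a i (by simpa using hi)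
  exact ⟨fun {c c' u ζ} k x hx => key (csL c'.m.J ζ ∘L u x).toLinearMap.toAddMonoidHom
      (fun i => (dz p τ i).D c x) (fun i => (dz p' τ' i).D c' (φ x)) (fun i hi => (h1 i hi).D k x hx)
      (fun i hi => (van0_dz (h2 i hi)).D c x hx) fun i hi => (van0_dz (h3 i hi)).D c' _ (hm hx),
    fun {c c' u ζ} k x hx => key (ridx (sq2 (U x)) (cj (u x))).toLinearMap.toAddMonoidHom
      (fun i => (dz p τ i).C c x) (fun i => (dz p' τ' i).C c' (φ x)) (fun i hi => (h1 i hi).C k x hx)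
      (fun i hi => (van0_dz (h2 i hi)).C c x hx) fun i hi => (van0_dz (h3 i hi)).C c' _ (hm hx),
    fun {c c' u ζ} k j => key (AddMonoidHom.mulLeft ((ζ : ℂ) ^ 2))
      (fun i => (dz p τ i).S c j) (fun i => (dz p' τ' i).S c' j) (fun i hi => (h1 i hi).S k j)
      (fun i hi => (van0_dz (h2 i hi)).S c j) fun i hi => (van0_dz (h3 i hi)).S c' j⟩

theorem prel0_dsum' {K : Type} [Fintype K] {p p' : K → Prop} {τ : ∀ i, p i → Pt M ι lam r n}
    {τ' : ∀ i, p' i → Pt M' ι' lam' r n} (hm : MapsTo φ O O')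
    (h1 : ∀ i k k', PRel0 B G B' G' O O' φ U v (τ i k) (τ' i k'))
    (h2 : ∀ i k, ¬p' i → Van0 O (τ i k)) (h3 : ∀ i k, ¬p i → Van0 O' (τ' i k)) :
    PRel0 B G B' G' O O' φ U v (Pt.dsum p τ) (Pt.dsum p' τ') :=
  prel0_dsum hm {i | p i ∧ p' i} id (injOn_id _)
    (fun i hi => by rw [dz_pos τ hi.1, id, dz_pos τ' hi.2]; exact h1 i _ _)
    (fun i hi k => h2 i k fun k' => hi ⟨k, k'⟩) fun i hi k => h3 i k fun k' => hi ⟨i, ⟨k', k⟩, rfl⟩

theorem pnat0_dsum {K : Type} [Fintype K] {p : K → Prop} {τ : ∀ i, p i → Pt M ι lam r n}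
    (h : ∀ i k, PNat0 B G O (τ i k)) : PNat0 B G O (Pt.dsum p τ) :=
  prel0_dsum' (mapsTo_id O) (fun i k _ => h i k) (fun _ k h => (h k).elim) fun _ k h => (h k).elim

end gen

variable {E3 : Type} [NormedAddCommGroup E3] [NormedSpace ℝ E3] [FiniteDimensional ℝ E3]
  [MeasurableSpace E3] [BorelSpace E3]
  {H3 : Type} [TopologicalSpace H3] {I3 : ModelWithCorners ℝ E3 H3} [I3.Boundaryless]
  {Y : Type} [TopologicalSpace Y] [ChartedSpace H3 Y] [IsManifold I3 ∞ Y] [T2Space Y]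
  [MeasurableSpace Y] [BorelSpace Y] [SecondCountableTopology Y] [CompactSpace Y]
  {κ : Type} [Fintype κ] {D : YD I3 Y κ lam} {N : ND Y lam}

theorem nd_smul (h : N.OK D) (ν : ℝ) : (N.smul ν).OK D :=
  ⟨h.d0, h.d2, contDiff_const.mul h.sm, fun ζ x y => congrArg (ν * ·) (h.inv ζ x y), h.δ0, h.δ1,
    h.sy, h.span⟩

section neck
variable {B : Base M (Option κ) lam} {G : Geo I M (Option κ) lam} (K : Nk D B G)

theorem D_τ_off (hx : x ∉ K.ψ.target) (a : Option κ) : G.F.D a K.τ x = 0 := by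
  obtain ⟨c, hc⟩ := K.τ_const fun h => hx (K.dp_sub (by norm_num) h)
  rw [Pre.D_def, Sob92.dv_congr (v := fun _ => c) hc, Mp86.dv_const]

theorem van0_q1 (N : ND Y lam) : Van0 K.ψ.targetᶜ (N.q1 K : Pt _ _ _ r n) :=
  ⟨fun c x hx => by simp [ND.q1, DG.q1, ND.dg, D_τ_off K hx],
    fun c x hx => by simp [ND.q1, DG.q1, ND.dg, D_τ_off K hx, ← Pi.zero_def], fun _ _ => rfl⟩

theorem van0_q2 (N : ND Y lam) (T : YT Y) : Van0 K.ψ.targetᶜ (N.q2 K T : Pt _ _ _ r n) := by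
  have h : ∀ (c : Cfg M (Option κ) lam r), ∀ x ∉ K.ψ.target, N.oc K T c x = 0 := fun c x hx => by
    rw [ND.oc, K.cut_τ (by norm_num), show K.cut 3 (K.tm x) = 0 from
      ct_zero fun h => hx (K.dp_sub (by norm_num) h), zero_mul]
  exact ⟨fun c x hx => by simp only [ND.q2, h c x hx, zero_smul],
    fun c x hx => by simp only [ND.q2, h c x hx, zero_smul], fun _ _ => rfl⟩

theorem van0_pt (N : ND Y lam) (q : YW I3 Y →₀ ℝ) :
    Van0 K.ψ.targetᶜ (N.pt K q : Pt _ _ _ r n) :=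
  (van0_q1 K N).add (van0_fsum (τ := fun T : YW I3 Y => N.q2 K T.1) (fun T => van0_q2 K N T.1) q)

theorem χ_off (hx : x ∉ K.ψ.target) : K.χ x = 0 := K.χ_zero fun h => hx (K.dp_sub one_pos h)

theorem preconn_nk [PreconnectedSpace Y] : IsPreconnected K.ψ.target := by
  rw [← K.ψ.image_source_eq_target]
  refine IsPreconnected.image ?_ _ K.ψ.continuousOn
  rw [K.src]
  exact isPreconnected_univ.prod (OrdConnected.isPreconnected ⟨fun a ha b hb s hs =>
    ⟨fun p hp => (ha.1 p hp).trans_le hs.1, fun p hp => hs.2.trans_lt (hb.2 p hp)⟩⟩)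

/-- a neck lies inside or outside of a clopen set -/
theorem nk_dich [PreconnectedSpace Y] (hO : IsClopen O) : K.ψ.target ⊆ O ∨ O ⊆ K.ψ.targetᶜ :=
  ((preconn_nk K).subset_or_subset hO.2 hO.1.isOpen_compl disjoint_compl_right
    (by simp)).imp id subset_compl_comm.1

variable [PreconnectedSpace Y] (hB : B.OK I) (hG : G.OK B) (hT : ∃ C, G.F.Tame C)
  (hO : IsClopen O) (hN : N.OK D)
include hB hG hT hO hN

theorem q1_nat1 : PNat0 B G O (N.q1 K : Pt _ _ _ r n) := (nk_dich K hO).elim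
  (fun h => q1_nat0 K hB hG hT.choose_spec hO (fun _ hx => χ_off K fun k => hx (h k)) hN)
  fun h => ((van0_q1 K N).mono h).rel ((van0_q1 K N).mono h) (mapsTo_id O)

theorem q2_nat1 {T : YT Y} (h' : T.OK I3) : PNat0 B G O (N.q2 K T : Pt _ _ _ r n) :=
  (nk_dich K hO).elim
    (fun h => q2_nat0 K hB hG hT.choose_spec hO (fun _ hx => χ_off K fun k => hx (h k)) hN h')
    fun h => ((van0_q2 K N T).mono h).rel ((van0_q2 K N T).mono h) (mapsTo_id O)

theorem pt_nat1 (q : YW I3 Y →₀ ℝ) : PNat0 B G O (N.pt K q : Pt _ _ _ r n) :=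
  (q1_nat1 K hB hG hT hO hN).add (prel0_fsum (fun T => q2_nat1 K hB hG hT hO hN T.2) q)

end neck

/-! ### constant phases -/

section ph
variable {ι : Type} [Fintype ι] {B : Base M ι lam} {G : Geo I M ι lam}

/-- the spinor rotated by a constant phase -/
abbrev phs (ξ : Circle) (c : Cfg M ι lam r) : Cfg M ι lam r :=
  ⟨c.m, c.W, fun x => cs c.m.J ξ (c.Φ x), (ξ : ℂ) ^ 2 • c.z⟩

variable {c : Cfg M ι lam r} (ξ : Circle)

theorem ad0_phs (h : Ad0 c B G) : Ad0 (phs ξ c) B G :=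
  ⟨h.ok, h.conn, fun x => SA.clm (csL c.m.J ξ) (h.sm x), fun x => by
    rw [map_cs (J_pp h.ok x).symm, h.pos]⟩

theorem adm_phs (h : c.Adm B G) : (phs ξ c).Adm B G :=
  have k := ad0_phs ξ (ad0 h)
  ⟨k.ok, k.conn, k.sm, k.pos, h.z.imp id fun e => by
    rw [norm_smul, norm_pow, Circle.norm_coe, one_pow, one_mul, e]⟩

theorem ceq_phs (hB : B.OK I) (hG : G.OK B) (h : Ad0 c B G) (hO : IsOpen O) :
    CEq G.F c (phs ξ c) O id (fun x b a => B.P b a x) B.l c.m.p ξ :=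
  have k := ceq_refl hB hG h hO
  ⟨k.m, k.W, fun x _ => by rw [p_Φ h]; rfl, rfl⟩

end ph

section chain
variable {c : Cfg (Y × ℝ) (Option κ) lam r} {β β' : YC Y κ lam} {ζ ζ' : Circle} (ξ : Circle)

theorem cls_phs {u : Y × ℝ → CL c.m.V β.m.V} {S : Set ℝ} {k : ℕ} {η : ℝ}
    (hJ : c.m.J * c.m.J = -1) (H : D.Cls c β u ζ S k η) : D.Cls (phs ξ⁻¹ c) β u (ζ * ξ) S k η :=
  ⟨H.op, H.m, H.A, fun w hw x hx => by
    rw [Prm93.Dw_congr (v := YD.dP c β u ζ) w (((isOpen_univ.prod H.op).eventually_mem hx).mono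
      fun z hz => ?_)]
    · exact H.P w hw x hx
    · have e := fun a b => map_cs (H.m.J z hz) a b
      simp only [YD.dP]
      erw [← e, ← e, cs_mul hJ]
      simp⟩

theorem traj_phs (hD : OKZ D) (hN : N.OK D) {q : YW I3 Y →₀ ℝ}
    {c : Cfg (Y × ℝ) (Option κ) lam 0} (h : N.Traj D q c β β' ζ ζ') :
    N.Traj D q (phs ξ⁻¹ c) β β' (ζ * ξ) (ζ' * ξ) := by
  have k : ∀ {β : YC Y κ lam} {ζ l}, D.nk.Lim c β ζ l → D.nk.Lim (phs ξ⁻¹ c) β (ζ * ξ) l :=
    fun ⟨u, H⟩ => ⟨u, fun k η hη => let ⟨S, a, b, d⟩ := H k η hη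
      ⟨S, a, b, cls_phs (c := c) ξ h.sol.ok.Jsq d⟩⟩
  exact ⟨(hD.pt hN q).sol_iso hD h.sol (adm_phs _ h.sol.toAdm)
    (ceq_phs _ hD.B hD.G (ad0 h.sol.toAdm) isOpen_univ), k h.bot, k h.top⟩

/-- **chains are invariant under constant phases** -/
theorem brk_phs (hD : OKZ D) (hN : N.OK D) {q : YW I3 Y →₀ ℝ} {k : ℝ} {j : ℕ}
    (h : N.Brk D q β ζ β' ζ' k j) : N.Brk D q β (ζ * ξ) β' (ζ' * ξ) k j := by
  induction h with
  | nil => exact .nil _ _
  | bub _ ih => exact .bub ih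
  | mov c h1 h2 h3 _ ih =>
    have a := ad0 h1.sol.toAdm
    have e := ceq_phs ξ⁻¹ hD.B hD.G a isOpen_univ
    exact .mov (phs ξ⁻¹ c) (traj_phs ξ hD hN h1) ((hD.moves_iso a (ad0_phs _ a) e).2 h2) h3 ih

end chain

end Crest.Agent.X212.Eqv71
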