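import Crest.Agent.X212.Eqv71.PE
import Crest.Agent.X212.Eqv71.Sec
import Crest.Agent.X212.Wz78.Hs
import Crest.Agent.X212.Met55.Fr

/-! Local naturality of the gauge theory under `GEq`, `MEq`, `Par`. -/

set_option autoImplicit false
set_option linter.unusedSectionVars false

open scoped Manifold ContDiff Topology InnerProductSpace
open Finset Filter

noncomputable section
namespace Crest.Agent.X212.Eqv71
open An Wz78 Sob92

variable {E : Type} [NormedAddCommGroup E] [NormedSpace ℝ E] [FiniteDimensional ℝ E]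
  [MeasurableSpace E] [BorelSpace E]
  {HM : Type} [TopologicalSpace HM] {I : ModelWithCorners ℝ E HM}
  {M : Type} [TopologicalSpace M] [ChartedSpace HM M] [IsManifold I ∞ M]
  [MeasurableSpace M] {ι : Type} [Fintype ι] {lam : Type} [Fintype lam]
  {E' : Type} [NormedAddCommGroup E'] [NormedSpace ℝ E'] [FiniteDimensional ℝ E']
  [MeasurableSpace E'] [BorelSpace E']
  {HM' : Type} [TopologicalSpace HM'] {I' : ModelWithCorners ℝ E' HM'}
  {M' : Type} [TopologicalSpace M'] [ChartedSpace HM' M'] [IsManifold I' ∞ M']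
  [MeasurableSpace M'] {ι' : Type} [Fintype ι'] {lam' : Type} [Fintype lam']

/-! ### the Koszul coefficients are Levi-Civita -/

section lc
variable (F : Fr I M ι)

theorem ker : Ker F.e F.P := F.P_ker

theorem c_anti (a b l : ι) (x : M) : F.c a b l x = -F.c b a l x := by
  have h := sep F x (fun k => F.c a b k x + F.c b a k x) (fun f hf => by
    simp only [add_mul, sum_add_distrib, ← (frm F).br _ _ f x hf.self_of_nhds]; ring) l
  simp only [add_mul, sum_add_distrib, mul_comm (F.c _ _ _ x), F.P_symm _ l, F.c_P] at h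
  linarith

theorem c_mid (a l b : ι) (x : M) : F.c a l b x
    = ∑ k, F.D a (F.P l k) x * F.P k b x + ∑ k, F.P l k x * F.c a k b x := by
  have h := sep F x (fun m => F.c a l m x - F.D a (F.P l m) x - ∑ k, F.P l k x * F.c a k m x)
    (fun f hf => by
      have h0 := hf.self_of_nhds
      have h1 : dv I (F.e a) (dv I (F.e l) f) x = ∑ k, (F.D a (F.P l k) x * dv I (F.e k) f x
          + F.P l k x * dv I (F.e a) (dv I (F.e k) f) x) := by
        rw [dv_congr (v := fun y => ∑ k, F.P l k y * dv I (F.e k) f y)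
          (Eventually.of_forall fun y => ((frm F).projD l f y).symm),
          dv_sum' _ fun k => SA.mul (F.P_sm l k x) ((frm F).sD k h0)]
        exact sum_congr rfl fun k _ => dv_mul (F.P_sm l k x) ((frm F).sD k h0)
      have h2 : dv I (F.e l) (dv I (F.e a) f) x
          = ∑ k, F.P l k x * dv I (F.e k) (dv I (F.e a) f) x := ((frm F).projD l _ x).symm
      have h3 : ∑ m, (∑ k, F.P l k x * F.c a k m x) * dv I (F.e m) f x = ∑ k, F.P l k x *
          (dv I (F.e a) (dv I (F.e k) f) x - dv I (F.e k) (dv I (F.e a) f) x) := by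
        simp only [(frm F).br _ _ f x h0, sum_mul, mul_sum, mul_assoc]
        exact sum_comm
      simp only [sub_mul, sum_sub_distrib, ← (frm F).br _ _ f x h0, h3, h1, h2, mul_sub,
        sum_add_distrib]
      ring) b
  have h4 : ∑ m, (∑ k, F.P l k x * F.c a k m x) * F.P m b x = ∑ k, F.P l k x * F.c a k b x := by
    simp only [sum_mul, mul_assoc]
    rw [sum_comm]
    simp only [← mul_sum, mul_comm (F.c _ _ _ x), F.P_symm _ b, F.c_P]
  simp only [sub_mul, sum_sub_distrib, h4] at h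
  simp only [mul_comm (F.c _ _ _ x), F.P_symm _ b, F.c_P] at h ⊢
  linarith

theorem lc_gam : LC I F.e F.P F.c F.Gam where
  sm a b k x := by
    have h := fun a b k => (frm F).sD a (F.P_sm b k x)
    have := ((((((h a b k).add (h b a k)).sub (h k a b)).add (F.c_sm a b k x)).sub
      (F.c_sm a k b x)).sub (F.c_sm b k a x)).mul (contMDiffAt_const (c := (2 : ℝ)⁻¹))
    exact this
  proj a b l x := by
    have h1 : ∑ k, F.D k (F.P a b) x * F.P k l x = F.D l (F.P a b) x := by
      rw [Pre.D_def, ← (frm F).projD l]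
      exact sum_congr rfl fun k _ => by rw [F.P_symm k l, mul_comm]; rfl
    have h2 : ∑ k, F.c a b k x * F.P k l x = F.c a b l x := by
      simp only [mul_comm (F.c _ _ _ x), F.P_symm _ l, F.c_P]
    have h3 : ∀ a b, ∑ k, F.D a (F.P b k) x * F.P k l x - ∑ k, F.c a k b x * F.P k l x
        = F.D a (F.P b l) x - F.c a l b x := fun a b => by
      have k1 : F.D a (F.P b l) x = ∑ k, (F.D a (F.P b k) x * F.P k l x
          + F.P b k x * F.D a (F.P k l) x) := by
        rw [Pre.D_def, dv_congr (v := fun y => ∑ k, F.P b k y * F.P k l y)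
          (Eventually.of_forall fun y => ((frPr F y).idem b l).symm),
          dv_sum' _ fun k => SA.mul (F.P_sm b k x) (F.P_sm k l x)]
        exact sum_congr rfl fun k _ => dv_mul (F.P_sm b k x) (F.P_sm k l x)
      have k2 : ∀ k, F.P k l = F.P l k := fun k => funext fun y => F.P_symm k l y
      rw [k1, c_mid F a l b x]
      simp only [sum_add_distrib, k2, F.P_symm _ b, mul_comm]
      ring
    have h4 := h3 a b
    have h5 := h3 b a
    simp only [Fr.Gam, div_mul_eq_mul_div, ← sum_div, add_mul, sub_mul, sum_add_distrib,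
      sum_sub_distrib, h1, h2]
    linarith
  met a b k x := by
    have k2 : ∀ k l, F.P k l = F.P l k := fun k l => funext fun y => F.P_symm k l y
    simp only [Fr.Gam, c_anti F k b a x, k2 k b, Pre.D_def]
    ring
  tors a b l x := by
    have k2 : ∀ k l, F.P k l = F.P l k := fun k l => funext fun y => F.P_symm k l y
    simp only [Fr.Gam, c_anti F b a l x, k2 b a, mul_comm (F.c _ _ _ x), F.P_symm _ l, F.c_P]
    ring

theorem dv_gam [I.Boundaryless] [BorelSpace M] [T2Space M] (h : F.IsVol) (k : ι) (x : M) :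
    F.dv k x = ∑ a, F.Gam a k a x :=
  Riem.hg (fun k x => Met55.dv_vol h k x) (lc_gam F) x k

end lc

/-! ### transposes and conjugation of fields -/

section fld
variable {κ κ' : Type} [Fintype κ] [Fintype κ'] {x : M}

/-- the transpose as a continuous linear map -/
def trnL : CL (CL (Eu κ) (Eu κ')) (CL (Eu κ') (Eu κ)) := LinearMap.toContinuousLinearMap
  { toFun := trn
    map_add' := fun S T => map_add ContinuousLinearMap.adjoint S T
    map_smul' := fun r T => by
      refine ContinuousLinearMap.ext fun a => ext_inner_right ℝ fun b => ?_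
      simp only [inner_trn, RingHom.id_apply, smul_apply, real_inner_smul_left,
        real_inner_smul_right] }

theorem sa_trn {u : M → CL (Eu κ) (Eu κ')} (h : SA I u x) : SA I (fun y => trn (u y)) x :=
  h.clm trnL

theorem dv_trn {e : (x : M) → TangentSpace I x} {u : M → CL (Eu κ) (Eu κ')} (h : SA I u x) :
    dv I e (fun y => trn (u y)) x = trn (dv I e u x) := dv_clm trnL h.md

theorem sa_comp {X Y Z : Type} [NormedAddCommGroup X] [NormedSpace ℝ X] [NormedAddCommGroup Y]
    [NormedSpace ℝ Y] [NormedAddCommGroup Z] [NormedSpace ℝ Z] {f : M → CL Y Z} {g : M → CL X Y}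
    (hf : SA I f x) (hg : SA I g x) : SA I (fun y => f y ∘L g y) x := hf.clm_comp hg

theorem dv_ccomp {X Y Z : Type} [NormedAddCommGroup X] [NormedSpace ℝ X] [NormedAddCommGroup Y]
    [NormedSpace ℝ Y] [NormedAddCommGroup Z] [NormedSpace ℝ Z] {f : M → CL Y Z} {g : M → CL X Y}
    {e : (x : M) → TangentSpace I x} (hf : SA I f x) (hg : SA I g x) :
    dv I e (fun y => f y ∘L g y) x = dv I e f x ∘L g x + f x ∘L dv I e g x :=
  dv_bil (ContinuousLinearMap.compL ℝ X Y Z) hf.md hg.md

variable {e : ι → (x : M) → TangentSpace I x} {A : ι → M → En κ} {A' : ι → M → En κ'}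
  {u : M → CL (Eu κ) (Eu κ')}

/-- the transpose of an intertwiner of metric connections is an intertwiner -/
theorem Itw.trn (h : Itw I e A A' u x) (hu : SA I u x) (hA : ∀ a, Skw (A a x))
    (hA' : ∀ a, Skw (A' a x)) : Itw I e A' A (fun y => trn (u y)) x := fun a => by
  have := congrArg trnL (h a)
  rw [map_add] at this
  change An.trn _ + An.trn _ = An.trn _ at this
  rw [trn_comp, trn_comp, trn_of_skw (hA a), trn_of_skw (hA' a), ContinuousLinearMap.neg_comp,
    ContinuousLinearMap.comp_neg] at this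
  rw [dv_trn hu, eq_sub_of_add_eq this]
  abel

variable [DecidableEq κ] [DecidableEq κ']

theorem sa_cj (h : SA I u x) : SA I (fun y => cj (u y)) x := by
  have h1 : SA I (fun y => (ContinuousLinearMap.compL ℝ (Eu κ') (Eu κ) (Eu κ') (u y) :
      CL (CL (Eu κ') (Eu κ)) (En κ'))) x := h.clm _
  have h2 : SA I (fun y => ((ContinuousLinearMap.compL ℝ (Eu κ') (Eu κ) (Eu κ)).flip (trn (u y)) :
      CL (En κ) (CL (Eu κ') (Eu κ)))) x := (sa_trn h).clm _
  have h3 : SA I (fun _ : M => (opL : CL (HS κ) (En κ))) x := contMDiffAt_const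
  have h4 : SA I (fun _ : M => (hsL : CL (En κ') (HS κ'))) x := contMDiffAt_const
  exact sa_comp h4 (sa_comp (sa_comp h1 h2) h3)

/-- conjugation intertwines the adjoint connections -/
theorem Itw.cj (h : Itw I e A A' u x) (hu : SA I u x) (hA : ∀ a, Skw (A a x))
    (hA' : ∀ a, Skw (A' a x)) :
    Itw I e (fun a y => adc (A a y)) (fun a y => adc (A' a y)) (fun y => cj (u y)) x := fun a => by
  ext1 ξ
  have h1 : dv I (e a) (fun y => Eqv71.cj (u y)) x ξ = hsL (dv I (e a) u x ∘L opL ξ ∘L An.trn (u x)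
      + u x ∘L opL ξ ∘L dv I (e a) (fun y => An.trn (u y)) x) := by
    have k := dv_app (e := e a) (sa_cj hu).md (mdifferentiableAt_const (c := ξ))
    rw [dv_const, Pi.zero_apply, map_zero, add_zero] at k
    have hc : SA I (fun _ : M => opL ξ) x := contMDiffAt_const
    rw [← k]
    simp only [cj_apply]
    rw [dv_clm hsL (sa_comp hu (sa_comp hc (sa_trn hu))).md, dv_ccomp hu (sa_comp hc (sa_trn hu)),
      dv_ccomp hc (sa_trn hu), dv_const, Pi.zero_apply, ContinuousLinearMap.zero_comp, zero_add]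
  rw [add_apply, h1, eq_sub_of_add_eq (h a), eq_sub_of_add_eq (h.trn hu hA hA' a)]
  simp only [ContinuousLinearMap.comp_apply, adc_apply, cj_apply, opL_hsL, ← map_add]
  congr 1
  ext1 w
  simp only [ContinuousLinearMap.comp_apply, add_apply, sub_apply, mul_apply_eq_comp, map_sub]
  abel

theorem adc_sum {α : Type} [Fintype α] (r : α → ℝ) (T : α → En κ) :
    adc (∑ a, r a • T a) = ∑ a, r a • adc (T a) := by
  simp only [← adcL_apply, map_sum, map_smul]

end fld

/-! ### local equivalences -/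

variable {B : Base M ι lam} {G : Geo I M ι lam} {B' : Base M' ι' lam'} {G' : Geo I' M' ι' lam'}
  {O : Set M} {φ : M → M'} {U : M → ι' → ι → ℝ} {v : M → CL (Eu lam) (Eu lam')} {x : M}

theorem geo_frm (h : G.OK B) : Frm I G.F.e B.P G.F.c := h.P ▸ frm G.F

theorem geo_ker (h : G.OK B) : Ker G.F.e B.P := h.P ▸ ker G.F

theorem geo_lc (h : G.OK B) : LC I G.F.e B.P G.F.c G.F.Gam := h.P ▸ lc_gam G.F

/-- the local content of `GEq` over an open set `O`, with the hypotheses on the backgrounds -/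
structure LG (B : Base M ι lam) (G : Geo I M ι lam) (B' : Base M' ι' lam') (G' : Geo I' M' ι' lam')
    (O : Set M) (φ : M → M') (U : M → ι' → ι → ℝ) (v : M → CL (Eu lam) (Eu lam')) : Prop where
  hB : B.OK I
  hG : G.OK B
  hB' : B'.OK I'
  hG' : G'.OK B'
  rot : Rot I I' φ O G.F.e B.P G'.F.e B'.P fun b a x => U x b a
  be : ∀ x ∈ O, BE B x B' (φ x) (U x) (v x)
  sv : ∀ x ∈ O, SA I v x
  par : ∀ x ∈ O, Itw I G.F.e G.a (pb φ (fun b a x => U x b a) G'.a) v x

theorem lg_of_geq {φ : OpenPartialHomeomorph M M'} (g : GEq B G B' G' φ U v) (hB : B.OK I)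
    (hG : G.OK B) (hB' : B'.OK I') (hG' : G'.OK B') (hO : IsOpen O) (hs : O ⊆ φ.source) :
    LG B G B' G' O φ U v where
  hB := hB
  hG := hG
  hB' := hB'
  hG' := hG'
  rot :=
    { opn := hO
      sφ := fun x hx => g.sm.contMDiffAt (φ.open_source.mem_nhds (hs hx))
      sU := fun b a x hx => (g.sU b a).contMDiffAt (φ.open_source.mem_nhds (hs hx))
      fr := fun b x hx => by rw [← g.e x (hs hx) b, map_sum]; simp only [map_smul]
      UU := fun a a' x hx => g.UU x (hs hx) a a'
      UU' := fun b b' x hx => g.UU' x (hs hx) b b' }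
  be x hx :=
    { UU := g.UU x (hs hx)
      UU' := g.UU' x (hs hx)
      o := g.o x (hs hx)
      vv := g.vv x (hs hx)
      vv' := g.vv' x (hs hx)
      il := g.il x (hs hx) }
  sv x hx := g.sv.contMDiffAt (φ.open_source.mem_nhds (hs hx))
  par x hx a := sub_eq_zero.1 (g.par x (hs hx) a)

theorem lg_refl (hB : B.OK I) (hG : G.OK B) (hO : IsOpen O) :
    LG B G B G O id (fun x b a => B.P b a x) B.l where
  hB := hB
  hG := hG
  hB' := hB
  hG' := hG
  rot :=
    { opn := hO
      sφ := fun _ _ => contMDiffAt_id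
      sU := fun b a x _ => hB.sP b a x
      fr := fun b x _ => by
        rw [mfderiv_id]; exact ((geo_frm hG).proj b x).symm
      UU := fun a a' x _ => (BE.refl hB x).UU a a'
      UU' := fun b b' x _ => (BE.refl hB x).UU' b b' }
  be x _ := BE.refl hB x
  sv x _ := hB.sl x
  par x _ a := by
    have : pb id (fun b a x => B.P b a x) G.a a x = G.a a x := by
      rw [← hG.con.proj a x]
      exact sum_congr rfl fun b _ => by rw [(hB.pr x).symm a b]; rfl
    rw [this, ← sub_eq_zero, add_sub_assoc]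
    exact hG.par a x

variable {m : Md M ι lam} {m' : Md M' ι' lam'} {u : M → CL m.V m'.V} {W : m.Cn} {W' : m'.Cn}

theorem me_of_meq (h : MEq I m m' O φ U v u) (hx : x ∈ O) : ME m x m' (φ x) (U x) (v x) (u x) :=
  ⟨h.uu x hx, h.uu' x hx, h.J x hx, h.ρ x hx, h.j x hx⟩

theorem itw_of_par {F : Fr I M ι} (h : Par F W W' O φ U u) (hx : x ∈ O) :
    Itw I F.e W (pb φ (fun b a x => U x b a) W') u x := fun a => sub_eq_zero.1 (h x hx a)

theorem par_of_itw {F : Fr I M ι}
    (h : ∀ x ∈ O, Itw I F.e W (pb φ (fun b a x => U x b a) W') u x) : Par F W W' O φ U u :=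
  fun x hx a => sub_eq_zero.2 (h x hx a)

section gen
variable {V V' : Type} [NormedAddCommGroup V] [NormedSpace ℝ V] [NormedAddCommGroup V']
  [NormedSpace ℝ V'] {A : ι → M → V →L[ℝ] V} {A' : ι' → M' → V' →L[ℝ] V'} {T : M → V →L[ℝ] V'}
  {s : M → V} {s' : M' → V'}

theorem lap_congr {e : ι → (x : M) → TangentSpace I x} {g : ι → M → ℝ} {t : M → V}
    (h : s =ᶠ[𝓝 x] t) : lap I e g A s x = lap I e g A t x := by
  have : ∀ a, nab I e A a s =ᶠ[𝓝 x] nab I e A a t := fun a =>
    h.eventually_nhds.mono fun y hy => nab_congr a hy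
  simp only [Wz78.lap, nab_congr _ (this _), nab_congr _ h]

namespace LG
variable (g : LG B G B' G' O φ U v)
include g

theorem mono {O' : Set M} (hO : IsOpen O') (hs : O' ⊆ O) : LG B G B' G' O' φ U v :=
  ⟨g.hB, g.hG, g.hB', g.hG', ⟨hO, fun x hx => g.rot.sφ x (hs hx),
    fun b a x hx => g.rot.sU b a x (hs hx), fun b x hx => g.rot.fr b x (hs hx),
    fun a b x hx => g.rot.UU a b x (hs hx), fun a b x hx => g.rot.UU' a b x (hs hx)⟩,
    fun x hx => g.be x (hs hx), fun x hx => g.sv x (hs hx), fun x hx => g.par x (hs hx)⟩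

/-- derivatives of related functions -/
theorem D {N : Type} [NormedAddCommGroup N] [NormedSpace ℝ N] {f : M → N} {f' : M' → N}
    (hx : x ∈ O) (hf : SA I' f' (φ x)) (h : ∀ y ∈ O, f' (φ y) = f y) (b : ι') :
    G'.F.D b f' (φ x) = ∑ a, U x b a • G.F.D a f x :=
  g.rot.D'_of hx b hf.md ((g.rot.ev hx).mono h)

theorem nab (hx : x ∈ O) (hA' : Con I' B'.P A') (hT : SA I T x)
    (hi : Itw I G.F.e A (pb φ (fun b a x => U x b a) A') T x) (hs : SA I s x) (hs' : SA I' s' (φ x))
    (h : ∀ᶠ y in 𝓝 x, s' (φ y) = T y (s y)) (b : ι') :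
    nab I' G'.F.e A' b s' (φ x) = ∑ a, U x b a • T x (nab I G.F.e A a s x) := by
  rw [g.rot.nab' hx (fun a => hA'.proj a _) b hs'.md]
  exact sum_congr rfl fun a _ => by rw [nab_congr a h, hi.nab hT.md hs.md]

theorem dvF [I.Boundaryless] [BorelSpace M] [T2Space M] [I'.Boundaryless] [BorelSpace M']
    [T2Space M'] (hx : x ∈ O) (b : ι') : G'.F.dv b (φ x)
      = ∑ a, (dv I (G.F.e a) (fun y => U y b a) x + U x b a * G.F.dv a x) :=
  g.rot.div' (geo_frm g.hG) (geo_frm g.hG') (geo_ker g.hG') (geo_lc g.hG) (geo_lc g.hG') hx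
    (fun k => dv_gam G.F g.hG.vol k x) (fun k => dv_gam G'.F g.hG'.vol k _) b

theorem lap [I.Boundaryless] [BorelSpace M] [T2Space M] [I'.Boundaryless] [BorelSpace M']
    [T2Space M'] (hx : x ∈ O) (hA : ∀ a, SA I (A a) x) (hA' : Con I' B'.P A') (hT : SA I T x)
    (hi : ∀ y ∈ O, Itw I G.F.e A (pb φ (fun b a x => U x b a) A') T y) (hs : SA I s x)
    (hs' : SA I' s' (φ x)) (h : ∀ᶠ y in 𝓝 x, s' (φ y) = T y (s y)) :
    lap I' G'.F.e G'.F.dv A' s' (φ x) = T x (lap I G.F.e G.F.dv A s x) := by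
  rw [g.rot.lap' (geo_frm g.hG) (geo_frm g.hG') hx (g.dvF hx) (fun a => hA'.sm a _)
    (Eventually.of_forall fun z a => hA'.proj a z) hs', lap_congr h,
    itw_lap (geo_frm g.hG) ((g.rot.ev hx).mono hi) hT hA hs]

theorem curv (hx : x ∈ O) (hA : ∀ a, SA I (A a) x) (hA' : Con I' B'.P A') (hT : SA I T x)
    (hi : ∀ y ∈ O, Itw I G.F.e A (pb φ (fun b a x => U x b a) A') T y) (t : ι' × ι') :
    curv I' G'.F.e G'.F.c A' t.1 t.2 (φ x) ∘L T x
      = ∑ r, sq2 (U x) t r • (T x ∘L curv I G.F.e G.F.c A r.1 r.2 x) := by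
  rw [g.rot.curv' (geo_frm g.hG) (geo_frm g.hG') (geo_ker g.hG') hx (fun a => hA'.sm a _)
    (Eventually.of_forall fun z a => hA'.proj a z), Fintype.sum_prod_type]
  simp only [ContinuousLinearMap.finsetSum_comp, ContinuousLinearMap.smul_comp,
    itw_curv (geo_frm g.hG) ((g.rot.ev hx).mono hi) hT hA (g.rot.sa_pb hx fun a => hA'.sm a _), sq2]

end LG
end gen

/-- equivalent modules with admissible connections over `O` -/
structure LM (B : Base M ι lam) (G : Geo I M ι lam) (B' : Base M' ι' lam') (G' : Geo I' M' ι' lam')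
    (O : Set M) (φ : M → M') (U : M → ι' → ι → ℝ) (v : M → CL (Eu lam) (Eu lam'))
    {m : Md M ι lam} {m' : Md M' ι' lam'} (W : m.Cn) (W' : m'.Cn) (u : M → CL m.V m'.V) : Prop
    extends LG B G B' G' O φ U v where
  ok : m.OK I B
  ok' : m'.OK I' B'
  cn : m.IsConn B G W
  cn' : m'.IsConn B' G' W'
  su : ∀ x ∈ O, SA I u x
  me : ∀ x ∈ O, ME m x m' (φ x) (U x) (v x) (u x)
  itw : ∀ x ∈ O, Itw I G.F.e W (pb φ (fun b a x => U x b a) W') u x

theorem LG.lm (g : LG B G B' G' O φ U v) (ok : m.OK I B) (ok' : m'.OK I' B') (cn : m.IsConn B G W)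
    (cn' : m'.IsConn B' G' W') (h : MEq I m m' O φ U v u) (hp : Par G.F W W' O φ U u) :
    LM B G B' G' O φ U v W W' u :=
  ⟨g, ok, ok', cn, cn', fun _ hx => h.su.contMDiffAt (g.rot.ev hx), fun _ hx => me_of_meq h hx,
    fun _ hx => itw_of_par hp hx⟩

theorem itw_csL {κ κ' : Type} [Fintype κ] [Fintype κ'] {e : ι → (x : M) → TangentSpace I x}
    {A : ι → M → En κ} {A' : ι → M → En κ'} {u : M → CL (Eu κ) (Eu κ')} {J : En κ'}
    (h : Itw I e A A' u x) (hu : SA I u x) (hJ : ∀ a, J * A' a x = A' a x * J) (c : ℂ) :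
    Itw I e A A' (fun y => csL J c ∘L u y) x := fun a => by
  have hc : SA I (fun _ : M => csL J c) x := contMDiffAt_const
  have : A' a x ∘L csL J c = csL J c ∘L A' a x :=
    ContinuousLinearMap.ext fun w => map_cs (hJ a).symm c w
  rw [dv_ccomp hc hu, dv_const, Pi.zero_apply, ContinuousLinearMap.zero_comp, zero_add,
    ← ContinuousLinearMap.comp_assoc, this, ContinuousLinearMap.comp_assoc,
    ← ContinuousLinearMap.comp_add, h a, ContinuousLinearMap.comp_assoc]

theorem comm_pb {κ : Type} [Fintype κ] {J : En κ} {A : ι' → M' → En κ} {U : ι' → ι → M → ℝ}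
    (h : ∀ b, J * A b (φ x) = A b (φ x) * J) (a : ι) : J * pb φ U A a x = pb φ U A a x * J := by
  simp only [pb, mul_sum, sum_mul, mul_smul_comm, smul_mul_assoc, h]

theorem LG.phase (g : LG B G B' G' O φ U v) (ζ : Circle) :
    LG B G B' G' O φ U fun x => csL B'.il ζ ∘L v x :=
  ⟨g.hB, g.hG, g.hB', g.hG', g.rot, fun x hx => (g.be x hx).phase g.hB' ζ,
    fun x hx => sa_comp contMDiffAt_const (g.sv x hx),
    fun x hx => itw_csL (g.par x hx) (g.sv x hx) (comm_pb fun b => g.hG'.il b _) ζ⟩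

namespace LM
variable (h : LM B G B' G' O φ U v W W' u)
include h

theorem mono {O' : Set M} (hO : IsOpen O') (hs : O' ⊆ O) : LM B G B' G' O' φ U v W W' u :=
  ⟨h.toLG.mono hO hs, h.ok, h.ok', h.cn, h.cn', fun x hx => h.su x (hs hx),
    fun x hx => h.me x (hs hx), fun x hx => h.itw x (hs hx)⟩

/-- absorbing the phase -/
theorem phase (ζ : Circle) : LM B G B' G' O φ U (fun x => csL B'.il (ζ * ζ : Circle) ∘L v x) W W'
    fun x => csL m'.J ζ ∘L u x :=
  ⟨h.toLG.phase (ζ * ζ), h.ok, h.ok', h.cn, h.cn',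
    fun x hx => sa_comp contMDiffAt_const (h.su x hx), fun x hx => (h.me x hx).phase h.ok' ζ,
    fun x hx => itw_csL (h.itw x hx) (h.su x hx) (comm_pb fun b => h.cn'.J b _) ζ⟩

theorem dir (hx : x ∈ O) {s : M → m.V} {s' : M' → m'.V} (hs : SA I s x) (hs' : SA I' s' (φ x))
    (hr : ∀ᶠ y in 𝓝 x, s' (φ y) = u y (s y)) :
    dir I' G'.F.e m'.ρ W' s' (φ x) = u x (dir I G.F.e m.ρ W s x) := by
  have k := fun a w => congrArg (fun T : CL m.V m'.V => T w) ((h.me x hx).ρ' (h.be x hx) h.ok a)
  simp only [ContinuousLinearMap.comp_apply, _root_.sum_apply, smul_apply] at k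
  simp only [Wz78.dir, h.nab hx h.cn'.cc.toCon (h.su x hx) (h.itw x hx) hs hs' hr, map_sum,
    map_smul, ← k]
  exact sum_comm

theorem Fg (hx : x ∈ O) :
    m'.Fg G'.F W' (φ x) = ridx (sq2 (U x)) (cj (u x)) (m.Fg G.F W x) := by
  refine PiLp.ext fun t => ?_
  have k := h.curv hx (fun a => h.cn.cc.sm a x) h.cn'.cc.toCon (h.su x hx) h.itw t
  have k' : Wz78.curv I' G'.F.e G'.F.c W' t.1 t.2 (φ x) * m'.p (φ x) = ∑ r, sq2 (U x) t r •
      (u x ∘L Wz78.curv I G.F.e G.F.c W r.1 r.2 x ∘L trn (u x)) := by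
    rw [← (h.me x hx).uu']
    change (Wz78.curv I' G'.F.e G'.F.c W' t.1 t.2 (φ x) ∘L u x) ∘L trn (u x) = _
    rw [k]
    simp only [ContinuousLinearMap.finsetSum_comp, ContinuousLinearMap.smul_comp,
      ContinuousLinearMap.comp_assoc]
  simp only [Md.Fg, ridx_apply]
  rw [← pg_mul_p, k']
  simp only [map_sum, map_smul, ← cj_hsL, (h.me x hx).pg (h.be x hx) h.hB h.hB' h.ok h.ok']

theorem kd (hx : x ∈ O) : m'.kd B' G'.F W' (φ x) = m.kd B G.F W x := by
  have hm : ∀ s, m.Fg G.F W x s ∈ m.gS x := fun s =>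
    pg_mem x (hsL (Wz78.curv I G.F.e G.F.c W s.1 s.2 x))
  unfold Md.kd
  rw [h.Fg hx, (h.me x hx).inner_st (h.be x hx) h.hB _ hm]

/-- the adjoint connections -/
theorem itw_ad (hx : x ∈ O) : Itw I G.F.e (m.adW W) (pb φ (fun b a x => U x b a) (m'.adW W'))
    (fun y => cj (u y)) x := by
  have : pb φ (fun b a x => U x b a) (m'.adW W')
      = fun a y => adc (pb φ (fun b a x => U x b a) W' a y) :=
    funext fun a => funext fun y => (adc_sum _ _).symm
  rw [this]
  exact (h.itw x hx).cj (h.su x hx) (fun a => h.cn.sk a x) fun a => skw_sum _ fun b => h.cn'.sk b _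

end LM

theorem con_adW (h : m.IsConn B G W) : Con I B.P (m.adW W) :=
  ⟨fun a x => (h.cc.sm a x).clm adcL, fun a x => by
    simp only [Md.adW]; rw [← adc_sum, h.cc.proj]⟩

end Crest.Agent.X212.Eqv71
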