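import Crest.Agent.X212.Eqv71.Dn

/-! Naturality of the delay gradient. -/

set_option autoImplicit false
set_option linter.unusedSectionVars false

open scoped Manifold ContDiff Topology InnerProductSpace
open Finset Filter MeasureTheory

noncomputable section
namespace Crest.Agent.X212.Eqv71
open An Wz78 Sob92 Mp86 Dgr80
open Wrd81 (wd)
open ContinuousLinearMap (adjoint)

variable {E : Type} [NormedAddCommGroup E] [NormedSpace ℝ E] [FiniteDimensional ℝ E]
  [MeasurableSpace E] [BorelSpace E]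
  {HM : Type} [TopologicalSpace HM] {I : ModelWithCorners ℝ E HM} [I.Boundaryless]
  {M : Type} [TopologicalSpace M] [ChartedSpace HM M] [IsManifold I ∞ M]
  [MeasurableSpace M] [BorelSpace M] [T2Space M] {ι : Type} [Fintype ι] {lam : Type} [Fintype lam]
  {E' : Type} [NormedAddCommGroup E'] [NormedSpace ℝ E'] [FiniteDimensional ℝ E']
  [MeasurableSpace E'] [BorelSpace E']
  {HM' : Type} [TopologicalSpace HM'] {I' : ModelWithCorners ℝ E' HM'} [I'.Boundaryless]
  {M' : Type} [TopologicalSpace M'] [ChartedSpace HM' M'] [IsManifold I' ∞ M']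
  [MeasurableSpace M'] [BorelSpace M'] [T2Space M'] {ι' : Type} [Fintype ι'] {lam' : Type}
  [Fintype lam']
  {B : Base M ι lam} {G : Geo I M ι lam} {B' : Base M' ι' lam'} {G' : Geo I' M' ι' lam'}
  {O : Set M} {O' : Set M'} {φ : M → M'} {ψ : M' → M}
  {U : M → ι' → ι → ℝ} {v v₁ : M → CL (Eu lam) (Eu lam')} {x : M}

open Matrix

theorem cv_shift {δ s : ℝ} {c c' : ℝ → ℝ} (h : ∀ t, c' (t + s) = c t) (t : ℝ) :
    cv δ c' (t + s) = cv δ c t := by
  rw [cv, ← integral_add_right_eq_self _ s]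
  simp only [h, add_sub_add_right_eq_sub, cv]

theorem KG.wn (g : KG B G B' G' O O' φ ψ U v) {τ : M → ℝ} {τ' : M' → ℝ} {s : ℝ}
    (hτ : ∀ x ∈ O, τ' (φ x) = τ x + s) {N : Type} [NormedAddCommGroup N] [NormedSpace ℝ N]
    {h : M → N} {h' : M' → N} (rel : ∀ x ∈ O, h' (φ x) = h x) (off : ∀ x ∉ O, h x = 0)
    (off' : ∀ y ∉ O', h' y = 0) (δ t : ℝ) : wn G'.F.μ τ' δ h' (t + s) = wn G.F.μ τ δ h t :=
  g.integral_off (fun x hx => by rw [rel x hx, hτ x hx, add_sub_add_right_eq_sub])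
    (fun x hx => by rw [off x hx, smul_zero]) fun x hx => by rw [off' x hx, smul_zero]

variable {r n : ℕ} {c : Cfg M ι lam r} {c' : Cfg M' ι' lam' r} {u : M → CL c.m.V c'.m.V}
  {J : Type} [Fintype J] [DecidableEq J] {R : Matrix J J ℝ}

variable (I I' O O' φ U u R) in
/-- families of densities related by the matrix `R` -/
structure FamR (d : J → Den M ι lam r) (d' : J → Den M' ι' lam' r) : Prop where
  h : ∀ x ∈ O, (fun j => (d' j).h c' (φ x)) = R *ᵥ fun j => (d j).h c x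
  off : ∀ j, ∀ x ∉ O, (d j).h c x = 0
  off' : ∀ j, ∀ y ∉ O', (d' j).h c' y = 0
  g : ∀ ⦃f : J → M → ℝ⦄ ⦃f' : J → M' → ℝ⦄, (∀ j, Sb I (f j)) → (∀ j, Sb I' (f' j)) →
    (∀ x ∈ O, (fun j => f' j (φ x)) = R *ᵥ fun j => f j x) →
    R1 O φ U (fun x => cj (u x)) (fun x => ∑ j, (d j).gA c (f j) x)
      (fun y => ∑ j, (d' j).gA c' (f' j) y) ∧
    RS O O' φ u (fun x => ∑ j, (d j).gP c (f j) x) fun y => ∑ j, (d' j).gP c' (f' j) y

theorem famR_one {d : J → Den M ι lam r} {d' : J → Den M' ι' lam' r}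
    (h : ∀ j, DnR O O' φ U u (d j) (d' j)) : FamR I I' O O' φ U u 1 d d' :=
  ⟨fun x hx => by rw [one_mulVec]; exact funext fun j => (h j).h hx, fun j => (h j).off,
    fun j => (h j).off', fun f f' _ _ e => by
      simp only [one_mulVec] at e
      exact ⟨R1.sum _ fun j _ => (h j).gA fun x hx => congrFun (e x hx) j,
        RS.sum _ fun j _ => (h j).gP fun x hx => congrFun (e x hx) j⟩⟩

/-- the window integrals of a delay gradient converge and are bounded -/
structure DGk (N : DG M ι lam r J) (F : Fr I M ι) (c : Cfg M ι lam r) (δ : ℝ) : Prop where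
  δ0 : 0 < δ
  eq : ∀ j, N.δ j = δ
  wi : ∀ j, WI F.μ N.τ δ ((N.d j).h c)
  bd : ∃ C, ∀ t, ‖N.Iv F c t‖ ≤ C
  φ : ContDiff ℝ ∞ N.φ
  cut : Continuous N.cut
  cb : ∃ C, ∀ t, |N.cut t| ≤ C
  τ : Sm I N.τ

namespace DGk
variable {N : DG M ι lam r J} {F : Fr I M ι} {δ : ℝ} (k : DGk N F c δ)
include k

theorem cont_Iv : Continuous (N.Iv F c) := continuous_pi fun j => by
  simp only [DG.Iv, k.eq]; exact ((k.wi j).contDiff_wn k.δ0).continuous

theorem co (j : J) : Continuous (N.co F c j) ∧ ∃ C, ∀ t, |N.co F c j t| ≤ C := by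
  have hc : Continuous fun y => fderiv ℝ N.φ y (Pi.single j 1) :=
    (k.φ.continuous_fderiv (by simp)).clm_apply continuous_const
  obtain ⟨C, hC⟩ := k.bd
  obtain ⟨D, hD⟩ := k.cb
  obtain ⟨K, hK⟩ := (isCompact_closedBall (0 : J → ℝ) C).exists_bound_of_continuousOn
    hc.continuousOn
  refine ⟨k.cut.mul (hc.comp k.cont_Iv), D * K, fun t => ?_⟩
  rw [DG.co, abs_mul]
  exact mul_le_mul (hD t) (hK _ (mem_closedBall_zero_iff.2 (hC t))) (abs_nonneg _)
    ((abs_nonneg _).trans (hD t))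

theorem β (j : J) : Sb I fun x => N.β F c j (N.τ x) := by
  obtain ⟨h1, C, h2⟩ := k.co j
  have := cv_bounds k.δ0 h1.aestronglyMeasurable h2
  simp only [DG.β, k.eq]
  exact ⟨this.1.contMDiff.comp k.τ, C, fun x => this.2.1 _⟩

end DGk

variable (I I' O O' φ U u R) in
/-- related delay gradients; `s` is the shift of time -/
structure DGR (N : DG M ι lam r J) (N' : DG M' ι' lam' r J) (s : ℝ) : Prop where
  d : FamR I I' O O' φ U u R N.d N'.d
  orth : Rᵀ * R = 1
  eφ : N'.φ = N.φ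
  inv : ∀ y, N.φ (Rᵀ *ᵥ y) = N.φ y
  τ : ∀ x ∈ O, N'.τ (φ x) = N.τ x + s
  cut : ∀ t, N'.cut (t + s) = N.cut t

namespace DGR
variable {N : DG M ι lam r J} {N' : DG M' ι' lam' r J} {s δ : ℝ} (e : DGR I I' O O' φ U u R N N' s)
  (g : KC B G B' G' O O' φ ψ U v) (k : DGk N G.F c δ) (k' : DGk N' G'.F c' δ)
include e g k k'

theorem Iv (t : ℝ) : N'.Iv G'.F c' (t + s) = R *ᵥ N.Iv G.F c t := funext fun j => by
  simp only [DG.Iv, k.eq, k'.eq, mulVec, dotProduct]
  rw [g.toKG.wn e.τ (h := fun x => ∑ i, R j i * (N.d i).h c x) (fun x hx => congrFun (e.d.h x hx) j)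
    (fun x hx => by simp [e.d.off _ x hx]) (e.d.off' j)]
  simp only [wn, ← integral_const_mul]
  rw [← integral_finsetSum _ fun i _ => ((k.wi i).int k.δ0 t).const_mul _]
  simp only [smul_eq_mul, mul_sum, mul_left_comm]

theorem co (t : ℝ) : (fun j => N'.co G'.F c' j (t + s)) = R *ᵥ fun j => N.co G.F c j t := by
  funext j
  let L : (J → ℝ) →L[ℝ] J → ℝ := LinearMap.toContinuousLinearMap (Matrix.toLin' Rᵀ)
  have h1 : N.φ = N.φ ∘ L := funext fun y => (e.inv y).symm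
  have h2 : L (R *ᵥ N.Iv G.F c t) = N.Iv G.F c t := by
    show Rᵀ *ᵥ _ = _
    rw [mulVec_mulVec, e.orth, one_mulVec]
  have h3 : L (Pi.single j 1) = ∑ i, R j i • Pi.single i 1 := by
    show Rᵀ *ᵥ _ = _
    ext i; simp [Pi.single_apply]
  simp only [DG.co, e.cut, e.eφ, e.Iv g k k', mulVec, dotProduct]
  rw [h1, fderiv_comp _ (k.φ.differentiable (by simp) _) L.differentiableAt, L.fderiv, ← h1]
  erw [h2]
  simp only [ContinuousLinearMap.comp_apply, h3, map_sum, map_smul, smul_eq_mul, mul_sum,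
    mul_left_comm]

theorem β (t : ℝ) : (fun j => N'.β G'.F c' j (t + s)) = R *ᵥ fun j => N.β G.F c j t := by
  funext j
  simp only [DG.β, k.eq, k'.eq, mulVec, dotProduct]
  rw [cv_shift (c := fun t => ∑ i, R j i * N.co G.F c i t) fun t => congrFun (e.co g k k' t) j]
  simp only [cv, ← integral_const_mul]
  rw [← integral_finsetSum _ fun i _ => ((integrable_b_sub k.δ0 t).bdd_mul
    (k.co i).1.aestronglyMeasurable (.of_forall (k.co i).2.choose_spec)).const_mul _]
  simp only [sum_mul, mul_assoc]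

theorem grad : R1 O φ U (fun x => cj (u x)) (N.gA G.F c) (N'.gA G'.F c') ∧
    RS O O' φ u (N.gP G.F c) (N'.gP G'.F c') :=
  e.d.g k.β k'.β fun x hx => by rw [e.τ x hx]; exact e.β g k k' _

end DGR

theorem LM.rs_pp {m : Md M ι lam} {m' : Md M' ι' lam'} {W : m.Cn} {W' : m'.Cn}
    {u : M → CL m.V m'.V} (h : LM B G B' G' O φ U v₁ W W' u) {s : M → m.V} {s' : M' → m'.V}
    (k : RS O O' φ u s s') : RS O O' φ u (fun x => m.pp B x (s x)) fun y => m'.pp B' y (s' y) :=
  k.op (fun x hx => (h.me x hx).pp (h.be x hx) h.hB h.hB' h.ok) fun x hx a _ =>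
    (h.tu hx _).trans (p_pp h.ok x a)

variable {ζ : Circle} (k : CR0 B G B' G' O O' φ U v c c' u ζ) (g : KC B G B' G' O O' φ ψ U v)
include k g

omit k g in
theorem nrm_map {V V' : Type} [NormedAddCommGroup V] [InnerProductSpace ℝ V] [NormedAddCommGroup V']
    [InnerProductSpace ℝ V'] (T : CL V V') {a : V} (h : ‖T a‖ = ‖a‖) : nrm (T a) = T (nrm a) := by
  rw [nrm, nrm, h, map_smul]

omit k g in
theorem P2_sd (h : B.OK I) (x : M) (s t : ι × ι) :
    ∑ r, sq2 (fun a b => B.P a b x) s r * B.sd x r t = B.sd x s t := by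
  have e : ∑ r, sq2 (fun a b => B.P a b x) s r * B.a2 x r t = B.a2 x s t := by
    rw [Base.a2, ← (h.pr x).idem s.1 t.1, ← (h.pr x).idem s.2 t.2, ← (h.pr x).idem s.1 t.2,
      ← (h.pr x).idem s.2 t.1]
    simp only [sum_mul_sum, ← sum_sub_distrib, sum_div, Fintype.sum_prod_type, Base.a2, sq2]
    exact sum_congr rfl fun _ _ => sum_congr rfl fun _ _ => by ring
  simp only [Base.sd, ← mul_div_assoc, mul_add, ← sum_div, sum_add_distrib, e, P2_st h]

theorem CR0.norm_p2 (hx : x ∈ O) (ξ : Fm (ι × ι) c.m.A) :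
    ‖ridx (sq2 (U x)) (cj (u x)) (c.m.p2 B x ξ)‖ = ‖c.m.p2 B x ξ‖ := by
  have e := (k.lm g).me x hx
  have b := (k.lm g).be x hx
  rw [norm_eq_sqrt_real_inner, norm_eq_sqrt_real_inner (c.m.p2 B x ξ), inner_ridx _ (inner_cj _),
    ridx_ridx, ridx_congr (T' := ContinuousLinearMap.id ℝ _) _ fun t => e.trn_cj (p2_mem x ξ t)]
  have h1 : (fun (a c : ι × ι) => ∑ r, sq2 (U x) r a * sq2 (U x) r c)
      = sq2 fun a b => B.P a b x := by
    funext a c
    have := sq2_mul (fun a b => U x b a) (U x) a c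
    simp only [b.UU] at this
    exact this
  rw [h1, Md.p2, idx_eq, ridx_ridx]
  simp only [P2_sd g.hB, ContinuousLinearMap.id_comp]

/-- **the delay gradient is natural** -/
theorem CR0.q1 {N : DG M ι lam r J} {N' : DG M' ι' lam' r J} {s δ : ℝ}
    (e : DGR I I' O O' φ U (uz u ζ) R N N' s) (a : DGk N G.F c δ) (a' : DGk N' G'.F c' δ)
    (hx : x ∈ O) :
    (N'.q1 B' G'.F : Pt _ _ _ r n).D c' (φ x)
      = cs c'.m.J ζ (u x ((N.q1 B G.F : Pt _ _ _ r n).D c x)) ∧
    (N'.q1 B' G'.F : Pt _ _ _ r n).C c' (φ x)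
      = ridx (sq2 (U x)) (cj (u x)) ((N.q1 B G.F : Pt _ _ _ r n).C c x) := by
  have d := g.toLG.dr a.τ a'.τ e.τ
  have h := e.grad g a a'
  refine ⟨?_, ?_⟩
  · have := ((k.lz g).slr_lt (O' := O') (t := .cl N.τ) (t' := .cl N'.τ) d
      ((k.lz g).rs_pp h.2)).1.rel x hx
    simp only [_root_.sum_apply, _root_.smul_apply] at this
    simp only [DG.q1, this, map_neg, ← csL_apply]; rfl
  · simp only [DG.q1, map_smul]
    congr 1
    refine k.p2' g hx (PiLp.ext fun t => ?_)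
    simp only [h.1 x hx, d x hx, ridx_apply, Fintype.sum_prod_type, sum_smul, smul_sum, map_smul,
      smul_smul, sq2, sum_mul]
    rw [sum_comm]
    exact sum_congr rfl fun _ _ => sum_congr rfl fun _ _ => by congr 1; ring

omit k g

/-! ### the time derivative and the energy -/

section en
variable {τ : M → ℝ} {τ' : M' → ℝ} (d : DR G.F G'.F O φ U τ τ')
include d g

theorem DR.symm : DR G'.F G.F O' ψ (fun y a b => U (ψ y) b a) τ' τ := fun y hy a => by
  rw [← d.rev g.toLG (g.inv.maps' hy), g.inv.rinv y hy]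
  simp only [mul_comm]

theorem EP.nt {V V' : Type} [NormedAddCommGroup V] [InnerProductSpace ℝ V] [CompleteSpace V]
    [NormedAddCommGroup V'] [InnerProductSpace ℝ V'] [CompleteSpace V'] {A : ι → M → CL V V}
    {A' : ι' → M' → CL V' V'} {T : M → CL V V'} (e : EP B G B' G' O O' φ ψ U A A' T) {s : M → V}
    {s' : M' → V'} (h : RS O O' φ T s s') (hs : Sm I s) (hs' : Sm I' s') :
    RS O O' φ T (nt G.F A τ s) (nt G'.F A' τ' s') := by
  have r : ∀ x ∈ O, Dgr80.nt G'.F A' τ' s' (φ x) = T x (Dgr80.nt G.F A τ s x) := fun x hx => by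
    simp only [Dgr80.nt, e.nab g h hs hs' hx, smul_sum, smul_smul, map_sum, map_smul,
      ← d.rev g.toLG hx, sum_smul]
    rw [sum_comm]
  refine ⟨r, fun x hx => ?_, fun x hx => ?_, fun x hx => ?_⟩
  · have hy := g.inv.maps hx
    have := fun a => g.symm.toLG.nab hy ⟨fun a y => e.t.mc.sm a y, e.t'.pj⟩ (e.t'.sT _ hy)
      (e.t'.it _ hy) (hs' _) (hs _) ((g.symm.rot.ev hy).mono fun y hy => by
        rw [← h.p _ (g.inv.maps' hy), ← h.rel _ (g.inv.maps' hy), g.inv.rinv y hy]) a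
    simp only [g.inv.linv x hx] at this
    rw [← r x hx]
    simp only [Dgr80.nt, this, d x hx, smul_sum, smul_smul, map_sum, map_smul, sum_smul]
    rw [sum_comm]
    simp only [mul_comm]
  · simp [Dgr80.nt, Wz78.nab, h.off x hx, Sob92.dv_congr (v := fun _ => 0)
      ((g.cl.isOpen_compl.eventually_mem hx).mono h.off)]
  · simp [Dgr80.nt, Wz78.nab, h.off' x hx, Sob92.dv_congr (v := fun _ => 0)
      ((g.cl'.isOpen_compl.eventually_mem hx).mono h.off')]

theorem LM.xA (h : LM B G B' G' O φ U v₁ c.W c'.W u) (hx : x ∈ O) :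
    xA G'.F c' τ' (φ x) = ridx (U x) (cj (u x)) (xA G.F c τ x) := by
  refine PiLp.ext fun b => ?_
  simp only [Dgr80.xA, h.Fg hx, ridx_apply, Fintype.sum_prod_type, sq2, smul_sum, smul_smul,
    map_sum, map_smul, ← d.rev g.toLG hx, sum_smul]
  rw [sum_comm, sum_comm (s := (univ : Finset ι)) (t := (univ : Finset ι))]
  refine sum_congr rfl fun _ _ => ?_
  rw [sum_comm]
  exact sum_congr rfl fun _ _ => sum_congr rfl fun _ _ => by congr 1; ring

theorem LM.norm_xA (h : LM B G B' G' O φ U v₁ c.W c'.W u) (hx : x ∈ O) :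
    ‖Dgr80.xA G'.F c' τ' (φ x)‖ = ‖Dgr80.xA G.F c τ x‖ := by
  have := (h.symm g.inv).xA g.symm (d.symm g) (g.inv.maps hx)
  simp only [g.inv.linv x hx] at this
  rw [norm_eq_sqrt_real_inner, norm_eq_sqrt_real_inner (Dgr80.xA G.F c τ x)]
  nth_rw 1 [h.xA g d hx]
  rw [inner_ridx _ (inner_cj _), ← this]

include k

theorem CR0.xP : RS O O' φ (uz u ζ) (xP G.F c τ) (xP G'.F c' τ') :=
  ((k.lz g).ep g.inv).nt g d (k.rs g) k.adm.sm k.adm'.sm

theorem CR0.en : FR O φ (en G.F c τ) (en G'.F c' τ') := fun x hx => by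
  simp only [Function.comp_apply, Dgr80.en, (k.lm g).norm_xA g d hx, (k.xP g d).norm hx]

/-- the smoothed energy density -/
theorem CR0.ew {K : Type} [Fintype K] {χ : M → ℝ} {χ' : M' → ℝ} {y : K → M → ℝ} {y' : K → M' → ℝ}
    (hχ : FR O φ χ χ') (o : ∀ x ∉ O, χ x = 0) (o' : ∀ x ∉ O', χ' x = 0)
    (hy : ∀ i, DR G.F G'.F O φ U (y i) (y' i)) :
    FR O φ (ew G.F τ χ y c) (ew G'.F τ' χ' y' c') := fun x hx => by
  have h := k.lz g
  have e := h.epA g.inv
  have a := fun i => (e.res g (e.res g (h.rs_cv hχ d (hy i) o o'))).norm hx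
  have b := (((h.ep g.inv).nt g d (k.rs g) k.adm.sm k.adm'.sm).smul hχ).norm hx
  simp only [Function.comp_apply, Dgr80.ew, Cfg.sd, a, b]

end en

end Crest.Agent.X212.Eqv71
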