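import Crest.Agent.X212.Eqv71.Wpt
import Crest.Agent.X212.Mod61.Fmt
import Crest.Agent.X212.Wrd81.Ap
import Crest.Agent.X212.Mp86.C0G
import Crest.Agent.X212.Pj41.Pul

/-! The leaf `NatOn`; existence of the resolvent off `O`; invariance of the counts. -/

set_option autoImplicit false
set_option linter.unusedSectionVars false

open scoped Manifold ContDiff Topology InnerProductSpace
open Finset Filter MeasureTheory

noncomputable section
namespace Crest.Agent.X212.Eqv71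
open An Wz78 Sob92 Mp86

variable {E : Type} [NormedAddCommGroup E] [NormedSpace ℝ E] [FiniteDimensional ℝ E]
  [MeasurableSpace E] [BorelSpace E]
  {HM : Type} [TopologicalSpace HM] {I : ModelWithCorners ℝ E HM} [I.Boundaryless]
  {M : Type} [TopologicalSpace M] [ChartedSpace HM M] [IsManifold I ∞ M]
  [MeasurableSpace M] [BorelSpace M] [T2Space M] {ι : Type} [Fintype ι] {lam : Type} [Fintype lam]
  {E' : Type} [NormedAddCommGroup E'] [NormedSpace ℝ E'] [FiniteDimensional ℝ E']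
  [MeasurableSpace E'] [BorelSpace E']
  {HM' : Type} [TopologicalSpace HM'] {I' : ModelWithCorners ℝ E' HM'} [I'.Boundaryless]
  {M' : Type} [TopologicalSpace M'] [ChartedSpace HM' M'] [IsManifold I' ∞ M']
  [MeasurableSpace M'] [BorelSpace M'] [T2Space M'] {ι' : Type} [Fintype ι'] {lam' : Type}
  [Fintype lam']
  {B : Base M ι lam} {G : Geo I M ι lam} {B' : Base M' ι' lam'} {G' : Geo I' M' ι' lam'}
  {O O₁ : Set M} {O' : Set M'} {U : M → ι' → ι → ℝ} {v : M → CL (Eu lam) (Eu lam')} {x : M}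
  {r n m : ℕ} {c : Cfg M ι lam r} {c' : Cfg M' ι' lam' r}

theorem lap_congrA {V : Type} [NormedAddCommGroup V] [NormedSpace ℝ V] {A A' : ι → M → V →L[ℝ] V}
    {e : ι → (x : M) → TangentSpace I x} {g : ι → M → ℝ} (s : M → V)
    (h : ∀ᶠ y in 𝓝 x, ∀ a, A a y = A' a y) : lap I e g A s x = lap I e g A' s x := by
  have h1 : ∀ a t, nab I e A a t =ᶠ[𝓝 x] nab I e A' a t := fun a t =>
    h.mono fun y hy => by simp only [Wz78.nab, hy a]
  simp only [Wz78.lap, nab_congr _ (h1 _ s), (h1 _ _).eq_of_nhds]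

/-- existence of the resolvent when the complement of `O` is compact -/
theorem ex_of_cpt [SecondCountableTopology M] (hB : B.OK I) (hG : G.OK B) {C : ℕ → ℝ}
    (hT : G.F.Tame C) (hO : IsClopen O) (hc : IsCompact Oᶜ) (h : Ad0 c B G) : Ex G.F c O := by
  have hs : ∀ {N : Type} [NormedAddCommGroup N] {f : M → N}, (∀ x ∈ O, f x = 0) →
      HasCompactSupport f := fun hf => HasCompactSupport.intro hc fun x hx => hf x (not_not.1 hx)
  have hi : ∀ {N : Type} [NormedAddCommGroup N] [NormedSpace ℝ N] {f : M → N}, Sm I f →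
      G.F.Cb (Oᶜ.indicator f) := fun hf => Cb_of_hcs (sm_ind hO.compl fun x _ => hf x)
    (hs fun x hx => Set.indicator_of_notMem (Set.notMem_compl_iff.2 hx) _)
  refine ⟨fun s h1 h2 => ?_, hi (Mp86.sm_Fg hB hG h.ok h.conn)⟩
  have k := Wrd81.rh_of_tame (A := fun a => Oᶜ.indicator (c.m.adW c.W a)) hT
    (fun a => hi ((mc_adW h.conn).sm a)) (fun a x => by
      by_cases hx : x ∈ Oᶜ
      · rw [Set.indicator_of_mem hx]; exact (mc_adW h.conn).sk a x
      · rw [Set.indicator_of_notMem hx]; exact fun _ _ => by simp)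
    fun a x => by
      by_cases hx : x ∈ Oᶜ
      · simp only [Set.indicator_of_mem hx, hG.P, (con_adW h.conn).proj]
      · simp only [Set.indicator_of_notMem hx, smul_zero, sum_const_zero]
  obtain ⟨k1, k2, -⟩ := k.isRes_tst h1.choose_spec.1 (hs h2)
  have k3 := isRes_ind hO.compl k1
  refine ⟨_, ⟨k3.1, k3.2.1, fun x => ?_⟩, Cb_ind hO.compl k2⟩
  by_cases hx : x ∈ Oᶜ
  · rw [← lap_congrA _ (mem_of_superset (hO.compl.2.mem_nhds hx) fun y hy a =>
      Set.indicator_of_mem hy _), k3.2.2, Set.indicator_of_mem hx]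
  · rw [lap_congr (ind_ev0 hO.compl.1 hx _), lap_zero, add_zero, Set.indicator_of_notMem hx,
      h2 x (not_not.1 hx)]

theorem ex_of_compact [SecondCountableTopology M] [CompactSpace M] (hB : B.OK I) (hG : G.OK B)
    {C : ℕ → ℝ} (hT : G.F.Tame C) (hO : IsClopen O) (h : Ad0 c B G) : Ex G.F c O :=
  ex_of_cpt hB hG hT hO hO.compl.1.isCompact h

/-- the perturbation given by one term -/
def tmP (B : Base M ι lam) (F : Fr I M ι) (t : Tm M lam r n) : Pt M ι lam r n :=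
  ⟨fun c => c.tD B F t, fun c => c.tC B F t, fun c => c.tS F t⟩

theorem tm_rel {φ : M → M'} {ψ : M' → M} (g : KC B G B' G' O O' φ ψ U v) {t : Tm M lam r n}
    {t' : Tm M' lam' r n} (ht : TmR O φ v t t') (ok : t.OK G.F) (ok' : t'.OK G'.F) :
    PRel B G B' G' O O' φ U v (tmP B G.F t) (tmP B' G'.F t') :=
  ⟨fun k _ hx => k.tD g ht ok ok' hx, fun k _ hx => k.tC g ht ok ok' hx,
    fun k i => k.tS g ht ok ok' i⟩

theorem tm_nat (hB : B.OK I) (hG : G.OK B) (hO : IsClopen O) (hb : Bumps I G.F.e G.F.dv)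
    {t : Tm M lam r n} (ok : t.OK G.F) : PNat B G O (tmP B G.F t) :=
  tm_rel (kc_refl hB hG hO hb) (tmR_refl O (trn_l hB) t) ok ok

theorem PRel.congr {φ : M → M'} {τ σ : Pt M ι lam r n} {τ' σ' : Pt M' ι' lam' r n}
    (p : PRel B G B' G' O O' φ U v τ τ') (h : σ = τ) (h' : σ' = τ') :
    PRel B G B' G' O O' φ U v σ σ' := h ▸ h' ▸ p

/-- finite combinations with related coefficients -/
theorem prel_sum {φ : M → M'} {K : Type} (s : Finset K) {τ : K → Pt M ι lam r n}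
    {τ' : K → Pt M' ι' lam' r n} (p : ∀ k ∈ s, PRel B G B' G' O O' φ U v (τ k) (τ' k))
    {a : K → Cfg M ι lam r → M → ℝ} {a' : K → Cfg M' ι' lam' r → M' → ℝ}
    {b : K → Cfg M ι lam r → ℂ} {b' : K → Cfg M' ι' lam' r → ℂ}
    (ha : ∀ k ∈ s, ∀ {c c' u ζ}, CR B G B' G' O O' φ U v c c' u ζ →
      (∀ x ∈ O, a' k c' (φ x) = a k c x) ∧ b' k c' = b k c) :
    PRel B G B' G' O O' φ U v
      ⟨fun c x => ∑ k ∈ s, a k c x • (τ k).D c x, fun c x => ∑ k ∈ s, a k c x • (τ k).C c x,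
        fun c i => ∑ k ∈ s, b k c * (τ k).S c i⟩
      ⟨fun c x => ∑ k ∈ s, a' k c x • (τ' k).D c x, fun c x => ∑ k ∈ s, a' k c x • (τ' k).C c x,
        fun c i => ∑ k ∈ s, b' k c * (τ' k).S c i⟩ where
  D e x hx := by
    simp only [← csL_apply, map_sum, map_smul]
    exact sum_congr rfl fun k hk => by rw [(p k hk).D e x hx, (ha k hk e).1 x hx]; rfl
  C e x hx := by
    simp only [map_sum, map_smul]
    exact sum_congr rfl fun k hk => by rw [(p k hk).C e x hx, (ha k hk e).1 x hx]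
  S e i := by
    simp only [mul_sum]
    exact sum_congr rfl fun k hk => by rw [(p k hk).S e i, (ha k hk e).2]; ring

theorem ad0_of (h : Mod61.Adm0 c B G) : Ad0 c B G := ⟨h.ok, h.conn, h.sm, h.pos⟩

theorem Ad0.adm0 (h : Ad0 c B G) : Mod61.Adm0 c B G := ⟨h.ok, h.conn, h.sm, h.pos⟩

theorem ridx_P {κ κ' : Type} [Fintype κ] [DecidableEq κ] [Fintype κ'] [DecidableEq κ']
    {P : ι → ι → ℝ} (hP : Pr P) {p : En κ} {ξ : Fm (ι × ι) (HS κ)}
    (h : ξ = ridx (sq2 P) (cj p) ξ) (u : CL (Eu κ) (Eu κ')) (s : ι × ι) :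
    ridx (sq2 P) (cj u) ξ s = cj u (ξ s) := by
  have h1 : ridx (sq2 P) (ContinuousLinearMap.id ℝ _) ξ = ξ := by
    rw [h, ridx_ridx]
    simp only [sq2_mul, hP.idem, ContinuousLinearMap.id_comp]
  conv_rhs => rw [← h1]
  simp only [ridx_apply, map_sum, map_smul, ContinuousLinearMap.id_apply]

/-- **the leaf `NatOn`** from `PNat` -/
theorem natOn_of_pnat (hB : B.OK I) (hG : G.OK B) (hO : IsOpen O) (hs : O₁ ⊆ O)
    (hex : ∀ c : Cfg M ι lam r, Ad0 c B G → Ex G.F c O) {τ : Mod61.PtX M ι lam r n m}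
    (p : PNat B G O τ.toPt) (hR : ∀ (c c' : Cfg M ι lam r) u ζ,
      CR B G B G O O id (fun x b a => B.P b a x) B.l c c' u ζ → τ.R c' = τ.R c) :
    Mod61.NatOn B G O O₁ τ := fun c c' u ζ h h' h0 h0' e => by
  have k : CR B G B G O O id (fun x b a => B.P b a x) B.l c c' u ζ :=
    ⟨ad0_of h, ad0_of h', fun x hx => h0 x fun h => hx (hs h), fun x hx => h0' x fun h => hx (hs h),
      hex c (ad0_of h), hex c' (ad0_of h'), e⟩
  have k0 : CR B G B G O O id (fun x b a => B.P b a x) B.l c c c.m.p 1 :=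
    ⟨k.adm, k.adm, k.off, k.off, k.ex, k.ex, ceq_refl hB hG k.adm hO⟩
  exact ⟨fun x hx => p.D k x (hs hx),
    fun x hx s => (congrFun (congrArg _ (p.C k x hx)) s).trans (ridx_P (hB.pr x) (p.C k0 x hx) _ s),
    p.S k, hR c c' u ζ k⟩

/-- the unperturbed equations are natural over any open set -/
theorem natOn_eq0 (hB : B.OK I) (hG : G.OK B) (hO : IsOpen O) (hs : O₁ ⊆ O) :
    Mod61.NatOn B G O O₁ (Mod61.eq0 B G r n m) := fun c c' u ζ h h' _ _ e => by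
  have g := lg_refl hB hG hO
  have key : ∀ {c c' : Cfg M ι lam r} {u ζ}, Ad0 c B G → Ad0 c' B G →
      CEq G.F c c' O id (fun x b a => B.P b a x) B.l u ζ → ∀ x ∈ O,
      (Mod61.eq0 B G r n m).C c' x = ridx (sq2 fun b a => B.P b a x) (cj (u x))
        ((Mod61.eq0 B G r n m).C c x) := fun h h' e x hx =>
    (congrArg₂ (· - ·) (ceq_p2F g h h' e hx) (ceq_mu g h h' e hx)).trans (map_sub _ _ _).symm
  refine ⟨fun x hx => ceq_dir g (ad0_of h) (ad0_of h') e (hs hx), fun x hx s => ?_,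
    fun _ => (mul_zero _).symm, rfl⟩
  rw [key (ad0_of h) (ad0_of h') e x hx]
  exact ridx_P (hB.pr x) (key (ad0_of h) (ad0_of h) (ceq_refl hB hG (ad0_of h) hO) x hx) _ s

/-- one term is natural -/
theorem natOn_tm (hB : B.OK I) (hG : G.OK B) (hO : IsClopen O) (hs : O₁ ⊆ O)
    (hb : Bumps I G.F.e G.F.dv) (hex : ∀ c : Cfg M ι lam r, Ad0 c B G → Ex G.F c O)
    {t : Tm M lam r n} (ok : t.OK G.F) :
    Mod61.NatOn B G O O₁ (⟨tmP B G.F t, fun _ => 0⟩ : Mod61.PtX M ι lam r n m) :=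
  natOn_of_pnat hB hG hO.2 hs hex (tm_nat hB hG hO hb ok) fun _ _ _ _ _ => rfl

theorem natOn_wpt (hB : B.OK I) (hG : G.OK B) (hO : IsClopen O) (hs : O₁ ⊆ O)
    (hb : Bumps I G.F.e G.F.dv) (hex : ∀ c : Cfg M ι lam r, Ad0 c B G → Ex G.F c O)
    {K : Type} [Fintype K] {T : K → Tm M lam r n} (ok : ∀ i, (T i).OK G.F) (w : K → ℝ) :
    Mod61.NatOn B G O O₁ (⟨wpt B G.F T w, fun _ => 0⟩ : Mod61.PtX M ι lam r n m) :=
  natOn_of_pnat hB hG hO.2 hs hex (wpt_nat hB hG hO hb ok w) fun _ _ _ _ _ => rfl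

theorem ceq_norm_z {φ : M → M'} {F : Fr I M ι} {u : M → CL c.m.V c'.m.V} {ζ : Circle}
    (e : CEq F c c' O φ U v u ζ) : ‖c'.z‖ = ‖c.z‖ := by
  rw [e.z, norm_smul, norm_pow, Circle.norm_coe, one_pow, one_mul]

/-! ### global equivalences -/

section glob
variable {φ : OpenPartialHomeomorph M M'}

theorem geq_symm (g : GEq B G B' G' φ U v) (hB : B.OK I) (hG : G.OK B) (hB' : B'.OK I')
    (hG' : G'.OK B') : GEq B' G' B G φ.symm (fun y a b => U (φ.symm y) b a)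
      fun y => trn (v (φ.symm y)) :=
  LG.geq (φ := φ.symm) ((lg_of_geq g hB hG hB' hG' φ.open_source subset_rfl).symm (inv_of_geq' g))
    g.sm (map_inv φ.open_source φ.open_target (fun _ hx => φ.continuousAt hx)
      (fun _ hy => φ.continuousAt_symm hy) (fun _ hx => φ.left_inv hx) g.μ)

theorem kg_univ (g : GEq B G B' G' φ U v) (hB : B.OK I) (hG : G.OK B) (hB' : B'.OK I')
    (hG' : G'.OK B') (h1 : φ.source = Set.univ) (h2 : φ.target = Set.univ) :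
    KG B G B' G' Set.univ Set.univ φ φ.symm U v := by
  have := kg_of_geq g hB hG hB' hG' φ.open_source subset_rfl
  rwa [φ.image_source_eq_target, h1, h2] at this

/-- the pull-back of a configuration -/
@[reducible] def pullC (c' : Cfg M' ι' lam' r) (φ : M → M') (U : M → ι' → ι → ℝ)
    (v : M → CL (Eu lam) (Eu lam')) : Cfg M ι lam r :=
  ⟨Pj41.pull c'.m φ U v, Pj41.pullW c'.W φ U v, fun x => c'.Φ (φ x), c'.z⟩

theorem pullC_spec (g : GEq B G B' G' φ U v) (hB : B.OK I) (hG : G.OK B) (hB' : B'.OK I')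
    (hG' : G'.OK B') (h1 : φ.source = Set.univ) (h : Ad0 c' B' G') :
    Ad0 (pullC c' φ U v) B G ∧
      CEq G.F (pullC c' φ U v) c' Set.univ φ U v (fun x => c'.m.p (φ x)) 1 := by
  have hs : Set.univ ⊆ φ.source := h1.ge
  have hm : Set.MapsTo φ Set.univ Set.univ := fun _ _ => trivial
  have o := Pj41.OK.on h.ok Set.univ
  have k1 := Pj41.okOn_univ.1 (Pj41.pull_ok g hs hm hB o)
  have k2 := Pj41.pull_conn g hs hm hG.P hG'.P o (Pj41.IsConn.on h.conn Set.univ)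
  have k3 := Pj41.pull_mEq g hs hm hB o
  have l := lg_of_geq g hB hG hB' hG' isOpen_univ hs
  refine ⟨⟨k1, k2.isConn k1, fun x => l.rot.sa_comp trivial (h.sm _), fun x => ?_⟩, k3,
    Pj41.par_iff_par0.2 k2.par0_refl, fun x _ => ?_, by simp⟩
  · have := (me_of_meq k3 (Set.mem_univ x)).pp (l.be x trivial) hB hB' k1 (c'.Φ (φ x))
    rw [p_Φ h, h.pos] at this
    exact (p_pp k1 x _).symm.trans this.symm
  · rw [Circle.coe_one, cs_one]; exact (p_Φ h _).symm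

end glob

theorem card_quot_eq {α β : Type} {s : α → α → Prop} {s' : β → β → Prop} (R : α → β → Prop)
    (h1 : ∀ a, ∃ b, R a b) (h2 : ∀ b, ∃ a, R a b) (r1 : ∀ a, s a a) (r2 : ∀ b, s' b b)
    (h3 : ∀ a a' b b', R a b → R a' b' → (s a a' ↔ s' b b')) :
    Nat.card (Quot s) = Nat.card (Quot s') := by
  choose f hf using h1
  choose g hg using h2
  refine Nat.card_congr ⟨Quot.map f fun a a' h => (h3 _ _ _ _ (hf a) (hf a')).1 h,
    Quot.map g fun b b' h => (h3 _ _ _ _ (hg b) (hg b')).2 h, ?_, ?_⟩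
  · rintro ⟨a⟩
    exact Quot.sound ((h3 _ _ _ _ (hg _) (hf a)).2 (r2 _))
  · rintro ⟨b⟩
    exact Quot.sound ((h3 _ _ _ _ (hf _) (hg b)).1 (r1 _))

/-- isomorphism classes correspond under a global equivalence -/
theorem iso_iff {φ : M → M'} {ψ : M' → M} (g : KG B G B' G' Set.univ Set.univ φ ψ U v)
    {d : Cfg M ι lam r} {d' : Cfg M' ι' lam' r} (hc : Ad0 c B G) (hc' : Ad0 c' B' G')
    (hd : Ad0 d B G) (hd' : Ad0 d' B' G') {u : M → CL c.m.V c'.m.V} {w : M → CL d.m.V d'.m.V}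
    {ζ η : Circle} (e : CEq G.F c c' Set.univ φ U v u ζ) (f : CEq G.F d d' Set.univ φ U v w η)
    (h : Cfg.Iso B' G'.F c' d') : Cfg.Iso B G.F c d := by
  obtain ⟨a, θ, h⟩ := h
  have hm : ∀ {X Y : Type} (f : X → Y), Set.MapsTo f Set.univ Set.univ := fun _ _ _ => trivial
  have l' := lg_refl g.hB' g.hG' isOpen_univ
  have k := ceq_trans (g.toLG.trans l' (hm _)) (g.toLG.symm g.inv) (hm _) hc hd' hd
    (ceq_trans g.toLG l' (hm _) hc hc' hd' e h) (ceq_symm g.toLG g.inv hd hd' f)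
  have h1 : ψ ∘ id ∘ φ = id := funext fun x => g.inv.linv x trivial
  have h2 : (fun x d a => ∑ b, U (ψ ((id ∘ φ) x)) b d * ∑ b', B'.P b b' (φ x) * U x b' a)
      = fun x b a => B.P b a x := by
    funext x d a
    simp only [Function.comp_apply, id, g.inv.linv x trivial, (g.be x trivial).PU g.hB',
      (g.be x trivial).UU]
  have h3 : (fun x => trn (v (ψ ((id ∘ φ) x))) ∘L B'.l (φ x) ∘L v x) = B.l := by
    funext x
    simp only [Function.comp_apply, id, g.inv.linv x trivial, (g.be x trivial).lv g.hB,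
      (g.be x trivial).vv]
  rw [h1, h2, h3] at k
  exact ⟨_, _, k⟩

theorem ceq_symm_symm {φ : M → M'} {ψ : M' → M} (i : Inv I I' φ ψ O O') {F : Fr I M ι}
    {u : M → CL c.m.V c'.m.V} {ζ : Circle}
    (e : CEq F c c' O φ (fun x b a => U (ψ (φ x)) b a) (fun x => trn (trn (v (ψ (φ x))))) u ζ) :
    CEq F c c' O φ U v u ζ := by
  refine ⟨⟨e.m.su, e.m.uu, e.m.uu', e.m.J, fun x hx => ?_, fun x hx => ?_⟩, fun x hx => ?_, e.Φ,
    e.z⟩
  · simpa only [i.linv x hx] using e.m.ρ x hx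
  · simpa only [i.linv x hx, trn_trn] using e.m.j x hx
  · simpa only [i.linv x hx] using e.W x hx

/-- **the moduli spaces of globally equivalent families have the same number of points** -/
theorem card_mod_eq {T T' : Type} {Q : Set T} {Q' : Set T'} {σ : T → T'} (hσ : Set.BijOn σ Q Q')
    {G : T → Geo I M ι lam} {G' : T' → Geo I' M' ι' lam'} {τ : T → Pt M ι lam r n}
    {τ' : T' → Pt M' ι' lam' r n} {φ : T → OpenPartialHomeomorph M M'} {U : T → M → ι' → ι → ℝ}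
    {v : T → M → CL (Eu lam) (Eu lam')} (hB : B.OK I) (hB' : B'.OK I') (hG : ∀ t ∈ Q, (G t).OK B)
    (hG' : ∀ t ∈ Q', (G' t).OK B') (g : ∀ t ∈ Q, GEq B (G t) B' (G' (σ t)) (φ t) (U t) (v t))
    (h1 : ∀ t ∈ Q, (φ t).source = Set.univ) (h2 : ∀ t ∈ Q, (φ t).target = Set.univ)
    (p : ∀ t ∈ Q, PRel B (G t) B' (G' (σ t)) Set.univ Set.univ (φ t) (U t) (v t) (τ t) (τ' (σ t)))
    (q : ∀ t ∈ Q, PNat B (G t) Set.univ (τ t)) (k : ℝ) :
    Nat.card (Mod Q B G τ k) = Nat.card (Mod Q' B' G' τ' k) := by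
  have kg := fun t ht => kg_univ (g t ht) hB (hG t ht) hB' (hG' _ (hσ.mapsTo ht)) (h1 t ht) (h2 t ht)
  refine card_quot_eq (fun x y => y.1.1 = σ x.1.1 ∧ ∃ u ζ, CEq (G x.1.1).F x.1.2 y.1.2 Set.univ
    (φ x.1.1) (U x.1.1) (v x.1.1) u ζ) ?_ ?_
    (fun x => ⟨rfl, isoOn_refl hB (hG _ x.2.1) isOpen_univ (ad0 x.2.2.1.toAdm)⟩)
    (fun x => ⟨rfl, isoOn_refl hB' (hG' _ x.2.1) isOpen_univ (ad0 x.2.2.1.toAdm)⟩) ?_
  · rintro ⟨⟨t, c⟩, ht, hc, hk⟩
    have ht' := hσ.mapsTo ht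
    obtain ⟨a1, a2⟩ := pullC_spec (geq_symm (g t ht) hB (hG t ht) hB' (hG' _ ht')) hB' (hG' _ ht')
      hB (hG t ht) (h2 t ht) (ad0 hc.toAdm)
    have e := ceq_symm_symm (kg t ht).inv
      (ceq_symm (kg t ht).symm.toLG (kg t ht).symm.inv a1 (ad0 hc.toAdm) a2)
    refine ⟨⟨(σ t, _), ht', (p t ht).sol (kg t ht).toLG (fun y => ⟨_, (kg t ht).inv.rinv y trivial⟩)
      hc ⟨a1.ok, a1.conn, a1.sm, a1.pos, hc.z⟩ e, ?_⟩, rfl, _, _, e⟩
    exact (kap_eq (kg t ht) ((kg t ht).toLG.of_ceq (ad0 hc.toAdm) a1 e)).trans hk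
  · rintro ⟨⟨t', c'⟩, ht', hc, hk⟩
    obtain ⟨t, ht, rfl⟩ := hσ.surjOn ht'
    obtain ⟨a1, a2⟩ := pullC_spec (g t ht) hB (hG t ht) hB' (hG' _ ht') (h1 t ht) (ad0 hc.toAdm)
    refine ⟨⟨(t, _), ht, ((p t ht).symm (kg t ht).toLG (kg t ht).inv (q t ht)).sol
      (kg t ht).symm.toLG (fun x => ⟨_, (kg t ht).inv.linv x trivial⟩) hc
      ⟨a1.ok, a1.conn, a1.sm, a1.pos, hc.z⟩
      (ceq_symm (kg t ht).toLG (kg t ht).inv a1 (ad0 hc.toAdm) a2), ?_⟩, rfl, _, _, a2⟩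
    exact (kap_eq (kg t ht) ((kg t ht).toLG.of_ceq a1 (ad0 hc.toAdm) a2)).symm.trans hk
  · rintro ⟨⟨t, c⟩, ht, hc, hk⟩ ⟨⟨s, d⟩, hs, hd, hk1⟩ ⟨⟨t', c'⟩, ht', hc', hk2⟩
      ⟨⟨s', d'⟩, hs', hd', hk3⟩ ⟨rfl, u, ζ, e⟩ ⟨rfl, w, η, f⟩
    have c0 := ad0 hc.toAdm
    have c1 := ad0 hc'.toAdm
    refine ⟨?_, ?_⟩
    · rintro ⟨rfl, h⟩
      have d0 := ad0 hd.toAdm
      have d1 := ad0 hd'.toAdm
      exact ⟨rfl, iso_iff (kg t ht).symm c1 c0 d1 d0 (ceq_symm (kg t ht).toLG (kg t ht).inv c0 c1 e)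
        (ceq_symm (kg t ht).toLG (kg t ht).inv d0 d1 f) h⟩
    · rintro ⟨h0, h⟩
      obtain rfl : t = s := hσ.injOn ht hs h0
      exact ⟨rfl, iso_iff (kg t ht) c0 c1 (ad0 hd.toAdm) (ad0 hd'.toAdm) e f h⟩

theorem cnt_eq {T T' : Type} {Q : Set T} {Q' : Set T'} {σ : T → T'} (hσ : Set.BijOn σ Q Q')
    {G : T → Geo I M ι lam} {G' : T' → Geo I' M' ι' lam'} {τ : T → Pt M ι lam r n}
    {τ' : T' → Pt M' ι' lam' r n} {φ : T → OpenPartialHomeomorph M M'} {U : T → M → ι' → ι → ℝ}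
    {v : T → M → CL (Eu lam) (Eu lam')} (hB : B.OK I) (hB' : B'.OK I') (hG : ∀ t ∈ Q, (G t).OK B)
    (hG' : ∀ t ∈ Q', (G' t).OK B') (g : ∀ t ∈ Q, GEq B (G t) B' (G' (σ t)) (φ t) (U t) (v t))
    (h1 : ∀ t ∈ Q, (φ t).source = Set.univ) (h2 : ∀ t ∈ Q, (φ t).target = Set.univ)
    (p : ∀ t ∈ Q, PRel B (G t) B' (G' (σ t)) Set.univ Set.univ (φ t) (U t) (v t) (τ t) (τ' (σ t)))
    (q : ∀ t ∈ Q, PNat B (G t) Set.univ (τ t)) (k : ℝ) : cnt Q B G τ k = cnt Q' B' G' τ' k :=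
  congrArg _ (card_mod_eq hσ hB hB' hG hG' g h1 h2 p q k)

end Crest.Agent.X212.Eqv71
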