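import Crest.Agent.X212.Eqv71.Hil
import Crest.Agent.X212.Eqv71.Dg
import Crest.Agent.X212.Eqv71.Nat
import Crest.Agent.X212.Nd18.Api
import Crest.Agent.X212.Mon62.REx
import Crest.Agent.X212.Std94.Smo
import Crest.Agent.X212.Dgr80.Lg

/-! Naturality of the neck perturbations of `Nd18`. -/

set_option autoImplicit false
set_option linter.unusedSectionVars false

open scoped Manifold ContDiff Topology InnerProductSpace
open Finset Filter MeasureTheory Matrix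

noncomputable section
namespace Crest.Agent.X212.Eqv71
open An Wz78 Sob92 Mp86 Dgr80 Nd18 Cyf70
open Wrd81 (wd)
open Cyc79 (Cy)

section rot
variable (J0 J2 : Type) [Fintype J0] [Fintype J2] [DecidableEq J0] [DecidableEq J2]

/-- multiplication of the complex coordinates by `z` -/
def rotM (z : ℂ) : Matrix (J0 ⊕ J2 ⊕ J2) (J0 ⊕ J2 ⊕ J2) ℝ :=
  fromBlocks 1 0 0 (fromBlocks (z.re • 1) (-z.im • 1) (z.im • 1) (z.re • 1))

variable {J0 J2}

theorem rotM_mulVec (z : ℂ) (y : J0 ⊕ J2 ⊕ J2 → ℝ) : rotM J0 J2 z *ᵥ y =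
    Sum.elim (fun j => y (.inl j)) (Sum.elim
      (fun j => (z * ⟨y (.inr (.inl j)), y (.inr (.inr j))⟩).re)
      fun j => (z * ⟨y (.inr (.inl j)), y (.inr (.inr j))⟩).im) := by
  ext (j | j | j) <;> simp [rotM, fromBlocks_mulVec, smul_mulVec, neg_mulVec, sub_eq_add_neg, add_comm]

theorem rotM_T (z : ℂ) : (rotM J0 J2 z)ᵀ = rotM J0 J2 (starRingEnd ℂ z) := by
  simp [rotM, fromBlocks_transpose]

theorem rotM_orth (ζ : Circle) : (rotM J0 J2 ζ)ᵀ * rotM J0 J2 ζ = 1 := by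
  have h : (ζ : ℂ).re * (ζ : ℂ).re + (ζ : ℂ).im * (ζ : ℂ).im = 1 := by
    rw [← Complex.normSq_apply, Circle.normSq_coe]
  simp [rotM, fromBlocks_transpose, fromBlocks_multiply, smul_smul, ← add_smul, h, mul_comm,
    add_comm ((ζ : ℂ).im * _), ← fromBlocks_one]

end rot

variable {E3 : Type} [NormedAddCommGroup E3] [NormedSpace ℝ E3] [FiniteDimensional ℝ E3]
  [MeasurableSpace E3] [BorelSpace E3]
  {H3 : Type} [TopologicalSpace H3] {I3 : ModelWithCorners ℝ E3 H3} [I3.Boundaryless]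
  {Y : Type} [TopologicalSpace Y] [ChartedSpace H3 Y] [IsManifold I3 ∞ Y] [T2Space Y]
  [MeasurableSpace Y] [BorelSpace Y] [SecondCountableTopology Y] [CompactSpace Y]
  {κ : Type} [Fintype κ] {lam : Type} [Fintype lam]
  {E : Type} [NormedAddCommGroup E] [NormedSpace ℝ E] [FiniteDimensional ℝ E]
  [MeasurableSpace E] [BorelSpace E]
  {HM : Type} [TopologicalSpace HM] {I : ModelWithCorners ℝ E HM} [I.Boundaryless]
  {M : Type} [TopologicalSpace M] [ChartedSpace HM M] [IsManifold I ∞ M]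
  [MeasurableSpace M] [BorelSpace M] [T2Space M] [SecondCountableTopology M]
  {E' : Type} [NormedAddCommGroup E'] [NormedSpace ℝ E'] [FiniteDimensional ℝ E']
  [MeasurableSpace E'] [BorelSpace E']
  {HM' : Type} [TopologicalSpace HM'] {I' : ModelWithCorners ℝ E' HM'} [I'.Boundaryless]
  {M' : Type} [TopologicalSpace M'] [ChartedSpace HM' M'] [IsManifold I' ∞ M']
  [MeasurableSpace M'] [BorelSpace M'] [T2Space M'] [SecondCountableTopology M']
  {D : YD I3 Y κ lam} {B : Base M (Option κ) lam} {G : Geo I M (Option κ) lam}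
  {B' : Base M' (Option κ) lam} {G' : Geo I' M' (Option κ) lam}
  {O : Set M} {O' : Set M'} {φ : M → M'} {ψ : M' → M}
  {U : M → Option κ → Option κ → ℝ} {v v₁ : M → CL (Eu lam) (Eu lam)} {x : M}
  {r n : ℕ} {c : Cfg M (Option κ) lam r} {c' : Cfg M' (Option κ) lam r}
  {u : M → CL c.m.V c'.m.V} {ζ : Circle} {s : ℝ}

/-! ### bounds on one neck -/

section one
variable (K : Nk D B G)

theorem win_χ {δ : ℝ} (hδ : 0 < δ) (t : ℝ) : Integrable (fun x => b δ (K.τ x - t) * K.χ x) G.F.μ ∧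
    ∫ x, b δ (K.τ x - t) * K.χ x ∂G.F.μ ≤ D.F.μ.real Set.univ := by
  have hc : Continuous fun x => b δ (K.τ x - t) * K.χ x :=
    ((continuous_b δ).comp (K.sm_τ.continuous.sub continuous_const)).mul
      (Sb.of_cb K.cb_χ).sm.continuous
  have h0 : ∀ x ∉ K.ψ.target, b δ (K.τ x - t) * K.χ x = 0 := fun x hx => by
    rw [K.χ_zero fun h => hx (K.dp_sub one_pos h), mul_zero]
  have hm : AEMeasurable K.ψ (D.Z.μ.restrict K.ψ.source) :=
    K.ψ.continuousOn.aemeasurable K.ψ.open_source.measurableSet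
  have hi : Integrable (fun z : Y × ℝ => b δ (z.2 - t)) D.Z.μ :=
    ((integrable_b hδ).comp_sub_right t).comp_snd D.F.μ
  have hl : ∀ᵐ z ∂D.Z.μ.restrict K.ψ.source,
      ‖b δ (K.τ (K.ψ z) - t) * K.χ (K.ψ z)‖ ≤ b δ (z.2 - t) := by
    filter_upwards [ae_restrict_mem K.ψ.open_source.measurableSet] with z hz
    have h1 : K.χ (K.ψ z) ∈ Set.Icc (0 : ℝ) 1 := ct_mem
    rw [Real.norm_of_nonneg (mul_nonneg (b_pos hδ _).le h1.1)]
    by_cases h : K.ψ z ∈ K.dp 1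
    · rw [K.τ_eq h, K.tm_ψ z hz]; exact mul_le_of_le_one_right (b_pos hδ _).le h1.2
    · rw [K.χ_zero h, mul_zero]; exact (b_pos hδ _).le
  have h2 := hi.integrableOn.mono' (hc.measurable.comp_aemeasurable hm).aestronglyMeasurable hl
  refine ⟨(integrableOn_iff_integrable_of_support_subset
    (Function.support_subset_iff'.2 h0)).1 ?_, ?_⟩
  · rw [IntegrableOn, ← K.iso.μ]
    exact (integrable_map_measure hc.aestronglyMeasurable hm).2 h2
  · rw [← setIntegral_eq_integral_of_forall_compl_eq_zero h0, ← K.iso.μ,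
      integral_map hm hc.aestronglyMeasurable]
    refine (integral_mono_ae h2 hi.integrableOn (hl.mono fun z hz => (le_abs_self _).trans hz)).trans
      ((setIntegral_le_integral hi (.of_forall fun _ => (b_pos hδ _).le)).trans_eq ?_)
    exact (integral_fun_snd (fun s => b δ (s - t))).trans (by
      rw [integral_sub_right_eq_self (b δ), integral_b hδ, smul_eq_mul, mul_one])

theorem wi_χ {δ : ℝ} (hδ : 0 < δ) {h : M → ℝ} (hh : Sb I h) :
    WI G.F.μ K.τ δ (fun x => K.χ x * h x) ∧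
      ∃ C, ∀ t, |wn G.F.μ K.τ δ (fun x => K.χ x * h x) t| ≤ C := by
  obtain ⟨C, hC⟩ := hh.bd
  have h1 : ∀ x, 0 ≤ K.χ x := fun x => ct_mem.1
  have hχ := (Sb.of_cb K.cb_χ).sm.continuous
  have w : WI G.F.μ K.τ δ K.χ := ⟨K.sm_τ.continuous.aestronglyMeasurable, hχ.aestronglyMeasurable,
    by simpa only [sub_zero, Real.norm_of_nonneg (h1 _)] using (win_χ K hδ 0).1⟩
  have hb : ∀ x, ‖K.χ x * h x‖ ≤ |C| * ‖K.χ x‖ := fun x => by
    rw [norm_mul, mul_comm]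
    exact mul_le_mul_of_nonneg_right ((hC x).trans (le_abs_self C)) (norm_nonneg _)
  refine ⟨w.mono hδ (hχ.mul hh.sm.continuous).aestronglyMeasurable hb,
    |C| * D.F.μ.real Set.univ, fun t => ?_⟩
  refine (norm_integral_le_of_norm_le (f := fun x => b δ (K.τ x - t) • (K.χ x * h x))
    ((win_χ K hδ t).1.const_mul |C|)
    (.of_forall fun x => ?_)).trans ?_
  · rw [norm_smul, Real.norm_of_nonneg (b_pos hδ _).le, mul_left_comm]
    exact mul_le_mul_of_nonneg_left (by simpa only [Real.norm_of_nonneg (h1 _)] using hb x)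
      (b_pos hδ _).le
  · rw [integral_const_mul]
    exact mul_le_mul_of_nonneg_left (win_χ K hδ t).2 (abs_nonneg _)

theorem ltb_map {w : List (YL Y)} (h : ∀ t ∈ w, YL.OK I3 t) : ∀ t ∈ w.map K.lt, Ltb G.F t :=
  fun t ht => ltb_of_ok (K.ok_sw h t ht)

omit K in
theorem slb_laV {V : Type} [NormedAddCommGroup V] [InnerProductSpace ℝ V] [CompleteSpace V]
    {w : List (La M)} (h : ∀ t ∈ w, La.OK G.F t) : ∀ a ∈ w.map (Cyc79.laV V), SLb I a :=
  List.forall_mem_map.2 fun t ht => by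
    have := h t ht
    cases t
    exacts [slb_mul (Sb.of_cb this), trivial]

variable (hB : B.OK I) (h : Ad0 c B G)
include hB h

omit K in
theorem sb_sed {d : Cy M} (hf : G.F.Cb d.f) (h1 : ∀ t ∈ d.w, La.OK G.F t)
    (h2 : ∀ t ∈ d.w', La.OK G.F t) : Sb I ((d.sed G.F).s c) := by
  have k : ∀ w, (∀ t ∈ w, La.OK G.F t) →
      Sb I (Cyc79.wv G.F c (Cyc79.bf G.F c d.f' d.f) (w ++ Cyc79.xw d.f d.f')) := fun w hw => by
    rw [Cyc79.wv, List.map_append, Wrd81.wd_append]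
    exact Sb.wd (((Sb.of_cb hf).smul (sb_const 1)).app (sb_res _ _ _)) (slb_laV hw)
  obtain ⟨a, C, a'⟩ := k _ h1
  obtain ⟨b, C', b'⟩ := k _ h2
  refine Sb.app ⟨Std94.sm_pg hB h.ok, 1, fun x => Submodule.starProjection_norm_le _⟩
    ⟨sm_tp a b, ‖Cyc79.rr G.F c‖ * C * C', fun x => (norm_tp _ _ _).trans ?_⟩
  have := (norm_nonneg _).trans (a' x)
  gcongr
  exacts [a' x, b' x]

omit K hB h in
theorem sb_la {s : M → c.m.A} (hs : Sb I s) {w : List (La M)} (hw : ∀ t ∈ w, La.OK G.F t) :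
    Sb I (wd (c.la G.F) s w) := by
  rw [la_eq]
  exact hs.wd (List.forall_mem_map.2 fun t ht => by
    have := hw t ht
    cases t
    exacts [slb_mul (Sb.of_cb this), trivial])

omit hB h in
theorem laOK_of {t : La Y} (h : t.OK D.F) : laOK I3 t := by
  cases t
  exacts [(Sb.of_cb h).sm, trivial]

theorem sb_cyc {d : Cy Y} (hd : d.OK D.F) {w : List (La Y)} (hw : ∀ t ∈ w, laOK I3 t) :
    Sb I ((((K.cyc d).sed G.F).wd G.F (w.map K.la)).s c) :=
  sb_la (sb_sed hB h (K.cb_ext (Sb.of_cb hd.sep.1).sm) (K.ok_las fun t ht => laOK_of (hd.w t ht))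
    (K.ok_las fun t ht => laOK_of (hd.w' t ht))) (K.ok_las hw)

variable {N : ND Y lam} (hN : N.OK D)
include hN

theorem sb_den (j : N.J) : ∃ f, Sb I f ∧ ((N.dg K).d j).h c = fun x => K.χ x * f x := by
  rcases j with j | j | j
  · have := hN.d0 j
    simp only [ND.dg, Sum.elim_inl]
    generalize N.d0 j = d at this
    cases d with
    | sw a b => exact ⟨_, (sb_nw hB h (ltb_map K this.1)).inner (sb_nw hB h (ltb_map K this.2)), rfl⟩
    | cy d w d' w' =>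
      exact ⟨_, (sb_cyc K hB h this.1 this.2.1).inner (sb_cyc K hB h this.2.2.1 this.2.2.2), rfl⟩
  all_goals
    obtain ⟨h1, h2, h3⟩ := hN.d2 j
    have a := (sb_j hB h.ok (Sb.of_cb (K.cb_ext h1))).app (sb_nw hB h (ltb_map K h2))
  · exact ⟨_, a.inner (sb_nw hB h (ltb_map K h3)), rfl⟩
  · exact ⟨_, (a.clm c.m.J).inner (sb_nw hB h (ltb_map K h3)), rfl⟩

theorem contDiff_cx : ContDiff ℝ ∞ N.cx :=
  (contDiff_pi.2 fun _ => contDiff_apply _ _ _).prodMk (contDiff_pi.2 fun j =>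
    Complex.equivRealProdCLM.symm.contDiff.comp
      ((contDiff_apply ℝ ℝ (Sum.inr (Sum.inl j) : N.J)).prodMk
        (contDiff_apply ℝ ℝ (Sum.inr (Sum.inr j) : N.J))))

/-- **the window integrals of a neck term converge and are bounded** -/
theorem dgk : DGk (N.dg K) G.F c N.δ := by
  choose f h1 h2 using sb_den K hB h hN
  have k := fun j => wi_χ K hN.δ0 (h1 j)
  choose C hC using fun j => (k j).2
  exact ⟨hN.δ0, fun _ => rfl, fun j => h2 j ▸ (k j).1,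
    ⟨‖C‖, fun t => (pi_norm_le_iff_of_nonneg (norm_nonneg _)).2 fun j => by
      simp only [DG.Iv, h2]
      exact (hC j t).trans ((le_abs_self _).trans (norm_le_pi_norm C j))⟩,
    hN.sm.comp (contDiff_cx hB h hN), contDiff_ct.continuous,
    ⟨1, fun t => abs_le.2 ⟨neg_one_lt_zero.le.trans ct_mem.1, ct_mem.2⟩⟩, K.sm_τ⟩

end one

theorem exV_of_tame {C : ℕ → ℝ} (hT : G.F.Tame C) (h : Ad0 c B G) : ExV G.F c :=
  fun _ hs => Mon62.exists_res_sm hT (mc_W h.conn).sm (mc_W h.conn).sk hs.sm hs.bd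

/-! ### two necks -/

variable (O O' φ) in
/-- corresponding necks; `s` is the shift of time -/
structure NkR (K : Nk D B G) (K' : Nk D B' G') (s : ℝ) : Prop where
  τ : ∀ x ∈ O, K'.τ (φ x) = K.τ x + s
  cut : ∀ t, K'.cut 3 (t + s) = K.cut 3 t
  χ : FR O φ K.χ K'.χ
  y : ∀ x ∈ O, K.χ x ≠ 0 → (K'.ψ.symm (φ x)).1 = (K.ψ.symm x).1
  o : ∀ x ∉ O, K.χ x = 0
  o' : ∀ y ∉ O', K'.χ y = 0
  cut4 : ∀ t, K'.cut 4 (t + s) = K.cut 4 t

theorem χ4_zero (K : Nk D B G) (h : K.χ x = 0) : K.χ4 x = 0 :=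
  ct_zero fun e => zero_ne_one (h.symm.trans (K.χ_one (Dp_mono (by norm_num) e)))

theorem nkR_refl (K : Nk D B G) (h : ∀ x ∉ O, K.χ x = 0) : NkR O O id K K 0 :=
  ⟨fun _ _ => (add_zero _).symm, fun t => by rw [add_zero], fun _ _ => rfl, fun _ _ _ => rfl, h, h,
    fun t => by rw [add_zero]⟩

theorem nkR_shift (D : YD I3 Y κ lam) (s : ℝ) :
    NkR Set.univ Set.univ (fun z : Y × ℝ => (z.1, z.2 + s)) D.nk D.nk s :=
  ⟨fun _ _ => by simp [Nk.τ, YD.nk, tf_none], fun _ => by simp [Nk.cut, YD.nk, ct_none],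
    fun _ _ => by simp [Nk.χ, Nk.cut, YD.nk, ct_none], fun _ _ _ => rfl,
    fun _ h => (h trivial).elim, fun _ h => (h trivial).elim,
    fun _ => by simp [Nk.cut, YD.nk, ct_none]⟩

namespace NkR
variable {K : Nk D B G} {K' : Nk D B' G'} (e : NkR O O' φ K K' s)
include e

theorem ext {N : Type} [NormedAddCommGroup N] [NormedSpace ℝ N] (f : Y → N) (hx : x ∈ O) :
    K'.ext f (φ x) = K.ext f x := by
  have h : K'.χ (φ x) = K.χ x := e.χ hx
  by_cases k : K.χ x = 0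
  · simp only [Nk.ext, h, k, zero_smul]
  · simp only [Nk.ext, h, e.y x hx k]

theorem χ4 : FR O φ K.χ4 K'.χ4 := fun x hx => by
  have h : (1 : ℝ) ≤ 4 := by norm_num
  rw [Function.comp_apply, Nk.χ4, Nk.χ4, ← K.cut_τ h, ← K'.cut_τ h, e.τ x hx, e.cut4]

theorem o4 : ∀ x ∉ O, K.χ4 x = 0 := fun x hx => χ4_zero K (e.o x hx)

theorem o4' : ∀ x ∉ O', K'.χ4 x = 0 := fun x hx => χ4_zero K' (e.o' x hx)

theorem fr (f : Y → ℝ) : FR O φ (K.ext f) (K'.ext f) := fun _ hx => e.ext f hx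

theorem off (f : Y → ℝ) : (∀ x ∉ O, K.ext f x = 0) ∧ ∀ y ∉ O', K'.ext f y = 0 :=
  ⟨fun x hx => by rw [Nk.ext, e.o x hx, zero_smul], fun x hx => by rw [Nk.ext, e.o' x hx, zero_smul]⟩

theorem la (t : La Y) : LaR O φ (K.la t) (K'.la t) := by
  cases t
  exacts [.mul (e.fr _), .G]

theorem las (w : List (La Y)) : List.Forall₂ (LaR O φ) (w.map K.la) (w.map K'.la) := by
  rw [List.forall₂_map_left_iff, List.forall₂_map_right_iff]
  exact List.forall₂_same.2 fun t _ => e.la t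

theorem cyc (d : Cy Y) : CyR O O' φ (K.cyc d) (K'.cyc d) :=
  ⟨e.fr _, e.fr _, fun x hx => ⟨(e.off _).1 x hx, (e.off _).1 x hx⟩,
    fun x hx => ⟨(e.off _).2 x hx, (e.off _).2 x hx⟩, e.las _, e.las _⟩

theorem sr (hB : B.OK I) (σ : Y → Eu lam) : SR O φ B.l (K.ext σ) (K'.ext σ) := fun x hx => by
  rw [e.ext σ hx, trn_l hB]

theorem dnR {d : Den M (Option κ) lam r} {d' : Den M' (Option κ) lam r} (h : DnR O O' φ U u d d') :
    DnR O O' φ U u (dcut K.χ d) (dcut K'.χ d') :=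
  ⟨fun _ hx => congrArg₂ (· * ·) (e.χ hx) (h.h hx), fun x hx => by simp [dcut, e.o x hx],
    fun x hx => by simp [dcut, e.o' x hx],
    fun _ _ hf => h.gA fun _ hx => congrArg₂ (· * ·) (hf hx) (e.χ hx),
    fun _ _ hf => h.gP fun _ hx => congrArg₂ (· * ·) (hf hx) (e.χ hx)⟩

theorem dnC {z : ℂ} {d f : Den M (Option κ) lam r} {d' f' : Den M' (Option κ) lam r}
    (h : DnC (I := I) (I' := I') O O' φ U u z d f d' f') : DnC (I := I) (I' := I') O O' φ U u z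
      (dcut K.χ d) (dcut K.χ f) (dcut K'.χ d') (dcut K'.χ f') := by
  have k : ∀ (t a b a' b' : ℝ), (⟨a', b'⟩ : ℂ) = z * ⟨a, b⟩ → (⟨a' * t, b' * t⟩ : ℂ)
      = z * ⟨a * t, b * t⟩ := fun t a b a' b' h => by
    rw [Complex.ext_iff] at h ⊢
    simp only [Complex.mul_re, Complex.mul_im] at h ⊢
    rw [h.1, h.2]; constructor <;> ring
  have hχ : ∀ x ∈ O, K'.χ (φ x) = K.χ x := fun _ hx => e.χ hx
  refine ⟨fun x hx => ?_, fun x hx => by simp [dcut, e.o x hx], fun x hx => by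
    simp [dcut, e.o' x hx], fun _ _ _ _ a b a' b' H => h.g (a.smul (.of_cb K.cb_χ))
      (b.smul (.of_cb K.cb_χ)) (a'.smul (.of_cb K'.cb_χ)) (b'.smul (.of_cb K'.cb_χ)) fun x hx => ?_⟩
  · simpa only [dcut, hχ x hx, mul_comm (K.χ x)] using k (K.χ x) _ _ _ _ (h.h x hx)
  · simpa only [hχ x hx] using k (K.χ x) _ _ _ _ (H x hx)

variable (g : KC B G B' G' O O' φ ψ U v)
include g

theorem dτ : DR G.F G'.F O φ U K.τ K'.τ := g.toLG.dr K.sm_τ K'.sm_τ e.τ

theorem dext {f : Y → ℝ} (hf : Sm I3 f) : DR G.F G'.F O φ U (K.ext f) (K'.ext f) :=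
  g.toLG.dr (s := 0) (Sb.of_cb (K.cb_ext hf)).sm (Sb.of_cb (K'.cb_ext hf)).sm fun _ hx =>
    (e.ext f hx).trans (add_zero _).symm

theorem fn {f : Option (Y → ℝ)} (hf : OF I3 f) : DR G.F G'.F O φ U (K.fn f) (K'.fn f) := by
  cases f
  exacts [e.dτ g, e.dext g (hf _ rfl)]

theorem lt {t : YL Y} (ht : t.OK I3) : LtD G.F G'.F O φ U (K.lt t) (K'.lt t) := by
  cases t
  exacts [e.fr _, e.fn g ht, trivial, trivial]

theorem lts {w : List (YL Y)} (h : ∀ t ∈ w, YL.OK I3 t) :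
    List.Forall₂ (LtD G.F G'.F O φ U) (w.map K.lt) (w.map K'.lt) := by
  rw [List.forall₂_map_left_iff, List.forall₂_map_right_iff]
  exact List.forall₂_same.2 fun t ht => e.lt g (h t ht)

variable (k : CR0 B G B' G' O O' φ U v c c' u ζ)
include k

theorem den {d : YDen Y} (hd : d.OK D.F) : DnR O O' φ U (uz u ζ) (K.den d) (K'.den d) := by
  have h := k.lz g
  cases d with
  | sw a b => exact e.dnR (h.den_sw g (k.rs g) (e.lts g hd.1) (e.lts g hd.2))
  | cy d w d' w' => exact e.dnR (((h.cy_sed g (e.cyc d)).wd h g (e.las w)).den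
      ((h.cy_sed g (e.cyc d')).wd h g (e.las w')))

variable {N : ND Y lam} (hN : N.OK D)
include hN

theorem ew : FR O φ (N.ew K c) (N.ew K' c') := fun _ hx => congrArg₂ (· * ·) (e.χ4 hx)
  (k.ew g (e.dτ g) e.χ4 e.o4 e.o4' (fun i => e.dext g (hN.sy i)) hx)

theorem tc (C : YTC) (t : ℝ) :
    (N.tc K' C).val G'.F K'.τ N.δ c' (t + s) = (N.tc K C).val G.F K.τ N.δ c t := by
  have := fun t => g.toKG.wn e.τ (fun _ hx => e.ew g k hN hx)
    (fun x hx => by simp [ND.ew, e.o4 x hx]) (fun x hx => by simp [ND.ew, e.o4' x hx]) N.δ t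
  simp only [TC.val, ND.tc, add_right_comm t s, this]

theorem tcf (C : YTC) : FR O φ (fun x => K.χ x * (N.tc K C).val G.F K.τ N.δ c (K.τ x))
    fun y => K'.χ y * (N.tc K' C).val G'.F K'.τ N.δ c' (K'.τ y) := fun x hx => by
  have h : K'.χ (φ x) = K.χ x := e.χ hx
  simp only [Function.comp_apply, e.τ x hx, e.tc g k hN, h]

theorem tl {w : List (YL Y ⊕ YTC)} (hw : tlOK I3 w) : List.Forall₂ (LtD G.F G'.F O φ U)
    ((w.map (N.tl K)).map (tl G.F K.τ N.δ c)) ((w.map (N.tl K')).map (tl G'.F K'.τ N.δ c')) := by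
  simp only [List.forall₂_map_left_iff, List.forall₂_map_right_iff]
  refine List.forall₂_same.2 fun t ht => ?_
  have := hw t ht
  cases t
  exacts [e.lt g this, e.tcf g k hN _]

theorem ta (w : List (La Y ⊕ YTC)) : List.Forall₂ (LaR O φ)
    ((w.map (N.ta K)).map (ta G.F K.τ N.δ c)) ((w.map (N.ta K')).map (ta G'.F K'.τ N.δ c')) := by
  simp only [List.forall₂_map_left_iff, List.forall₂_map_right_iff]
  refine List.forall₂_same.2 fun t _ => ?_
  cases t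
  exacts [e.la _, .mul (e.tcf g k hN _)]

theorem oc (T : YT Y) : FR O φ (N.oc K T c) (N.oc K' T c') := fun x hx => by
  simp only [Function.comp_apply, ND.oc, e.τ x hx, e.cut, e.tc g k hN]

omit hN in
theorem tC {f : Y → ℝ} (hf : Sm I3 f) {a : M → c.m.A} {a' : M' → c'.m.A}
    (h : RS O O' φ (fun x => cj (uz u ζ x)) a a') (hx : x ∈ O) :
    c'.m.p2 B' (φ x) (WithLp.toLp 2 fun t =>
        (G'.F.D t.1 K'.τ (φ x) * G'.F.D t.2 (K'.ext f) (φ x)) • a' (φ x))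
      = ridx (sq2 (U x)) (cj (u x)) (c.m.p2 B x (WithLp.toLp 2 fun t =>
        (G.F.D t.1 K.τ x * G.F.D t.2 (K.ext f) x) • a x)) := by
  refine k.p2' g hx ?_
  rw [h.rel x hx]
  refine toLp_rel _ _ (fun t => ?_) _
  rw [e.dτ g x hx, e.dext g hf x hx, sum_mul_sum, Fintype.sum_prod_type]
  exact sum_congr rfl fun _ _ => sum_congr rfl fun _ _ => by simp only [sq2]; ring

theorem q2 {T : YT Y} (hT : T.OK I3) (hx : x ∈ O) :
    (N.q2 K' T : Pt _ _ _ r n).D c' (φ x) = cs c'.m.J ζ (u x ((N.q2 K T : Pt _ _ _ r n).D c x)) ∧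
    (N.q2 K' T : Pt _ _ _ r n).C c' (φ x)
      = ridx (sq2 (U x)) (cj (u x)) ((N.q2 K T : Pt _ _ _ r n).C c x) := by
  have h := k.lz g
  have o : N.oc K' T c' (φ x) = N.oc K T c x := e.oc g k hN T hx
  have p : ∀ {ξ : Fm _ c.m.A} {η}, η = ridx (sq2 (U x)) (cj (u x)) (c.m.p2 B x ξ) →
      nrm η = ridx (sq2 (U x)) (cj (u x)) (nrm (c.m.p2 B x ξ)) := fun h =>
    h ▸ nrm_map _ (k.norm_p2 g hx _)
  simp only [ND.q2, o, map_smul, ← csL_apply]
  cases T with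
  | lin C w =>
    refine ⟨congrArg _ ?_, by simp [ND.tm, TT.tm, Cfg.tC, nrm]⟩
    exact (congrArg nrm ((congrArg _ ((h.rs_sw g (k.rs g) (e.tl g k hN hT.2)).rel x hx)).trans
      ((h.me x hx).pm (h.be x hx) g.hB g.hB' k.adm.ok _))).trans
      (nrm_map _ ((h.me x hx).norm (p_pm k.adm.ok x _)))
  | ad C f a b l =>
    exact ⟨by simp [ND.tm, TT.tm, Cfg.tD, nrm], congrArg _ (p (e.tC g k hT.2.1 (h.rs_la g
      (h.rs_q (h.rs_sw g (k.rs g) (e.tl g k hN hT.2.2.1)) (h.rs_sw g (k.rs g)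
        (e.tl g k hN hT.2.2.2.1))) (e.ta g k hN l)) hx))⟩
  | cv C f f₁ a b l =>
    exact ⟨by simp [ND.tm, Cfg.tD, nrm], congrArg _ (p (e.tC g k hT.2.1 (h.rs_la g
      ((h.epA g.inv).res g ((h.epA g.inv).res g (h.rs_cv (e.fr f₁) (e.fn g hT.2.2.2.1)
        (e.fn g hT.2.2.2.2.1) (e.off _).1 (e.off _).2))) (e.ta g k hN l)) hx))⟩

end NkR

/-- assembling densities of weight zero and pairs of weight `z` -/
theorem famR_rot {J0 J2 : Type} [Fintype J0] [Fintype J2] [DecidableEq J0] [DecidableEq J2] {z : ℂ}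
    {d : J0 → Den M (Option κ) lam r} {d' : J0 → Den M' (Option κ) lam r}
    {a b : J2 → Den M (Option κ) lam r} {a' b' : J2 → Den M' (Option κ) lam r}
    (h : ∀ j, DnR O O' φ U u (d j) (d' j))
    (k : ∀ j, DnC (I := I) (I' := I') O O' φ U u z (a j) (b j) (a' j) (b' j)) :
    FamR I I' O O' φ U u (rotM J0 J2 z) (Sum.elim d (Sum.elim a b)) (Sum.elim d' (Sum.elim a' b')) := by
  refine ⟨fun x hx => ?_, ?_, ?_, fun f f' hf hf' H => ?_⟩
  · rw [rotM_mulVec]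
    ext (j | j | j)
    exacts [(h j).h hx, congrArg Complex.re ((k j).h x hx), congrArg Complex.im ((k j).h x hx)]
  · rintro (j | j | j) x hx
    exacts [(h j).off x hx, ((k j).off x hx).1, ((k j).off x hx).2]
  · rintro (j | j | j) x hx
    exacts [(h j).off' x hx, ((k j).off' x hx).1, ((k j).off' x hx).2]
  · simp only [rotM_mulVec] at H
    have p := fun j => (k j).g (hf (.inr (.inl j))) (hf (.inr (.inr j))) (hf' (.inr (.inl j)))
      (hf' (.inr (.inr j))) fun x hx =>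
        Complex.ext (congrFun (H x hx) (.inr (.inl j))) (congrFun (H x hx) (.inr (.inr j)))
    have q : ∀ j, FR O φ (f (.inl j)) (f' (.inl j)) := fun j x hx => congrFun (H x hx) (.inl j)
    simp only [Fintype.sum_sum_type, Sum.elim_inl, Sum.elim_inr, ← sum_add_distrib]
    exact ⟨(R1.sum _ fun j _ => (h j).gA (q j)).add (R1.sum _ fun j _ => (p j).1),
      (RS.sum _ fun j _ => (h j).gP (q j)).add (RS.sum _ fun j _ => (p j).2)⟩

theorem inv_rot {N : ND Y lam} (hN : N.OK D) (ζ : Circle) (y : N.J → ℝ) :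
    N.φ (N.cx ((rotM N.J0 N.J2 ((ζ : ℂ) ^ 2))ᵀ *ᵥ y)) = N.φ (N.cx y) := by
  rw [rotM_T, rotM_mulVec, ← hN.inv (ζ ^ 2)⁻¹ (N.cx y).1 (N.cx y).2]
  rw [Circle.coe_inv_eq_conj]
  rfl

namespace NkR
variable {K : Nk D B G} {K' : Nk D B' G'} (e : NkR O O' φ K K' s) (g : KC B G B' G' O O' φ ψ U v)
  {N : ND Y lam} (hN : N.OK D) {C C' : ℕ → ℝ} (hT : G.F.Tame C) (hT' : G'.F.Tame C')
  (hσ : ∀ j, SR O φ v (K.ext (N.d2 j).s) (K'.ext (N.d2 j).s))
include e g hN hT hT' hσ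

theorem dgR (k : CR0 B G B' G' O O' φ U v c c' u ζ) :
    DGR I I' O O' φ U (uz u ζ) (rotM N.J0 N.J2 ((ζ : ℂ) ^ 2)) (N.dg K) (N.dg K') s :=
  ⟨famR_rot (fun j => e.den g k (hN.d0 j)) fun j => e.dnC (k.den_pair g (exV_of_tame hT k.adm)
      (exV_of_tame hT' k.adm') (e.lts g (hN.d2 j).2.1) (e.lts g (hN.d2 j).2.2)
      (ltb_map K (hN.d2 j).2.1) (ltb_map K (hN.d2 j).2.2) (ltb_map K' (hN.d2 j).2.1)
      (ltb_map K' (hN.d2 j).2.2) (hσ j) (.of_cb (K.cb_ext (hN.d2 j).1))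
      (.of_cb (K'.cb_ext (hN.d2 j).1))),
    Circle.coe_pow ζ 2 ▸ rotM_orth (J0 := N.J0) (J2 := N.J2) (ζ ^ 2), rfl, inv_rot hN ζ, e.τ, e.cut⟩

/-- the window invariants are natural -/
theorem Iv (k : CR0 B G B' G' O O' φ U v c c' u ζ) (t : ℝ) :
    N.cx ((N.dg K').Iv G'.F c' (t + s)) =
      ((N.cx ((N.dg K).Iv G.F c t)).1, (ζ : ℂ) ^ 2 • (N.cx ((N.dg K).Iv G.F c t)).2) := by
  rw [(e.dgR g hN hT hT' hσ k).Iv g (dgk K g.hB k.adm hN) (dgk K' g.hB' k.adm' hN), rotM_mulVec]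
  rfl

theorem φ_Iv (k : CR0 B G B' G' O O' φ U v c c' u ζ) (t : ℝ) :
    N.φ (N.cx ((N.dg K').Iv G'.F c' (t + s))) = N.φ (N.cx ((N.dg K).Iv G.F c t)) := by
  rw [e.Iv g hN hT hT' hσ k, ← Circle.coe_pow, hN.inv]

theorem q1_rel0 : PRel0 B G B' G' O O' φ U v (N.q1 K : Pt _ _ _ r n) (N.q1 K') :=
  ⟨fun k _ hx => (k.q1 g (e.dgR g hN hT hT' hσ k) (dgk K g.hB k.adm hN) (dgk K' g.hB' k.adm' hN)
    hx).1, fun k _ hx => (k.q1 g (e.dgR g hN hT hT' hσ k) (dgk K g.hB k.adm hN)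
      (dgk K' g.hB' k.adm' hN) hx).2, fun _ _ => (mul_zero _).symm⟩

theorem q1_rel : PRel B G B' G' O O' φ U v (N.q1 K : Pt _ _ _ r n) (N.q1 K') :=
  (e.q1_rel0 g hN hT hT' hσ).rel

omit hT hT' hσ in
theorem q2_rel0 {T : YT Y} (h : T.OK I3) :
    PRel0 B G B' G' O O' φ U v (N.q2 K T : Pt _ _ _ r n) (N.q2 K' T) :=
  ⟨fun k _ hx => (e.q2 g k hN h hx).1, fun k _ hx => (e.q2 g k hN h hx).2,
    fun _ _ => (mul_zero _).symm⟩

omit hT hT' hσ in
theorem q2_rel {T : YT Y} (h : T.OK I3) :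
    PRel B G B' G' O O' φ U v (N.q2 K T : Pt _ _ _ r n) (N.q2 K' T) := (e.q2_rel0 g hN h).rel

omit e g hN hT hT' hσ in
theorem _root_.Crest.Agent.X212.Eqv71.prel0_fsum {W : Type} {τ : W → Pt M (Option κ) lam r n}
    {τ' : W → Pt M' (Option κ) lam r n} (p : ∀ w, PRel0 B G B' G' O O' φ U v (τ w) (τ' w))
    (q : W →₀ ℝ) : PRel0 B G B' G' O O' φ U v (fsum τ q) (fsum τ' q) :=
  prel0_sum q.support (fun w _ => p w) q

omit e g hN hT hT' hσ in
theorem _root_.Crest.Agent.X212.Eqv71.prel_fsum {W : Type} {τ : W → Pt M (Option κ) lam r n}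
    {τ' : W → Pt M' (Option κ) lam r n} (p : ∀ w, PRel B G B' G' O O' φ U v (τ w) (τ' w))
    (q : W →₀ ℝ) : PRel B G B' G' O O' φ U v (fsum τ q) (fsum τ' q) :=
  prel_sum q.support (fun w _ => p w) (a := fun w _ _ => q w) (a' := fun w _ _ => q w)
    (b := fun w _ => q w) (b' := fun w _ => q w) fun _ _ _ _ _ _ _ => ⟨fun _ _ => rfl, rfl⟩

/-- **the neck perturbation is natural** -/
theorem pt_rel0 (q : YW I3 Y →₀ ℝ) :
    PRel0 B G B' G' O O' φ U v (N.pt K q : Pt _ _ _ r n) (N.pt K' q) :=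
  (e.q1_rel0 g hN hT hT' hσ).add (prel0_fsum (fun T => e.q2_rel0 g hN T.2) q)

theorem pt_rel (q : YW I3 Y →₀ ℝ) :
    PRel B G B' G' O O' φ U v (N.pt K q : Pt _ _ _ r n) (N.pt K' q) :=
  (e.pt_rel0 g hN hT hT' hσ q).rel

end NkR

section nat
variable (K : Nk D B G) (hB : B.OK I) (hG : G.OK B) {C : ℕ → ℝ} (hT : G.F.Tame C)
  (hO : IsClopen O) (ho : ∀ x ∉ O, K.χ x = 0) {N : ND Y lam} (hN : N.OK D)
include hB hG hT hO ho hN

theorem q1_nat0 : PNat0 B G O (N.q1 K : Pt _ _ _ r n) :=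
  (nkR_refl K ho).q1_rel0 (kc_refl hB hG hO (bumps_of_tame _ hT)) hN hT hT
    fun _ => (nkR_refl K ho).sr hB _

theorem q2_nat0 {T : YT Y} (h : T.OK I3) : PNat0 B G O (N.q2 K T : Pt _ _ _ r n) :=
  (nkR_refl K ho).q2_rel0 (kc_refl hB hG hO (bumps_of_tame _ hT)) hN h

theorem pt_nat0 (q : YW I3 Y →₀ ℝ) : PNat0 B G O (N.pt K q : Pt _ _ _ r n) :=
  (q1_nat0 K hB hG hT hO ho hN).add (prel0_fsum (fun T => q2_nat0 K hB hG hT hO ho hN T.2) q)

theorem q1_nat : PNat B G O (N.q1 K : Pt _ _ _ r n) := (q1_nat0 K hB hG hT hO ho hN).rel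

theorem q2_nat {T : YT Y} (h : T.OK I3) : PNat B G O (N.q2 K T : Pt _ _ _ r n) :=
  (q2_nat0 K hB hG hT hO ho hN h).rel

theorem pt_nat (q : YW I3 Y →₀ ℝ) : PNat B G O (N.pt K q : Pt _ _ _ r n) :=
  (pt_nat0 K hB hG hT hO ho hN q).rel

end nat

end Crest.Agent.X212.Eqv71
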