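import Crest.Agent.X212.Eqv71.Dn
import Crest.Agent.X212.Cyc79.Fld

/-! Naturality of the seeds of `Cyc79`: Hilbert fibres. -/

set_option autoImplicit false
set_option linter.unusedSectionVars false

open scoped Manifold ContDiff Topology InnerProductSpace
open Finset Filter MeasureTheory

noncomputable section
namespace Crest.Agent.X212.Eqv71
open An Wz78 Sob92 Mp86 Dgr80
open Wrd81 (wd)
open ContinuousLinearMap (adjoint)

variable {E : Type} [NormedAddCommGroup E] [NormedSpace ℝ E] [FiniteDimensional ℝ E]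
  [MeasurableSpace E] [BorelSpace E]
  {HM : Type} [TopologicalSpace HM] {I : ModelWithCorners ℝ E HM} [I.Boundaryless]
  {M : Type} [TopologicalSpace M] [ChartedSpace HM M] [IsManifold I ∞ M]
  [MeasurableSpace M] [BorelSpace M] [T2Space M] {ι : Type} [Fintype ι] {lam : Type} [Fintype lam]
  {E' : Type} [NormedAddCommGroup E'] [NormedSpace ℝ E'] [FiniteDimensional ℝ E']
  [MeasurableSpace E'] [BorelSpace E']
  {HM' : Type} [TopologicalSpace HM'] {I' : ModelWithCorners ℝ E' HM'} [I'.Boundaryless]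
  {M' : Type} [TopologicalSpace M'] [ChartedSpace HM' M'] [IsManifold I' ∞ M']
  [MeasurableSpace M'] [BorelSpace M'] [T2Space M'] {ι' : Type} [Fintype ι'] {lam' : Type}
  [Fintype lam']
  {B : Base M ι lam} {G : Geo I M ι lam} {B' : Base M' ι' lam'} {G' : Geo I' M' ι' lam'}
  {O : Set M} {O' : Set M'} {φ : M → M'} {ψ : M' → M}
  {U : M → ι' → ι → ℝ} {v v₁ : M → CL (Eu lam) (Eu lam')} {x : M}

open Cyc79

section lin
variable {κ κ' : Type} [Fintype κ] [DecidableEq κ] [Fintype κ'] [DecidableEq κ'] {K K' : Type}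
  [NormedAddCommGroup K] [InnerProductSpace ℝ K] [CompleteSpace K] [NormedAddCommGroup K']
  [InnerProductSpace ℝ K'] [CompleteSpace K']

/-- `S ⊗ R` -/
def am2 (R : K →L[ℝ] K') : CL (CL (Eu κ) (Eu κ')) (CL (Fm κ K) (Fm κ' K')) :=
  LinearMap.toContinuousLinearMap
    { toFun := fun S => ridx (fun i j => S (EuclideanSpace.single j 1) i) R
      map_add' := fun S T => by ext w i; simp [ridx_apply, add_smul, sum_add_distrib]
      map_smul' := fun t T => by ext w i; simp [ridx_apply, smul_sum, mul_smul] }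

theorem am2_apply (R : K →L[ℝ] K') (S : CL (Eu κ) (Eu κ')) (w : Fm κ K) (i : κ') :
    am2 R S w i = ∑ j, S (EuclideanSpace.single j 1) i • R (w j) := ridx_apply _ _ w i

theorem ct_am2 (R : K →L[ℝ] K') (S : CL (Eu κ) (Eu κ')) (h : K') (w : Fm κ K) :
    ct h (am2 R S w) = S (ct (adjoint R h) w) := by
  ext i
  conv_rhs => rw [← (EuclideanSpace.basisFun κ ℝ).sum_repr (ct (adjoint R h) w)]
  simp [am2_apply, inner_sum, inner_smul_right, map_sum, mul_comm,
    ContinuousLinearMap.adjoint_inner_left]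

theorem adj_am2 (R : K →L[ℝ] K') (S : CL (Eu κ) (Eu κ')) :
    adjoint (am2 R S) = am2 (adjoint R) (trn S) :=
  ((ContinuousLinearMap.eq_adjoint_iff _ _).2 fun a b => by
    refine (inner_ridx _ (T' := R) (fun a b => ContinuousLinearMap.adjoint_inner_left _ _ _)
      a b).trans ?_
    congr 2
    refine congrArg (ridx · R) (funext fun i => funext fun j => ?_)
    simpa [EuclideanSpace.inner_single_left, EuclideanSpace.inner_single_right] using
      inner_trn S (EuclideanSpace.single i 1) (EuclideanSpace.single j 1)).symm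

theorem norm_am2 {R : K →L[ℝ] K'} (hR : ‖R‖ ≤ 1) {S : CL (Eu κ) (Eu κ')} {p : En κ}
    (h : trn S ∘L S = p) (h1 : trn p = p) (h2 : p * p = p) (w : Fm κ K) : ‖am2 R S w‖ ≤ ‖w‖ := by
  have e : am2 R S w = am2 (ContinuousLinearMap.id ℝ K') S (fb R w) :=
    PiLp.ext fun i => by simp [am2_apply]
  have a1 : ∀ a b : Fm κ K', ⟪am2 (ContinuousLinearMap.id ℝ K') S a,
      am2 (ContinuousLinearMap.id ℝ K') S b⟫_ℝ = ⟪a, amp K' p b⟫_ℝ := fun a b => by
    rw [← ContinuousLinearMap.adjoint_inner_right, adj_am2]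
    congr 1
    exact ext_ct fun k => by simp [ct_am2, ct_amp, ← h, ContinuousLinearMap.adjoint_id]
  rw [e]
  refine (norm_le_of_proj a1 (fun a => ?_) _).trans ?_
  · rw [← ContinuousLinearMap.adjoint_inner_right, adj_amp, amp_amp, show adjoint p = p from h1, h2]
  · rw [PiLp.norm_eq_of_L2, PiLp.norm_eq_of_L2]
    gcongr with i
    exact (R.le_of_opNorm_le hR _).trans_eq (one_mul _)

end lin

section push
variable {V V' : Type} [NormedAddCommGroup V] [InnerProductSpace ℝ V]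
  [NormedAddCommGroup V'] [InnerProductSpace ℝ V'] {T : M → CL V V'}

theorem hcs_push (g : KC B G B' G' O O' φ ψ U v) {w : M → V} (hw : HasCompactSupport w) :
    HasCompactSupport (O'.indicator fun y => T (ψ y) (w (ψ y))) := by
  refine HasCompactSupport.intro ((hw.inter_right g.cl).image_of_continuousOn
    fun x hx => (g.rot.sφ x hx.2).continuousAt.continuousWithinAt) fun y hy => ?_
  refine Set.indicator_apply_eq_zero.2 fun hy' => ?_
  rw [image_eq_zero_of_notMem_tsupport fun h => hy ⟨_, ⟨h, g.inv.maps' hy'⟩, g.inv.rinv y hy'⟩,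
    map_zero]

/-- transport of test sections -/
def psh (g : KC B G B' G' O O' φ ψ U v) (hT : ∀ x ∈ O, SA I T x) :
    Sec I (triv M V) →ₗ[ℝ] Sec I' (triv M' V') where
  toFun w := ⟨O'.indicator fun y => T (ψ y) (w.1 (ψ y)), sm_ind g.clopen' fun y hy =>
    g.inv.sa hy (f := fun x => T x (w.1 x)) ((hT _ (g.inv.maps' hy)).app (w.2.1 _)),
    hcs_push g w.2.2.1, fun _ => rfl⟩
  map_add' a b := Subtype.ext (funext fun y => by by_cases h : y ∈ O' <;> simp [h])
  map_smul' a b := Subtype.ext (funext fun y => by by_cases h : y ∈ O' <;> simp [h])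

variable (g : KC B G B' G' O O' φ ψ U v) (hT : ∀ x ∈ O, SA I T x)

theorem psh_φ (w : Sec I (triv M V)) (hx : x ∈ O) : (psh g hT w).1 (φ x) = T x (w.1 x) := by
  simp only [psh, LinearMap.coe_mk, AddHom.coe_mk, Set.indicator_of_mem (g.inv.maps hx),
    g.inv.linv x hx]

theorem psh_off (w : Sec I (triv M V)) {y : M'} (hy : y ∉ O') : (psh g hT w).1 y = 0 := by
  simp only [psh, LinearMap.coe_mk, AddHom.coe_mk, Set.indicator_of_notMem hy]

theorem ip_psh (w : Sec I (triv M V)) (z : M' → V') :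
    G'.F.ip 0 (psh g hT w).1 z = ∫ x in O, ⟪T x (w.1 x), z (φ x)⟫_ℝ ∂G.F.μ := by
  rw [← g.toKG.integral_rel (f' := fun y => ⟪(psh g hT w).1 y, z y⟫_ℝ)
    fun x hx => by rw [psh_φ g hT w hx]]
  exact (setIntegral_eq_integral_of_forall_compl_eq_zero fun y hy => by
    rw [psh_off g hT w hy, inner_zero_left]).symm

theorem exists_psh (nT : ∀ x ∈ O, ∀ a, ‖T x a‖ ≤ ‖a‖) :
    ∃ Q : G.F.H 0 (triv M V) →L[ℝ] G'.F.H 0 (triv M' V'),
      (∀ w, Q (G.F.toH 0 _ w) = G'.F.toH 0 _ (psh g hT w)) ∧ ‖Q‖ ≤ 1 := by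
  refine Pre.exists_ext (G'.F.toH 0 _ ∘ₗ psh g hT) zero_le_one fun w => ?_
  rw [LinearMap.comp_apply, Pre.norm_toH, one_mul, Pre.nrm, Pre.nrm, ip_psh]
  have hi := G.F.integrable_inner w.2.1.continuous w.2.2.1 w.2.1.continuous
  refine Real.sqrt_le_sqrt ((integral_mono_of_nonneg ?_ hi.integrableOn ?_).trans
    (setIntegral_le_integral hi (.of_forall fun _ => real_inner_self_nonneg)))
  all_goals
    filter_upwards [ae_restrict_mem g.rot.opn.measurableSet] with x hx
    simp only [psh_φ g hT w hx, real_inner_self_eq_norm_sq]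
  · exact sq_nonneg _
  · exact pow_le_pow_left₀ (norm_nonneg _) (nT x hx _) 2

end push

section fld
variable {κ κ' : Type} [Fintype κ] [DecidableEq κ] [Fintype κ'] [DecidableEq κ']

theorem isFld_unique {F : Pre I M ι} {T : (M → Eu κ) → M → Eu κ} {α β : M → VV F κ}
    (h : IsFld F T α) (k : IsFld F T β) : α = β := funext fun z => PiLp.ext fun i => by
  have := Pre.clm_ext (A := innerSL ℝ (α z i)) (B := innerSL ℝ (β z i)) fun w => by
    simpa only [ct_apply, innerSL_apply_apply, real_inner_comm] using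
      congrArg (fun y : Eu κ => y i) ((h.2 w z).trans (k.2 w z).symm)
  exact ext_inner_right ℝ fun w => congrArg (fun L : _ →L[ℝ] ℝ => L w) this

theorem fld_cases (F : Pre I M ι) (T : (M → Eu κ) → M → Eu κ) :
    IsFld F T (fld F T) ∨ ((¬∃ α, IsFld F T α) ∧ fld F T = 0) := by
  unfold fld
  split_ifs with h
  exacts [.inl h.choose_spec, .inr ⟨h, rfl⟩]

theorem fld_off {F : Pre I M ι} {T : (M → Eu κ) → M → Eu κ} (h : ∀ w, T w x = 0) :
    fld F T x = 0 := by
  rcases fld_cases F T with k | k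
  · refine PiLp.ext fun i => ?_
    have := Pre.clm_ext (A := innerSL ℝ (fld F T x i)) (B := 0) fun w => by
      simpa only [ct_apply, innerSL_apply_apply, real_inner_comm, PiLp.zero_apply, zero_apply] using
        congrArg (fun y : Eu κ => y i) ((k.2 w x).trans (h _))
    exact ext_inner_right ℝ fun w => (congrArg (fun L : _ →L[ℝ] ℝ => L w) this).trans
      (inner_zero_left _).symm
  · rw [k.2]; rfl

variable {S : M → CL (Eu κ) (Eu κ')} {T : (M → Eu κ) → M → Eu κ} {T' : (M' → Eu κ') → M' → Eu κ'}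
  {R : KK G.F.toPre κ →L[ℝ] KK G'.F.toPre κ'}

theorem isFld_push (g : KC B G B' G' O O' φ ψ U v) (hS : ∀ x ∈ O, SA I S x)
    (h : ∀ w' : Sec I' (triv M' (Eu κ')), ∃ w : Sec I (triv M (Eu κ)),
      adjoint R (G'.F.toH 0 _ w') = G.F.toH 0 _ w ∧ ∀ x ∈ O, T' w'.1 (φ x) = S x (T w.1 x))
    (off : ∀ w, ∀ y ∉ O', T' w y = 0) {α : M → VV G.F.toPre κ} (k : IsFld G.F.toPre T α) :
    IsFld G'.F.toPre T' (O'.indicator fun y => am2 R (S (ψ y)) (α (ψ y))) := by
  refine ⟨sm_ind g.clopen' fun y hy => g.inv.sa hy (f := fun x => am2 R (S x) (α x))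
    (SA.app ((am2 R).contMDiff.contMDiffAt.comp _ (hS _ (g.inv.maps' hy))) (k.1 _)), fun w' y => ?_⟩
  by_cases hy : y ∈ O'
  · obtain ⟨x, hx, rfl⟩ := g.inv.surj hy
    obtain ⟨w, h1, h2⟩ := h w'
    rw [Set.indicator_of_mem hy, g.inv.linv x hx, ct_am2, h1, k.2, h2 x hx]
  · rw [Set.indicator_of_notMem hy, map_zero, off _ y hy]

theorem rs_fld (g : KC B G B' G' O O' φ ψ U v) (hS : ∀ x ∈ O, SA I S x)
    (h : ∀ w' : Sec I' (triv M' (Eu κ')), ∃ w : Sec I (triv M (Eu κ)),
      adjoint R (G'.F.toH 0 _ w') = G.F.toH 0 _ w ∧ ∀ x ∈ O, T' w'.1 (φ x) = S x (T w.1 x))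
    (h' : ∀ w : Sec I (triv M (Eu κ)), ∃ w' : Sec I' (triv M' (Eu κ')),
      R (G.F.toH 0 _ w) = G'.F.toH 0 _ w' ∧ ∀ x ∈ O, T w.1 x = trn (S x) (T' w'.1 (φ x)))
    (off : ∀ w, ∀ x ∉ O, T w x = 0) (off' : ∀ w, ∀ y ∉ O', T' w y = 0) :
    RS O O' φ (fun x => am2 R (S x)) (fld G.F.toPre T) (fld G'.F.toPre T') := by
  have back := fun α => isFld_push (S := fun y => trn (S (ψ y))) (R := adjoint R) (α := α) g.symm
    (fun y hy => g.inv.sa hy (f := fun x => trn (S x)) (sa_trn (hS _ (g.inv.maps' hy))))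
    (fun w => let ⟨w', h1, h2⟩ := h' w
      ⟨w', by rwa [ContinuousLinearMap.adjoint_adjoint], fun y hy => by
        rw [h2 _ (g.inv.maps' hy), g.inv.rinv y hy]⟩) off
  have key : ∀ x ∈ O, fld G'.F.toPre T' (φ x) = am2 R (S x) (fld G.F.toPre T x) ∧
      fld G.F.toPre T x = am2 (adjoint R) (trn (S x)) (fld G'.F.toPre T' (φ x)) := by
    intro x hx
    rcases fld_cases G.F.toPre T with k | k <;> rcases fld_cases G'.F.toPre T' with k' | k'
    · have e1 := congrFun (isFld_unique k' (isFld_push g hS h off' k)) (φ x)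
      have e2 := congrFun (isFld_unique k (back _ k')) x
      rw [Set.indicator_of_mem (g.inv.maps hx), g.inv.linv x hx] at e1
      rw [Set.indicator_of_mem hx, g.inv.linv x hx] at e2
      exact ⟨e1, e2⟩
    · exact absurd ⟨_, isFld_push g hS h off' k⟩ k'.1
    · exact absurd ⟨_, back _ k'⟩ k.1
    · simp [k.2, k'.2]
  exact ⟨fun x hx => (key x hx).1, fun x hx => by rw [adj_am2, ← (key x hx).1, ← (key x hx).2],
    fun x hx => fld_off fun w => off w x hx, fun y hy => fld_off fun w => off' w y hy⟩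

end fld

variable [SecondCountableTopology M] [SecondCountableTopology M'] {r : ℕ} {c : Cfg M ι lam r}
  {c' : Cfg M' ι' lam' r} {u : M → CL c.m.V c'.m.V}

theorem LM.it_am2 {K K' : Type} [NormedAddCommGroup K] [InnerProductSpace ℝ K] [CompleteSpace K]
    [NormedAddCommGroup K'] [InnerProductSpace ℝ K'] [CompleteSpace K'] {m : Md M ι lam}
    {m' : Md M' ι' lam'} {W : m.Cn} {W' : m'.Cn} {u : M → CL m.V m'.V}
    (h : LM B G B' G' O φ U v₁ W W' u) {R : K →L[ℝ] K'} (hR : ‖R‖ ≤ 1) :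
    IT G B' I' O φ U (aA K (m.adW W)) (aA K' (m'.adW W')) fun x => am2 R (cj (u x)) := by
  have t := h.it_ad
  refine ⟨⟨sm_aA t.mc.sm, fun a x => skew_amp (t.mc.sk a x)⟩,
    ⟨sm_aA t.mc'.sm, fun a x => skew_amp (t.mc'.sk a x)⟩,
    fun a y => by simp only [aA, ← map_smul, ← map_sum, t.pj],
    fun x hx => (am2 R).contMDiff.contMDiffAt.comp _ (t.sT x hx), fun x hx a => ?_,
    fun x hx => norm_am2 hR (p := cj (m.p x)) (ContinuousLinearMap.ext (h.tc hx)) ?_
      (ContinuousLinearMap.ext fun a => ?_)⟩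
  · rw [Sob92.dv_clm (am2 R) (t.sT x hx).md]
    refine ContinuousLinearMap.ext fun w => ext_ct fun k => ?_
    have := congrArg (fun L : _ →L[ℝ] _ => L (ct (adjoint R k) w)) (t.it x hx a)
    simpa only [pb, aA, ← map_smul, ← map_sum, add_apply, ContinuousLinearMap.comp_apply, map_add,
      ct_am2, ct_amp] using this
  · rw [show trn (cj (m.p x)) = _ from adj_cj _, trn_of_sym (h.ok.psym x)]
  · rw [mul_apply_eq_comp, cj_cj, show m.p x ∘L m.p x = _ from h.ok.pidem x]

section cyc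
variable (h : LM B G B' G' O φ U v₁ c.W c'.W u) (g : KC B G B' G' O O' φ ψ U v)
  {R : KK G.F.toPre (Fin c.m.N × Fin c.m.N) →L[ℝ] KK G'.F.toPre (Fin c'.m.N × Fin c'.m.N)}
include h

theorem LM.rr_key (hx : x ∈ O) {a : Vc G.F c}
    (ha : adjoint (am2 R (cj (u x))) (am2 R (cj (u x)) a) = a) (ξ : c'.m.A) :
    adjoint (am2 R (cj (u x))) (rr G'.F c' ξ (am2 R (cj (u x)) a))
      = rr G.F c (cj (trn (u x)) ξ) a := by
  refine ext_ct fun k => ?_
  have e : ∀ k, cj (c.m.p x) (ct (adjoint R (R k)) a) = ct k a := fun k => by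
    rw [← congrArg (ct k) ha, adj_am2, ct_am2, ct_am2, ContinuousLinearMap.adjoint_adjoint, h.tc hx]
  have e1 : ∀ k, cj (c.m.p x) (ct k a) = ct k a := fun k => by
    rw [← e k, cj_cj, show c.m.p x ∘L c.m.p x = _ from h.ok.pidem x]
  simp only [adj_am2, Cyc79.rr, ContinuousLinearMap.comp_apply, ct_am2, ct_amp, adR_apply,
    ContinuousLinearMap.adjoint_adjoint]
  rw [show trn (cj (u x)) = _ from adj_cj _, h.rr_ad hx (e1 _), ← e1, e]

theorem LM.rr_rr : RR O (fun x => am2 R (cj (u x))) (fun x => cj (u x)) (rr G.F c) (rr G'.F c') :=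
  fun x hx a b ha => ext_inner_right ℝ fun ξ => by
    rw [inner_tp, inner_cj, inner_tp, ← h.rr_key hx ha, ContinuousLinearMap.adjoint_inner_right]

theorem LM.rs_adl {l : M → c.m.A} {l' : M' → c'.m.A} (hl : RS O O' φ (fun x => cj (u x)) l l')
    {s : M → Vc G.F c} {s' : M' → Vc G'.F c'} (hs : RS O O' φ (fun x => am2 R (cj (u x))) s s') :
    RS O O' φ (fun x => am2 R (cj (u x))) (adl G.F c l s) (adl G'.F c' l' s') := by
  have e : ∀ x ∈ O, ∀ a, rr G'.F c' (c'.m.pg (φ x) (l' (φ x))) (am2 R (cj (u x)) a)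
      = am2 R (cj (u x)) (rr G.F c (c.m.pg x (l x)) a) := fun x hx a => ext_ct fun k => by
    simp only [Cyc79.rr, ContinuousLinearMap.comp_apply, ct_am2, ct_amp, adR_apply, hl.rel x hx,
      (h.me x hx).pg (h.be x hx) h.hB h.hB' h.ok h.ok', Wz78.adc_apply, cj_hsL, opL_cj]
    congr 1
    ext1 w
    have p1 : ∀ w, c.m.p x (opL (c.m.pg x (l x)) w) = opL (c.m.pg x (l x)) w := fun w => by
      rw [← mul_apply_eq_comp, (pg_mem x _).2.1]
    have p2 : ∀ w, opL (c.m.pg x (l x)) (c.m.p x w) = opL (c.m.pg x (l x)) w := fun w =>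
      ext_inner_left ℝ fun z => by
        have s1 := (pg_mem (m := c.m) x (l x)).1
        rw [← neg_inj, ← s1, ← h.ok.psym, p1, s1]
    simp only [ContinuousLinearMap.comp_apply, sub_apply, mul_apply_eq_comp, map_sub, h.tu hx, p1,
      p2]
  refine hs.op (S := fun x => rr G.F c (c.m.pg x (l x)))
    (S' := fun y => rr G'.F c' (c'.m.pg y (l' y))) e fun x hx a ha => ?_
  rw [← e x hx, h.rr_key hx ha, hl.rel x hx, (h.me x hx).pg (h.be x hx) h.hB h.hB' h.ok h.ok',
    (h.me x hx).trn_cj (pg_mem x _)]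

omit h in
theorem slr_laV {V V' : Type} [NormedAddCommGroup V] [InnerProductSpace ℝ V] [CompleteSpace V]
    [NormedAddCommGroup V'] [InnerProductSpace ℝ V'] [CompleteSpace V'] {T : M → CL V V'}
    {w : List (La M)} {w' : List (La M')} (hw : List.Forall₂ (LaR O φ) w w') :
    List.Forall₂ (SLR O O' φ T) (w.map (laV V)) (w'.map (laV V')) := by
  rw [List.forall₂_map_left_iff, List.forall₂_map_right_iff]
  refine hw.imp fun _ _ k => ?_
  cases k with
  | mul hf => exact slr_mul hf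
  | G => trivial

include g

/-- the word `f G e pg` -/
theorem LM.xw_rel {f e : M → ℝ} {f' e' : M' → ℝ} (hf : FR O φ f f') (he : FR O φ e e')
    (o : ∀ x ∉ O, e x = 0) (o' : ∀ y ∉ O', e' y = 0) {w : M → c.m.A} {w' : M' → c'.m.A}
    (hw : ∀ x ∈ O, c'.m.pg (φ x) (w' (φ x)) = cj (u x) (c.m.pg x (w x))) :
    RS O O' φ (fun x => cj (u x)) (wd (c.la G.F) (fun y => c.m.pg y (w y)) (xw f e))
      (wd (c'.la G'.F) (fun y => c'.m.pg y (w' y)) (xw f' e')) :=
  RS.smul ((h.epA g.inv).res g (s := fun x => e x • c.m.pg x (w x))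
    (s' := fun y => e' y • c'.m.pg y (w' y)) ⟨fun x hx => by rw [hw x hx, map_smul, ← he hx]; rfl,
    fun x hx => (h.tc hx _).trans (ME.cj_p (Submodule.smul_mem _ _ (pg_mem x _))),
    fun x hx => by rw [o x hx, zero_smul], fun x hx => by rw [o' x hx, zero_smul]⟩) hf

theorem LM.exists_R : ∃ R : KK G.F.toPre (Fin c.m.N × Fin c.m.N) →L[ℝ]
      KK G'.F.toPre (Fin c'.m.N × Fin c'.m.N), ‖R‖ ≤ 1 ∧
    ∀ ⦃f e : M → ℝ⦄ ⦃f' e' : M' → ℝ⦄, FR O φ f f' → FR O φ e e' → (∀ x ∉ O, e x = 0) →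
      (∀ y ∉ O', e' y = 0) →
      RS O O' φ (fun x => am2 R (cj (u x))) (bf G.F c f e) (bf G'.F c' f' e') := by
  have k := h.symm g.inv
  obtain ⟨R, h1, h2⟩ := exists_psh g h.it_ad.sT h.it_ad.nT
  obtain ⟨Q, h3, -⟩ := exists_psh g.symm k.it_ad.sT k.it_ad.nT
  have hQ : adjoint R = Q := Pre.clm_ext fun w' => ext_inner_left ℝ fun a => by
    have := Pre.clm_ext (A := innerSL ℝ (G'.F.toH 0 _ w') ∘L R)
      (B := innerSL ℝ (Q (G'.F.toH 0 _ w'))) fun w => by
        simp only [ContinuousLinearMap.comp_apply, innerSL_apply_apply, h1, h3, Pre.inner_toH]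
        rw [Pre.ip_comm, ip_psh, ip_psh, g.toKG.integral]
        refine setIntegral_congr_fun g.rot.opn.measurableSet fun x hx => ?_
        simp only [g.inv.linv x hx]
        rw [inner_cj, real_inner_comm]
    rw [ContinuousLinearMap.adjoint_inner_right, real_inner_comm, real_inner_comm _ a]
    exact congrArg (fun L : _ →L[ℝ] ℝ => L a) this
  refine ⟨R, h2, fun f e f' e' hf he o o' => ?_⟩
  have pg := fun x hx => (h.me x hx).pg (h.be x hx) h.hB h.hB' h.ok h.ok'
  have z := fun w w' => h.xw_rel g hf he o o' (w := w) (w' := w')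
  refine rs_fld g h.it_ad.sT (fun w' => ⟨_, hQ ▸ h3 w', (z _ _ fun x hx => ?_).rel⟩)
    (fun w => ⟨_, h1 w, fun x hx => ?_⟩) (fun w x hx => ?_) fun w y hy => ?_
  · have := psh_φ g.symm k.it_ad.sT w' (g.inv.maps hx)
    rw [g.inv.linv x hx] at this
    rw [this, ← pg x hx, cj_cj, (h.me x hx).uu', (ME.refl h.ok' _).pg (BE.refl h.hB' _) h.hB' h.hB'
      h.ok' h.ok', ME.cj_p (pg_mem _ _)]
  · have := z w.1 (psh g h.it_ad.sT w).1 fun x hx => by rw [psh_φ g _ w hx, pg x hx]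
    rw [this.rel x hx]
    exact (this.p x hx).symm
  · exact congrArg (f x • ·) (res_off g.clopen g.bu (mc_adW h.cn) (fun x hx => by
      simp [Cfg.la, o x hx]) hx) |>.trans (smul_zero _)
  · exact congrArg (f' y • ·) (res_off g.clopen' g.bu' (mc_adW h.cn') (fun x hx => by
      simp [Cfg.la, o' x hx]) hy) |>.trans (smul_zero _)

end cyc

variable (O O' φ) in
/-- related data of seeds -/
structure CyR (d : Cy M) (d' : Cy M') : Prop where
  f : FR O φ d.f d'.f
  f' : FR O φ d.f' d'.f'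
  o : ∀ x ∉ O, d.f x = 0 ∧ d.f' x = 0
  o' : ∀ y ∉ O', d'.f y = 0 ∧ d'.f' y = 0
  w : List.Forall₂ (LaR O φ) d.w d'.w
  w' : List.Forall₂ (LaR O φ) d.w' d'.w'

theorem laR_xw {f e : M → ℝ} {f' e' : M' → ℝ} (hf : FR O φ f f') (he : FR O φ e e') :
    List.Forall₂ (LaR O φ) (xw f e) (xw f' e') := .cons (.mul hf) (.cons .G (.cons (.mul he) .nil))

/-- **the seeds of `Cyc79` are natural** -/
theorem LM.cy_sed (h : LM B G B' G' O φ U v₁ c.W c'.W u) (g : KC B G B' G' O O' φ ψ U v)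
    {d : Cy M} {d' : Cy M'} (k : CyR O O' φ d d') : SeR O O' φ U u (d.sed G.F) (d'.sed G'.F) := by
  obtain ⟨R, hR, hb⟩ := h.exists_R g
  have e : EP B G B' G' O O' φ ψ U (AA G.F c) (AA G'.F c') fun x => am2 R (cj (u x)) :=
    ⟨h.it_am2 hR, by
      simp only [adj_am2, show ∀ y, trn (cj (u (ψ y))) = _ from fun _ => adj_cj _]
      exact (h.symm g.inv).it_am2 (R := adjoint R) (by rwa [LinearIsometryEquiv.norm_map])⟩
  have b1 := hb k.f' k.f (fun x hx => (k.o x hx).1) fun x hx => (k.o' x hx).1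
  have b2 := hb k.f k.f' (fun x hx => (k.o x hx).2) fun x hx => (k.o' x hx).2
  have x1 := laR_xw k.f k.f'
  have gh : ∀ {w z w' z' l l'}, List.Forall₂ (LaR O φ) w w' → List.Forall₂ (LaR O φ) z z' →
      RS O O' φ (fun x => cj (u x)) l l' → R1 O φ U (fun x => cj (u x))
        (gh G.F c d.f d.f' w z (adl G.F c l)) (gh G'.F c' d'.f d'.f' w' z' (adl G'.F c' l')) :=
    fun hw hz hl => (e.gc g h.rr_rr (slr_laV (List.rel_append hw x1)) b1
      (h.rs_adl hl (e.wd g (slr_laV (List.rel_append hz x1)) b1))).add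
      (e.gc g h.rr_rr (slr_laV (laR_xw k.f' k.f)) b2 (e.bk g (slr_laV (List.rel_append hw x1))
        (h.rs_adl hl (e.wd g (slr_laV hz) b2))))
  have al := e.wd g (slr_laV (List.rel_append k.w x1)) b1
  have be := e.wd g (slr_laV (List.rel_append k.w' x1)) b1
  refine ⟨h.rs_pg (fun x hx => ?_) (fun x hx => ?_) fun x hx => ?_,
    fun _ _ hl => (gh k.w' k.w hl).sub (gh k.w k.w' hl), fun _ _ _ => RS.zero⟩
  · exact (congrArg₂ _ (al.rel x hx) (be.rel x hx)).trans (h.rr_rr x hx _ _ (al.p x hx))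
  · exact (congrArg _ (be.off x hx)).trans (map_zero _)
  · exact (congrArg _ (be.off' x hx)).trans (map_zero _)

end Crest.Agent.X212.Eqv71
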