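import Crest.Agent.X212.Eqv71.Gau

/-! The groupoid structure of `Rot`, `LG`, `LM`, `GEq`, `CEq`; `Cfg.Iso` is an equivalence. -/

set_option autoImplicit false
set_option linter.unusedSectionVars false

open scoped Manifold ContDiff Topology InnerProductSpace
open Finset Filter MeasureTheory

noncomputable section
namespace Crest.Agent.X212.Eqv71
open An Wz78 Sob92

section rot
variable {E H : Type*} [NormedAddCommGroup E] [NormedSpace ℝ E] [TopologicalSpace H]
  {I : ModelWithCorners ℝ E H} {M : Type*} [TopologicalSpace M] [ChartedSpace H M]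
  {E' H' : Type*} [NormedAddCommGroup E'] [NormedSpace ℝ E'] [TopologicalSpace H']
  {I' : ModelWithCorners ℝ E' H'} {M' : Type*} [TopologicalSpace M'] [ChartedSpace H' M']
  {E'' H'' : Type*} [NormedAddCommGroup E''] [NormedSpace ℝ E''] [TopologicalSpace H'']
  {I'' : ModelWithCorners ℝ E'' H''} {M'' : Type*} [TopologicalSpace M''] [ChartedSpace H'' M'']
  {V V' V'' : Type*} [NormedAddCommGroup V] [NormedSpace ℝ V] [NormedAddCommGroup V']
  [NormedSpace ℝ V'] [NormedAddCommGroup V''] [NormedSpace ℝ V'']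
  {ι ι' ι'' : Type*} [Fintype ι] [Fintype ι'] [Fintype ι''] [IsManifold I 1 M] [IsManifold I' 1 M']
  [IsManifold I'' 1 M'']
  {φ : M → M'} {ψ : M' → M} {φ' : M' → M''} {O : Set M} {O' : Set M'}
  {e : ι → (x : M) → TangentSpace I x} {P : ι → ι → M → ℝ}
  {e' : ι' → (y : M') → TangentSpace I' y} {P' : ι' → ι' → M' → ℝ}
  {e'' : ι'' → (y : M'') → TangentSpace I'' y} {P'' : ι'' → ι'' → M'' → ℝ}
  {U : ι' → ι → M → ℝ} {U' : ι'' → ι' → M' → ℝ} {c : ι → ι → ι → M → ℝ} {c' : ι' → ι' → ι' → M' → ℝ}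
  {x : M}

variable (I I') in
/-- `ψ` is a smooth inverse of `φ : O → O'` -/
structure Inv (φ : M → M') (ψ : M' → M) (O : Set M) (O' : Set M') : Prop where
  opn' : IsOpen O'
  maps : Set.MapsTo φ O O'
  maps' : Set.MapsTo ψ O' O
  linv : ∀ x ∈ O, ψ (φ x) = x
  rinv : ∀ y ∈ O', φ (ψ y) = y
  sψ : ∀ y ∈ O', ContMDiffAt I' I ∞ ψ y

theorem Inv.surj (h : Inv I I' φ ψ O O') {y : M'} (hy : y ∈ O') : ∃ x ∈ O, φ x = y :=
  ⟨ψ y, h.maps' hy, h.rinv y hy⟩

theorem Inv.sa (h : Inv I I' φ ψ O O') {y : M'} (hy : y ∈ O') {f : M → V} (hf : SA I f (ψ y)) :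
    SA I' (fun y => f (ψ y)) y := hf.comp y (h.sψ y hy)

theorem Rot.inv (R : Rot I I' φ O e P e' P' U) (h : Inv I I' φ ψ O O') : Inv I' I ψ φ O' O :=
  ⟨R.opn, h.maps', h.maps, h.rinv, h.linv, R.sφ⟩

theorem Rot.symm (R : Rot I I' φ O e P e' P' U) (F : Frm I e P c) (h : Inv I I' φ ψ O O') :
    Rot I' I ψ O' e' P' e P fun a b y => U b a (ψ y) where
  opn := h.opn'
  sφ := h.sψ
  sU a b y hy := (R.sU b a _ (h.maps' hy)).comp y (h.sψ y hy)
  fr a y hy := by
    obtain ⟨x, hx, rfl⟩ := h.surj hy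
    have h1 : (e a (ψ (φ x)) : E) = e a x := by rw [h.linv x hx]
    have h2 : mfderiv I I (ψ ∘ φ) x = mfderiv I I id x :=
      Filter.EventuallyEq.mfderiv_eq ((R.ev hx).mono fun y hy => h.linv y hy)
    rw [mfderiv_comp x ((h.sψ _ hy).mdifferentiableAt (by simp)) (R.md hx), mfderiv_id] at h2
    have h3 : (mfderiv I' I ψ (φ x) (mfderiv I I' φ x (e a x)) : E) = e a x :=
      congrArg (fun T : E →L[ℝ] E => T (e a x)) h2
    rw [R.fr' F hx a, map_sum] at h3
    refine h1.trans (h3.symm.trans (sum_congr rfl fun b _ => ?_))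
    rw [map_smul, h.linv x hx]
  UU b b' y hy := by rw [R.UU' b b' _ (h.maps' hy), h.rinv y hy]
  UU' a a' y hy := R.UU a a' _ (h.maps' hy)

theorem Rot.trans (R : Rot I I' φ O e P e' P' U) (R' : Rot I' I'' φ' O' e' P' e'' P'' U')
    (F' : Frm I' e' P' c') (h : Set.MapsTo φ O O') :
    Rot I I'' (φ' ∘ φ) O e P e'' P'' fun d a x => ∑ b, U' d b (φ x) * U b a x where
  opn := R.opn
  sφ x hx := (R'.sφ _ (h hx)).comp x (R.sφ x hx)
  sU d a x hx := SA.sum _ fun b _ => SA.mul (R.sa_comp hx (R'.sU d b _ (h hx))) (R.sU b a x hx)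
  fr d x hx := by
    have h1 := R'.fr d _ (h hx)
    simp only [R.fr _ x hx, map_sum, map_smul, smul_sum, smul_smul] at h1
    rw [mfderiv_comp x (R'.md (h hx)) (R.md hx)]
    refine h1.trans ?_
    rw [sum_comm]
    exact sum_congr rfl fun a _ => by rw [sum_smul]; rfl
  UU a a' x hx := by
    simp only [sum_mul_sum]
    rw [sum_comm, ← R.UU a a' x hx]
    refine sum_congr rfl fun b _ => ?_
    rw [sum_comm, ← R.PU F' hx b a', mul_sum]
    refine sum_congr rfl fun b' _ => ?_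
    rw [← R'.UU b' b _ (h hx), mul_sum, mul_sum]
    exact sum_congr rfl fun c _ => by ring
  UU' d d' x hx := by
    simp only [sum_mul_sum]
    rw [sum_comm, Function.comp_apply, ← R'.UU' d d' _ (h hx)]
    refine sum_congr rfl fun b _ => ?_
    rw [sum_comm, ← R'.UP F' (h hx) d' b, mul_sum]
    refine sum_congr rfl fun b' _ => ?_
    rw [← R.UU' b' b x hx, mul_sum, mul_sum]
    exact sum_congr rfl fun a _ => by ring

variable {A : ι → M → V →L[ℝ] V} {A' : ι' → M' → V' →L[ℝ] V'} {A'' : ι'' → M'' → V'' →L[ℝ] V''}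

theorem Rot.itw_symm (R : Rot I I' φ O e P e' P' U) (h : Inv I I' φ ψ O O') {y : M'} (hy : y ∈ O')
    {T : M → V' →L[ℝ] V} (hT : SA I T (ψ y)) (hA : Pj P' A' y)
    (hi : Itw I e (pb φ U A') A T (ψ y)) :
    Itw I' e' A' (pb ψ (fun a b y => U b a (ψ y)) A) (fun y => T (ψ y)) y := fun b => by
  obtain ⟨x, hx, rfl⟩ := h.surj hy
  have hs : SA I' (fun y => T (ψ y)) (φ x) := hT.comp _ (h.sψ _ hy)
  rw [R.D'_of hx b hs.md ((R.ev hx).mono fun z hz => by rw [h.linv z hz]), R.of_pb hx hA b]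
  rw [h.linv x hx] at hi
  simp only [pb, h.linv x hx, ContinuousLinearMap.finsetSum_comp, ContinuousLinearMap.smul_comp,
    ← sum_add_distrib, ← smul_add]
  rw [ContinuousLinearMap.comp_finsetSum]
  exact sum_congr rfl fun a _ => by rw [hi a, ContinuousLinearMap.comp_smul]; rfl

theorem Rot.itw_trans (R : Rot I I' φ O e P e' P' U) (F : Frm I e P c) (hx : x ∈ O)
    {T : M → V →L[ℝ] V'} {T' : M' → V' →L[ℝ] V''} (hT : SA I T x) (hT' : SA I' T' (φ x))
    (hi : Itw I e A (pb φ U A') T x) (hi' : Itw I' e' A' (pb φ' U' A'') T' (φ x)) :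
    Itw I e A (pb (φ' ∘ φ) (fun d a x => ∑ b, U' d b (φ x) * U b a x) A'')
      (fun x => T' (φ x) ∘L T x) x := fun a => by
  have h1 : dv I (e a) (fun x => T' (φ x) ∘L T x) x
      = dv I (e a) (fun x => T' (φ x)) x ∘L T x + T' (φ x) ∘L dv I (e a) T x :=
    dv_bil (ContinuousLinearMap.compL ℝ V V' V'') (R.sa_comp hx hT').md hT.md
  have h2 : pb (φ' ∘ φ) (fun d a x => ∑ b, U' d b (φ x) * U b a x) A'' a x
      = ∑ b, U b a x • pb φ' U' A'' b (φ x) := by
    simp only [pb, sum_smul, smul_sum, smul_smul, Function.comp_apply]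
    rw [sum_comm]
    simp only [mul_comm]
  have h3 : dv I (e a) (fun x => T' (φ x)) x + (∑ b, U b a x • pb φ' U' A'' b (φ x)) ∘L T' (φ x)
      = T' (φ x) ∘L pb φ U A' a x := by
    rw [R.D F hx a hT'.md, ContinuousLinearMap.finsetSum_comp, ← sum_add_distrib, pb,
      ContinuousLinearMap.comp_finsetSum]
    exact sum_congr rfl fun b _ => by
      rw [ContinuousLinearMap.smul_comp, ← smul_add, hi' b, ContinuousLinearMap.comp_smul]
  rw [h1, h2, ContinuousLinearMap.comp_assoc, ← hi a, ContinuousLinearMap.comp_add,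
    ← ContinuousLinearMap.comp_assoc (T' (φ x)), ← h3, ContinuousLinearMap.add_comp,
    ContinuousLinearMap.comp_assoc]
  abel

theorem inv_refl (hO : IsOpen O) : Inv I I id id O O :=
  ⟨hO, fun _ h => h, fun _ h => h, fun _ _ => rfl, fun _ _ => rfl, fun _ _ => contMDiffAt_id⟩

end rot

variable {E : Type} [NormedAddCommGroup E] [NormedSpace ℝ E] [FiniteDimensional ℝ E]
  [MeasurableSpace E] [BorelSpace E]
  {HM : Type} [TopologicalSpace HM] {I : ModelWithCorners ℝ E HM}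
  {M : Type} [TopologicalSpace M] [ChartedSpace HM M] [IsManifold I ∞ M]
  [MeasurableSpace M] {ι : Type} [Fintype ι] {lam : Type} [Fintype lam]
  {E' : Type} [NormedAddCommGroup E'] [NormedSpace ℝ E'] [FiniteDimensional ℝ E']
  [MeasurableSpace E'] [BorelSpace E']
  {HM' : Type} [TopologicalSpace HM'] {I' : ModelWithCorners ℝ E' HM'}
  {M' : Type} [TopologicalSpace M'] [ChartedSpace HM' M'] [IsManifold I' ∞ M']
  [MeasurableSpace M'] {ι' : Type} [Fintype ι'] {lam' : Type} [Fintype lam']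
  {E'' : Type} [NormedAddCommGroup E''] [NormedSpace ℝ E''] [FiniteDimensional ℝ E'']
  [MeasurableSpace E''] [BorelSpace E'']
  {HM'' : Type} [TopologicalSpace HM''] {I'' : ModelWithCorners ℝ E'' HM''}
  {M'' : Type} [TopologicalSpace M''] [ChartedSpace HM'' M''] [IsManifold I'' ∞ M'']
  [MeasurableSpace M''] {ι'' : Type} [Fintype ι''] {lam'' : Type} [Fintype lam'']
  {B : Base M ι lam} {G : Geo I M ι lam} {B' : Base M' ι' lam'} {G' : Geo I' M' ι' lam'}
  {B'' : Base M'' ι'' lam''} {G'' : Geo I'' M'' ι'' lam''}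
  {O : Set M} {O' : Set M'} {ψ : M' → M} {φ' : M' → M''}
  {U : M → ι' → ι → ℝ} {v : M → CL (Eu lam) (Eu lam')}
  {U' : M' → ι'' → ι' → ℝ} {v' : M' → CL (Eu lam') (Eu lam'')} {x : M}

section fn
variable {φ : M → M'}

theorem LG.symm (g : LG B G B' G' O φ U v) (h : Inv I I' φ ψ O O') :
    LG B' G' B G O' ψ (fun y a b => U (ψ y) b a) fun y => trn (v (ψ y)) where
  hB := g.hB'
  hG := g.hG'
  hB' := g.hB
  hG' := g.hG
  rot := g.rot.symm (geo_frm g.hG) h
  be y hy := by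
    have := (g.be _ (h.maps' hy)).symm g.hB g.hB'
    rwa [h.rinv y hy] at this
  sv y hy := h.sa hy (f := fun x => trn (v x)) (sa_trn (g.sv _ (h.maps' hy)))
  par y hy := g.rot.itw_symm h hy (T := fun x => trn (v x)) (A := G.a) (A' := G'.a)
    (sa_trn (g.sv _ (h.maps' hy))) (fun a => g.hG'.con.proj a y)
    ((g.par _ (h.maps' hy)).trn (g.sv _ (h.maps' hy)) (fun a => g.hG.sk a _)
      fun _ => skw_sum _ fun b => g.hG'.sk b _)

theorem LG.trans (g : LG B G B' G' O φ U v) (g' : LG B' G' B'' G'' O' φ' U' v')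
    (h : Set.MapsTo φ O O') : LG B G B'' G'' O (φ' ∘ φ)
      (fun x d a => ∑ b, U' (φ x) d b * U x b a) fun x => v' (φ x) ∘L v x where
  hB := g.hB
  hG := g.hG
  hB' := g'.hB'
  hG' := g'.hG'
  rot := g.rot.trans g'.rot (geo_frm g.hG') h
  be x hx := (g.be x hx).trans (g'.be _ (h hx)) g.hB g.hB'
  sv x hx := sa_comp (f := fun x => v' (φ x)) (g.rot.sa_comp hx (g'.sv _ (h hx))) (g.sv x hx)
  par x hx := g.rot.itw_trans (T := v) (T' := v') (A := G.a) (A' := G'.a) (A'' := G''.a) (φ' := φ')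
    (U' := fun b a x => U' x b a) (geo_frm g.hG) hx (g.sv x hx) (g'.sv _ (h hx)) (g.par x hx)
    (g'.par _ (h hx))

variable {m : Md M ι lam} {m' : Md M' ι' lam'} {m'' : Md M'' ι'' lam''} {u : M → CL m.V m'.V}
  {u' : M' → CL m'.V m''.V} {W : m.Cn} {W' : m'.Cn} {W'' : m''.Cn}

theorem LM.symm (g : LM B G B' G' O φ U v W W' u) (h : Inv I I' φ ψ O O') :
    LM B' G' B G O' ψ (fun y a b => U (ψ y) b a) (fun y => trn (v (ψ y))) W' W
      fun y => trn (u (ψ y)) where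
  toLG := g.toLG.symm h
  ok := g.ok'
  ok' := g.ok
  cn := g.cn'
  cn' := g.cn
  su y hy := h.sa hy (f := fun x => trn (u x)) (sa_trn (g.su _ (h.maps' hy)))
  me y hy := by
    have := (g.me _ (h.maps' hy)).symm (g.be _ (h.maps' hy)) g.ok g.ok'
    rwa [h.rinv y hy] at this
  itw y hy := g.rot.itw_symm h hy (T := fun x => trn (u x)) (A := W) (A' := W')
    (sa_trn (g.su _ (h.maps' hy))) (fun a => g.cn'.cc.proj a y)
    ((g.itw _ (h.maps' hy)).trn (g.su _ (h.maps' hy)) (fun a => g.cn.sk a _)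
      fun _ => skw_sum _ fun b => g.cn'.sk b _)

theorem LM.trans (g : LM B G B' G' O φ U v W W' u) (g' : LM B' G' B'' G'' O' φ' U' v' W' W'' u')
    (h : Set.MapsTo φ O O') : LM B G B'' G'' O (φ' ∘ φ)
      (fun x d a => ∑ b, U' (φ x) d b * U x b a) (fun x => v' (φ x) ∘L v x) W W''
      fun x => u' (φ x) ∘L u x where
  toLG := g.toLG.trans g'.toLG h
  ok := g.ok
  ok' := g'.ok'
  cn := g.cn
  cn' := g'.cn'
  su x hx := sa_comp (f := fun x => u' (φ x)) (g.rot.sa_comp hx (g'.su _ (h hx))) (g.su x hx)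
  me x hx := (g.me x hx).trans (g'.me _ (h hx)) g.ok g.ok'
  itw x hx := g.rot.itw_trans (T := u) (T' := u') (A := W) (A' := W') (A'' := W'') (φ' := φ')
    (U' := fun b a x => U' x b a) (geo_frm g.hG) hx (g.su x hx) (g'.su _ (h hx)) (g.itw x hx)
    (g'.itw _ (h hx))

theorem lm_refl (hB : B.OK I) (hG : G.OK B) (ok : m.OK I B) (cn : m.IsConn B G W) (hO : IsOpen O) :
    LM B G B G O id (fun x b a => B.P b a x) B.l W W m.p where
  toLG := lg_refl hB hG hO
  ok := ok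
  ok' := ok
  cn := cn
  cn' := cn
  su x _ := ok.sp x
  me x _ := ME.refl ok x
  itw x _ a := by
    have : pb id (fun b a x => B.P b a x) W a x = W a x := by
      rw [← cn.cc.proj a x]
      exact sum_congr rfl fun b _ => by rw [(hB.pr x).symm a b]; rfl
    rw [this, ← sub_eq_zero, add_sub_assoc]
    exact cn.cc.par a x

theorem LM.meq (g : LM B G B' G' O φ U v W W' u) : MEq I m m' O φ U v u :=
  ⟨fun x hx => (g.su x hx).contMDiffWithinAt, fun x hx => (g.me x hx).uu,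
    fun x hx => (g.me x hx).uu', fun x hx => (g.me x hx).J, fun x hx => (g.me x hx).ρ,
    fun x hx => (g.me x hx).j⟩

theorem LM.parr (g : LM B G B' G' O φ U v W W' u) : Par G.F W W' O φ U u := par_of_itw g.itw

/-! ### configurations -/

theorem p_om (h : m.OK I B) (x : M) : m.p x * m.om B x = m.om B x := by
  simp only [Md.om, mul_smul_comm, mul_sum, ← mul_assoc, (h.cl x).pl]

theorem p_pp (h : m.OK I B) (x : M) (a : m.V) : m.p x (m.pp B x a) = m.pp B x a := by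
  rw [← mul_apply_eq_comp, Md.pp, mul_smul_comm, mul_sub, h.pidem, p_om h]

theorem p_pm (h : m.OK I B) (x : M) (a : m.V) : m.p x (m.pm B x a) = m.pm B x a := by
  rw [← mul_apply_eq_comp, Md.pm, mul_smul_comm, mul_add, h.pidem, p_om h]

variable {r : ℕ} {c : Cfg M ι lam r} {c' : Cfg M' ι' lam' r} {c'' : Cfg M'' ι'' lam'' r}
  {ζ ζ' : Circle}

/-- admissible up to the condition on `z` -/
structure Ad0 (c : Cfg M ι lam r) (B : Base M ι lam) (G : Geo I M ι lam) : Prop where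
  ok : c.m.OK I B
  conn : c.m.IsConn B G c.W
  sm : Sm I c.Φ
  pos : ∀ x, c.m.pp B x (c.Φ x) = c.Φ x

theorem ad0 (h : c.Adm B G) : Ad0 c B G := ⟨h.ok, h.conn, h.sm, h.pos⟩

instance : Coe (c.Adm B G) (Ad0 c B G) := ⟨ad0⟩

theorem p_Φ (h : Ad0 c B G) (x : M) : c.m.p x (c.Φ x) = c.Φ x := by
  rw [← h.pos x, p_pp h.ok]

theorem LG.of_ceq (g : LG B G B' G' O φ U v) (h : Ad0 c B G) (h' : Ad0 c' B' G')
    {u : M → CL c.m.V c'.m.V} (e : CEq G.F c c' O φ U v u ζ) : LM B G B' G' O φ U v c.W c'.W u :=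
  g.lm h.ok h'.ok h.conn h'.conn e.m e.W

theorem ceq_refl (hB : B.OK I) (hG : G.OK B) (h : Ad0 c B G) (hO : IsOpen O) :
    CEq G.F c c O id (fun x b a => B.P b a x) B.l c.m.p 1 :=
  ⟨(lm_refl hB hG h.ok h.conn hO).meq, (lm_refl hB hG h.ok h.conn hO).parr,
    fun x _ => by rw [Circle.coe_one, cs_one, p_Φ h]; rfl, by simp⟩

theorem ceq_symm (g : LG B G B' G' O φ U v) (i : Inv I I' φ ψ O O') (h : Ad0 c B G)
    (h' : Ad0 c' B' G') {u : M → CL c.m.V c'.m.V} (e : CEq G.F c c' O φ U v u ζ) :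
    CEq G'.F c' c O' ψ (fun y a b => U (ψ y) b a) (fun y => trn (v (ψ y)))
      (fun y => trn (u (ψ y))) ζ⁻¹ := by
  have k := g.of_ceq h h' e
  refine ⟨(k.symm i).meq, (k.symm i).parr, fun y hy => ?_, ?_⟩
  · have hx := i.maps' hy
    have h1 := e.Φ _ hx
    rw [i.rinv y hy] at h1
    have h2 : ∀ a, trn (u (ψ y)) (u (ψ y) a) = c.m.p (ψ y) a := fun a =>
      congrArg (fun T : En _ => T a) (k.me _ hx).uu
    rw [h1, (k.me _ hx).cs, h2, map_cs (h.ok.Jp _).symm, p_Φ h, cs_mul h.ok.Jsq]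
    simp
  · rw [e.z, smul_smul]; simp

theorem ceq_trans (g : LG B G B' G' O φ U v) (g' : LG B' G' B'' G'' O' φ' U' v')
    (i : Set.MapsTo φ O O') (h : Ad0 c B G) (h' : Ad0 c' B' G') (h'' : Ad0 c'' B'' G'')
    {u : M → CL c.m.V c'.m.V} {u' : M' → CL c'.m.V c''.m.V} (e : CEq G.F c c' O φ U v u ζ)
    (e' : CEq G'.F c' c'' O' φ' U' v' u' ζ') :
    CEq G.F c c'' O (φ' ∘ φ) (fun x d a => ∑ b, U' (φ x) d b * U x b a)
      (fun x => v' (φ x) ∘L v x) (fun x => u' (φ x) ∘L u x) (ζ' * ζ) := by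
  have k := g.of_ceq h h' e
  have k' := g'.of_ceq h' h'' e'
  refine ⟨(k.trans k' i).meq, (k.trans k' i).parr, fun x hx => ?_, ?_⟩
  · rw [Function.comp_apply, e'.Φ _ (i hx), e.Φ x hx, ← (k'.me _ (i hx)).cs, cs_mul h''.ok.Jsq]
    rfl
  · rw [e'.z, e.z, smul_smul, Circle.coe_mul, mul_pow]

/-- isomorphism of configurations over `O` -/
def IsoOn (B : Base M ι lam) (F : Fr I M ι) (O : Set M) (c c' : Cfg M ι lam r) : Prop :=
  ∃ u ζ, CEq F c c' O id (fun x b a => B.P b a x) B.l u ζ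

theorem isoOn_univ {F : Fr I M ι} {c' : Cfg M ι lam r} :
    IsoOn B F Set.univ c c' ↔ Cfg.Iso B F c c' := Iff.rfl

theorem ceq_symm_id (hB : B.OK I) (hG : G.OK B) (hO : IsOpen O) {c' : Cfg M ι lam r}
    (h : Ad0 c B G) (h' : Ad0 c' B G) {u : M → CL c.m.V c'.m.V}
    (e : CEq G.F c c' O id (fun x b a => B.P b a x) B.l u ζ) :
    CEq G.F c' c O id (fun x b a => B.P b a x) B.l (fun x => trn (u x)) ζ⁻¹ := by
  have := ceq_symm (lg_refl hB hG hO) (inv_refl hO) h h' e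
  have h1 : (fun y a b => B.P b a (id y)) = fun x b a => B.P b a x :=
    funext fun y => funext fun a => funext fun b => (hB.pr y).symm b a
  have h2 : (fun y => trn (B.l (id y))) = B.l := funext fun y => trn_of_sym (hB.lsym y)
  rw [h1, h2] at this
  exact this

theorem ceq_trans_id (hB : B.OK I) (hG : G.OK B) (hO : IsOpen O) {c' c'' : Cfg M ι lam r}
    (h : Ad0 c B G) (h' : Ad0 c' B G) (h'' : Ad0 c'' B G) {u : M → CL c.m.V c'.m.V}
    {u' : M → CL c'.m.V c''.m.V} (e : CEq G.F c c' O id (fun x b a => B.P b a x) B.l u ζ)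
    (e' : CEq G.F c' c'' O id (fun x b a => B.P b a x) B.l u' ζ') :
    CEq G.F c c'' O id (fun x b a => B.P b a x) B.l (fun x => u' x ∘L u x) (ζ' * ζ) := by
  have := ceq_trans (lg_refl hB hG hO) (lg_refl hB hG hO) (Set.mapsTo_id O) h h' h'' e e'
  have h1 : (fun x d a => ∑ b, B.P d b (id x) * B.P b a x) = fun x b a => B.P b a x :=
    funext fun y => funext fun a => funext fun b => (hB.pr y).idem a b
  have h2 : (fun x => B.l (id x) ∘L B.l x) = B.l := funext fun y => hB.lidem y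
  rw [h1, h2] at this
  exact this

theorem isoOn_refl (hB : B.OK I) (hG : G.OK B) (hO : IsOpen O) (h : Ad0 c B G) :
    IsoOn B G.F O c c := ⟨_, _, ceq_refl hB hG h hO⟩

theorem IsoOn.symm (hB : B.OK I) (hG : G.OK B) (hO : IsOpen O) {c' : Cfg M ι lam r}
    (h : Ad0 c B G) (h' : Ad0 c' B G) (e : IsoOn B G.F O c c') : IsoOn B G.F O c' c :=
  let ⟨_, _, e⟩ := e
  ⟨_, _, ceq_symm_id hB hG hO h h' e⟩

theorem IsoOn.trans (hB : B.OK I) (hG : G.OK B) (hO : IsOpen O) {c' c'' : Cfg M ι lam r}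
    (h : Ad0 c B G) (h' : Ad0 c' B G) (h'' : Ad0 c'' B G) (e : IsoOn B G.F O c c')
    (e' : IsoOn B G.F O c' c'') : IsoOn B G.F O c c'' :=
  let ⟨_, _, e⟩ := e
  let ⟨_, _, e'⟩ := e'
  ⟨_, _, ceq_trans_id hB hG hO h h' h'' e e'⟩

end fn

/-! ### backgrounds -/

section geq
variable {φ : OpenPartialHomeomorph M M'}

theorem inv_of_geq (g : GEq B G B' G' φ U v) (hO : IsOpen O) (hs : O ⊆ φ.source) :
    Inv I I' φ φ.symm O (φ '' O) where
  opn' := φ.isOpen_image_of_subset_source hO hs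
  maps := Set.mapsTo_image _ _
  maps' := by
    rintro _ ⟨x, hx, rfl⟩
    rw [φ.left_inv (hs hx)]; exact hx
  linv x hx := φ.left_inv (hs hx)
  rinv := by
    rintro _ ⟨x, hx, rfl⟩
    rw [φ.left_inv (hs hx)]
  sψ := by
    rintro _ ⟨x, hx, rfl⟩
    exact g.sm'.contMDiffAt (φ.open_target.mem_nhds (φ.map_source (hs hx)))

theorem inv_of_geq' (g : GEq B G B' G' φ U v) : Inv I I' φ φ.symm φ.source φ.target :=
  φ.image_source_eq_target ▸ inv_of_geq g φ.open_source subset_rfl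

/-- `GEq` from its local content and the measure -/
theorem LG.geq (g : LG B G B' G' φ.source φ U v) (h : ContMDiffOn I' I ∞ φ.symm φ.target)
    (hμ : (G.F.μ.restrict φ.source).map φ = G'.F.μ.restrict φ.target) : GEq B G B' G' φ U v where
  sm x hx := (g.rot.sφ x hx).contMDiffWithinAt
  sm' := h
  sU b a x hx := (g.rot.sU b a x hx).contMDiffWithinAt
  sv x hx := (g.sv x hx).contMDiffWithinAt
  UU x hx := (g.be x hx).UU
  UU' x hx := (g.be x hx).UU'
  e x hx b := by rw [g.rot.fr b x hx, map_sum]; simp only [map_smul]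
  μ := hμ
  o x hx := (g.be x hx).o
  vv x hx := (g.be x hx).vv
  vv' x hx := (g.be x hx).vv'
  il x hx := (g.be x hx).il
  par x hx a := sub_eq_zero.2 (g.par x hx a)

theorem geq_refl (hB : B.OK I) (hG : G.OK B) :
    GEq B G B G (OpenPartialHomeomorph.refl M) (fun x b a => B.P b a x) B.l :=
  LG.geq (φ := OpenPartialHomeomorph.refl M) (lg_refl hB hG isOpen_univ) contMDiffOn_id
    Measure.map_id

end geq

end Crest.Agent.X212.Eqv71
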