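import Crest.Agent.X212.Eqv71.Wpt
import Crest.Agent.X212.Dgr80.Tr

/-! Naturality and additivity of the gradient engine of `Dgr80` in arbitrary fibres. -/

set_option autoImplicit false
set_option linter.unusedSectionVars false

open scoped Manifold ContDiff Topology InnerProductSpace
open Finset Filter MeasureTheory

noncomputable section
namespace Crest.Agent.X212.Eqv71
open An Wz78 Sob92 Mp86 Dgr80
open Wrd81 (wd)
open ContinuousLinearMap (adjoint)

variable {E : Type} [NormedAddCommGroup E] [NormedSpace ℝ E] [FiniteDimensional ℝ E]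
  [MeasurableSpace E] [BorelSpace E]
  {HM : Type} [TopologicalSpace HM] {I : ModelWithCorners ℝ E HM} [I.Boundaryless]
  {M : Type} [TopologicalSpace M] [ChartedSpace HM M] [IsManifold I ∞ M]
  [MeasurableSpace M] [BorelSpace M] [T2Space M] {ι : Type} [Fintype ι] {lam : Type} [Fintype lam]
  {E' : Type} [NormedAddCommGroup E'] [NormedSpace ℝ E'] [FiniteDimensional ℝ E']
  [MeasurableSpace E'] [BorelSpace E']
  {HM' : Type} [TopologicalSpace HM'] {I' : ModelWithCorners ℝ E' HM'} [I'.Boundaryless]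
  {M' : Type} [TopologicalSpace M'] [ChartedSpace HM' M'] [IsManifold I' ∞ M']
  [MeasurableSpace M'] [BorelSpace M'] [T2Space M'] {ι' : Type} [Fintype ι'] {lam' : Type}
  [Fintype lam']
  {B : Base M ι lam} {G : Geo I M ι lam} {B' : Base M' ι' lam'} {G' : Geo I' M' ι' lam'}
  {O : Set M} {O' : Set M'} {φ : M → M'} {ψ : M' → M}
  {U : M → ι' → ι → ℝ} {v : M → CL (Eu lam) (Eu lam')} {x : M}
  {V V' X X' : Type} [NormedAddCommGroup V] [InnerProductSpace ℝ V] [CompleteSpace V]
  [NormedAddCommGroup V'] [InnerProductSpace ℝ V'] [CompleteSpace V']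
  [NormedAddCommGroup X] [InnerProductSpace ℝ X] [CompleteSpace X]
  [NormedAddCommGroup X'] [InnerProductSpace ℝ X'] [CompleteSpace X']
  {A : ι → M → CL V V} {A' : ι' → M' → CL V' V'} {T : M → CL V V'}
  {s t l : M → V} {s' t' l' : M' → V'}

/-- related sections which vanish off `O`, `O'` -/
structure RS (O : Set M) (O' : Set M') (φ : M → M') (T : M → CL V V') (s : M → V) (s' : M' → V') :
    Prop where
  rel : ∀ x ∈ O, s' (φ x) = T x (s x)
  p : ∀ x ∈ O, adjoint (T x) (T x (s x)) = s x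
  off : ∀ x ∉ O, s x = 0
  off' : ∀ y ∉ O', s' y = 0

namespace RS

theorem zero : RS O O' φ T 0 0 :=
  ⟨fun _ _ => (map_zero _).symm, fun _ _ => by simp, fun _ _ => rfl, fun _ _ => rfl⟩

theorem add (h : RS O O' φ T s s') (k : RS O O' φ T t t') :
    RS O O' φ T (fun x => s x + t x) fun y => s' y + t' y :=
  ⟨fun x hx => by rw [h.rel x hx, k.rel x hx, map_add],
    fun x hx => by rw [map_add, map_add, h.p x hx, k.p x hx],
    fun x hx => by rw [h.off x hx, k.off x hx, add_zero],
    fun x hx => by rw [h.off' x hx, k.off' x hx, add_zero]⟩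

theorem smul (h : RS O O' φ T s s') {f : M → ℝ} {f' : M' → ℝ} (hf : FR O φ f f') :
    RS O O' φ T (fun x => f x • s x) fun y => f' y • s' y :=
  ⟨fun x hx => by rw [h.rel x hx, map_smul, ← hf hx]; rfl,
    fun x hx => by rw [map_smul, map_smul, h.p x hx],
    fun x hx => by rw [h.off x hx, smul_zero], fun x hx => by rw [h.off' x hx, smul_zero]⟩

theorem sub (h : RS O O' φ T s s') (k : RS O O' φ T t t') :
    RS O O' φ T (fun x => s x - t x) fun y => s' y - t' y :=
  ⟨fun x hx => by rw [h.rel x hx, k.rel x hx, map_sub],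
    fun x hx => by rw [map_sub, map_sub, h.p x hx, k.p x hx],
    fun x hx => by rw [h.off x hx, k.off x hx, sub_zero],
    fun x hx => by rw [h.off' x hx, k.off' x hx, sub_zero]⟩

theorem sum {K : Type*} (S : Finset K) {s : K → M → V} {s' : K → M' → V'}
    (h : ∀ k ∈ S, RS O O' φ T (s k) (s' k)) :
    RS O O' φ T (fun x => ∑ k ∈ S, s k x) fun y => ∑ k ∈ S, s' k y :=
  ⟨fun x hx => by rw [map_sum]; exact sum_congr rfl fun k hk => (h k hk).rel x hx,
    fun x hx => by rw [map_sum, map_sum]; exact sum_congr rfl fun k hk => (h k hk).p x hx,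
    fun x hx => sum_eq_zero fun k hk => (h k hk).off x hx,
    fun x hx => sum_eq_zero fun k hk => (h k hk).off' x hx⟩

theorem inner (h : RS O O' φ T s s') (k : RS O O' φ T t t') (hx : x ∈ O) :
    ⟪s' (φ x), t' (φ x)⟫_ℝ = ⟪s x, t x⟫_ℝ := by
  rw [h.rel x hx, k.rel x hx, ← ContinuousLinearMap.adjoint_inner_right, k.p x hx]

theorem norm (h : RS O O' φ T s s') (hx : x ∈ O) : ‖s' (φ x)‖ = ‖s x‖ := by
  rw [norm_eq_sqrt_real_inner, h.inner h hx, ← norm_eq_sqrt_real_inner]

theorem congr (h : RS O O' φ T s s') (e : ∀ x, t x = s x) (e' : ∀ y, t' y = s' y) :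
    RS O O' φ T t t' := by rw [funext e, funext e']; exact h

end RS

/-- an intertwiner whose adjoint is an intertwiner -/
structure EP (B : Base M ι lam) (G : Geo I M ι lam) (B' : Base M' ι' lam')
    (G' : Geo I' M' ι' lam') (O : Set M) (O' : Set M') (φ : M → M') (ψ : M' → M)
    (U : M → ι' → ι → ℝ) (A : ι → M → CL V V) (A' : ι' → M' → CL V' V') (T : M → CL V V') :
    Prop where
  t : IT G B' I' O φ U A A' T
  t' : IT G' B I O' ψ (fun y a b => U (ψ y) b a) A' A fun y => adjoint (T (ψ y))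

/-- related letters -/
def SLR (O : Set M) (O' : Set M') (φ : M → M') (T : M → CL V V') : SL M V → SL M' V' → Prop
  | .op S, .op S' => ∀ ⦃s s'⦄, RS O O' φ T s s' →
      RS O O' φ T (fun x => S x (s x)) (fun y => S' y (s' y)) ∧
      RS O O' φ T (fun x => adjoint (S x) (s x)) fun y => adjoint (S' y) (s' y)
  | .G, .G => True
  | _, _ => False

theorem adj_smul_one (r : ℝ) (a : V) : adjoint (r • (1 : CL V V)) a = r • a :=
  ext_inner_right ℝ fun b => by
    simp [ContinuousLinearMap.adjoint_inner_left, real_inner_smul_left]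

theorem slr_mul {f : M → ℝ} {f' : M' → ℝ} (hf : FR O φ f f') :
    SLR O O' φ T (.op fun x => f x • (1 : CL V V)) (.op fun y => f' y • (1 : CL V' V')) :=
  fun _ _ h => ⟨h.smul hf, (h.smul hf).congr (fun _ => adj_smul_one _ _) fun _ => adj_smul_one _ _⟩

/-- the representations are intertwined -/
def RR (O : Set M) (T : M → CL V V') (S : M → CL X X') (r : CL X (CL V V))
    (r' : CL X' (CL V' V')) : Prop :=
  ∀ x ∈ O, ∀ a b, adjoint (T x) (T x a) = a → tp r' (T x a) (T x b) = S x (tp r a b)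

/-- related one-forms -/
def R1 (O : Set M) (φ : M → M') (U : M → ι' → ι → ℝ) (S : M → CL X X') (α : M → Fm ι X)
    (α' : M' → Fm ι' X') : Prop := ∀ x ∈ O, α' (φ x) = ridx (U x) (S x) (α x)

section r1
variable {S : M → CL X X'} {α β : M → Fm ι X} {α' β' : M' → Fm ι' X'}

theorem R1.zero : R1 O φ U S 0 0 := fun _ _ => (map_zero _).symm

theorem R1.add (h : R1 O φ U S α α') (k : R1 O φ U S β β') :
    R1 O φ U S (fun x => α x + β x) fun y => α' y + β' y := fun x hx => by
  simp only [h x hx, k x hx, map_add]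

theorem R1.sub (h : R1 O φ U S α α') (k : R1 O φ U S β β') :
    R1 O φ U S (fun x => α x - β x) fun y => α' y - β' y := fun x hx => by
  simp only [h x hx, k x hx, map_sub]

theorem R1.sum {K : Type*} (Z : Finset K) {α : K → M → Fm ι X} {α' : K → M' → Fm ι' X'}
    (h : ∀ k ∈ Z, R1 O φ U S (α k) (α' k)) :
    R1 O φ U S (fun x => ∑ k ∈ Z, α k x) fun y => ∑ k ∈ Z, α' k y := fun x hx => by
  simp only [map_sum]; exact sum_congr rfl fun k hk => h k hk x hx

end r1

namespace EP
variable (e : EP B G B' G' O O' φ ψ U A A' T) (g : KC B G B' G' O O' φ ψ U v)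
include e g

theorem res (h : RS O O' φ T s s') : RS O O' φ T (G.F.res A s) (G'.F.res A' s') := by
  have := res_rel g e.t e.t' (fun x hx => ⟨h.rel x hx, by rw [g.inv.linv x hx]; exact h.p x hx⟩)
    (ex_off h.off) (ex_off h.off')
  exact ⟨fun x hx => (this x hx).1, fun x hx => by simpa only [g.inv.linv x hx] using (this x hx).2,
    fun x hx => res_off g.clopen g.bu e.t.mc h.off hx,
    fun y hy => res_off g.clopen' g.bu' e.t.mc' h.off' hy⟩

theorem nab (h : RS O O' φ T s s') (hs : Sm I s) (hs' : Sm I' s') (hx : x ∈ O) (b : ι') :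
    nab I' G'.F.e A' b s' (φ x) = ∑ a, U x b a • T x (nab I G.F.e A a s x) :=
  g.toLG.nab hx ⟨fun a y => e.t.mc'.sm a y, e.t.pj⟩ (e.t.sT x hx) (e.t.it x hx) (hs x) (hs' _)
    ((g.rot.ev hx).mono h.rel) b

theorem sl {a : SL M V} {a' : SL M' V'} (ha : SLR O O' φ T a a') (h : RS O O' φ T s s') :
    RS O O' φ T (sl G.F A a s) (sl G'.F A' a' s') := by
  cases a <;> cases a'
  exacts [(ha h).1, ha.elim, ha.elim, e.res g h]

theorem slT {a : SL M V} {a' : SL M' V'} (ha : SLR O O' φ T a a') (h : RS O O' φ T s s') :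
    RS O O' φ T (slT G.F A a s) (slT G'.F A' a' s') := by
  cases a <;> cases a'
  exacts [(ha h).2, ha.elim, ha.elim, e.res g h]

variable {w : List (SL M V)} {w' : List (SL M' V')}

theorem wd (hw : List.Forall₂ (SLR O O' φ T) w w') (h : RS O O' φ T s s') :
    RS O O' φ T (wd (Dgr80.sl G.F A) s w) (wd (Dgr80.sl G'.F A') s' w') := by
  induction hw with
  | nil => exact h
  | cons ha _ ih => exact e.sl g ha ih

theorem bk (hw : List.Forall₂ (SLR O O' φ T) w w') : ∀ {l l'}, RS O O' φ T l l' →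
    RS O O' φ T (bk G.F A w l) (bk G'.F A' w' l') := by
  induction hw with
  | nil => exact fun h => h
  | cons ha _ ih => exact fun h => ih (e.slT g ha h)

variable {S : M → CL X X'} {r : CL X (CL V V)} {r' : CL X' (CL V' V')} (hr : RR O T S r r')
include hr

theorem cur (h : RS O O' φ T s s') (hs : Sm I s) (hs' : Sm I' s') (k : RS O O' φ T l l')
    (hl : Sm I l) (hl' : Sm I' l') : R1 O φ U S (cur G.F A r s l) (cur G'.F A' r' s' l') :=
  fun x hx => by
    refine PiLp.ext fun b => ?_
    have tl : ∀ (a : V') (f : ι → V'), tp r' a (∑ i, U x b i • f i) = ∑ i, U x b i • tp r' a (f i) :=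
      fun a f => by simp only [tp, map_sum, map_smul]
    simp only [Dgr80.cur, ridx_apply, e.nab g h hs hs' hx, e.nab g k hl hl' hx, tl, h.rel x hx,
      k.rel x hx, hr x hx _ _ (h.p x hx), hr x hx _ _ (k.p x hx), map_add, smul_add, sum_add_distrib]

theorem gc (hw : List.Forall₂ (SLR O O' φ T) w w') (h : RS O O' φ T s s') :
    ∀ {l l'}, RS O O' φ T l l' → R1 O φ U S (gc G.F A r s w l) (gc G'.F A' r' s' w' l') := by
  induction hw with
  | nil => exact fun _ => R1.zero
  | @cons a a' w w' ha hw ih =>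
    intro l l' k
    cases a <;> cases a'
    · exact ih (e.slT g ha k)
    · exact ha.elim
    · exact ha.elim
    · exact (ih (e.res g k)).sub (e.cur g hr (e.res g (e.wd g hw h)) (sm_res _ _ _) (sm_res _ _ _)
        (e.res g k) (sm_res _ _ _) (sm_res _ _ _))

end EP

/-! ### additivity on smooth bounded sections -/

variable (I) in
/-- smooth and bounded -/
structure Sb {N : Type} [NormedAddCommGroup N] [NormedSpace ℝ N] (u : M → N) : Prop where
  sm : Sm I u
  bd : ∃ C, ∀ x, ‖u x‖ ≤ C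

section sb
variable {N N' N'' : Type} [NormedAddCommGroup N] [NormedSpace ℝ N] [NormedAddCommGroup N']
  [NormedSpace ℝ N'] [NormedAddCommGroup N''] [NormedSpace ℝ N''] {a b : M → N} {F : Fr I M ι}

theorem Sb.of_cb (h : F.Cb a) : Sb I a := ⟨h.choose_spec.1, _, CB_zero.1 (h.choose_spec.2 0)⟩

theorem sb_res (F : Fr I M ι) (A : ι → M → CL V V) (a : M → V) : Sb I (F.res A a) :=
  ⟨sm_res _ _ _, bdd_res _ _ _⟩

theorem sb_const (c : N) : Sb I fun _ : M => c := ⟨contMDiff_const, _, fun _ => le_rfl⟩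

theorem Sb.add (h : Sb I a) (k : Sb I b) : Sb I fun x => a x + b x :=
  let ⟨C, hC⟩ := h.bd
  let ⟨D, hD⟩ := k.bd
  ⟨h.sm.add k.sm, C + D, fun x => norm_add_le_of_le (hC x) (hD x)⟩

theorem Sb.bil (L : N →L[ℝ] N' →L[ℝ] N'') {b : M → N'} (h : Sb I a) (k : Sb I b) :
    Sb I fun x => L (a x) (b x) :=
  let ⟨C, hC⟩ := h.bd
  let ⟨D, hD⟩ := k.bd
  ⟨(L.contMDiff.comp h.sm).clm_apply k.sm, ‖L‖ * C * D, fun x =>
    (L.le_opNorm₂ _ _).trans (by
      have := (norm_nonneg _).trans (hC x)
      gcongr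
      exacts [hC x, hD x])⟩

theorem Sb.clm (L : N →L[ℝ] N') (h : Sb I a) : Sb I fun x => L (a x) :=
  let ⟨C, hC⟩ := h.bd
  ⟨L.contMDiff.comp h.sm, ‖L‖ * C, fun x => L.le_of_opNorm_le_of_le le_rfl (hC x)⟩

theorem Sb.app {T : M → N →L[ℝ] N'} (h : Sb I T) (k : Sb I a) : Sb I fun x => T x (a x) :=
  Sb.bil (ContinuousLinearMap.id ℝ (N →L[ℝ] N')) h k

theorem Sb.smul {f : M → ℝ} (h : Sb I f) (k : Sb I a) : Sb I fun x => f x • a x :=
  Sb.bil (ContinuousLinearMap.lsmul ℝ ℝ) h k

theorem Sb.neg (h : Sb I a) : Sb I fun x => -a x := h.clm (-ContinuousLinearMap.id ℝ N)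

theorem Sb.sum {K : Type*} (Z : Finset K) {a : K → M → N} (h : ∀ k ∈ Z, Sb I (a k)) :
    Sb I fun x => ∑ k ∈ Z, a k x := by
  classical
  induction Z using Finset.induction_on with
  | empty => simpa using sb_const 0
  | insert j Z hj ih =>
    simp only [sum_insert hj]
    exact (h j (by simp)).add (ih fun i hi => h i (by simp [hi]))

theorem Sb.inner (h : Sb I s) (k : Sb I t) : Sb I fun x => ⟪s x, t x⟫_ℝ := Sb.bil (innerSL ℝ) h k

end sb

section add
variable {F : Fr I M ι}

variable (I) in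
/-- letters which preserve smooth bounded sections -/
def SLb : SL M V → Prop
  | .op S => ∀ ⦃u⦄, Sb I u → Sb I (fun x => S x (u x)) ∧ Sb I fun x => adjoint (S x) (u x)
  | .G => True

theorem slb_mul {f : M → ℝ} (hf : Sb I f) : SLb I (.op fun x => f x • (1 : CL V V)) :=
  fun _ h => ⟨hf.smul h, by simpa only [adj_smul_one] using hf.smul h⟩

theorem Sb.sl {a : SL M V} (ha : SLb I a) (h : Sb I s) : Sb I (sl F A a s) := by
  cases a
  exacts [(ha h).1, sb_res _ _ _]

theorem Sb.slT {a : SL M V} (ha : SLb I a) (h : Sb I s) : Sb I (slT F A a s) := by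
  cases a
  exacts [(ha h).2, sb_res _ _ _]

theorem Sb.wd (h : Sb I s) : ∀ {w : List (SL M V)}, (∀ a ∈ w, SLb I a) →
    Sb I (wd (Dgr80.sl F A) s w)
  | [], _ => h
  | a :: _, hw => (h.wd fun b hb => hw b (by simp [hb])).sl (hw a (by simp))

variable (hB : Bumps I F.e F.dv) (hA : Mc I A) (hE : ∀ u, Sb I u → ∃ w, F.IsRes A u w)
include hB hA hE

theorem slT_add (a : SL M V) (h : Sb I s) (k : Sb I t) :
    slT F A a (fun x => s x + t x) = fun x => slT F A a s x + slT F A a t x := by
  cases a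
  exacts [funext fun x => map_add _ _ _, res_add hB hA (hE _ h) (hE _ k)]

theorem bk_add : ∀ {w : List (SL M V)} {s t : M → V}, (∀ a ∈ w, SLb I a) → Sb I s → Sb I t →
    bk F A w (fun x => s x + t x) = fun x => bk F A w s x + bk F A w t x
  | [], _, _, _, _, _ => rfl
  | a :: w, _, _, hw, h, k => by
    simp only [bk]
    rw [slT_add hB hA hE a h k]
    exact bk_add (fun b hb => hw b (by simp [hb])) (h.slT (hw a (by simp))) (k.slT (hw a (by simp)))

theorem gc_add (r : CL X (CL V V)) (l : M → V) : ∀ {w : List (SL M V)} {s t : M → V},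
    (∀ a ∈ w, SLb I a) → Sb I s → Sb I t →
    gc F A r l w (fun x => s x + t x) = fun x => gc F A r l w s x + gc F A r l w t x
  | [], _, _, _, _, _ => funext fun _ => (add_zero _).symm
  | .op S :: w, _, _, hw, h, k => by
    simp only [gc]
    rw [slT_add hB hA hE _ h k]
    exact gc_add r l (fun b hb => hw b (by simp [hb])) (h.slT (hw _ (by simp)))
      (k.slT (hw _ (by simp)))
  | .G :: w, s, t, hw, h, k => by
    simp only [gc]
    rw [res_add hB hA (hE _ h) (hE _ k),
      gc_add r l (fun b hb => hw b (by simp [hb])) (sb_res _ _ _) (sb_res _ _ _)]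
    funext x
    have : ∀ u, cur F A r u (fun x => F.res A s x + F.res A t x) x
        = cur F A r u (F.res A s) x + cur F A r u (F.res A t) x := fun u => by
      refine PiLp.ext fun a => ?_
      have e := Sob92.dv_add (e := F.e a) (SA.md (sm_res F A s x)) (SA.md (sm_res F A t x))
      simp only [cur, nab, PiLp.add_apply, tp, map_add, add_apply]
      erw [e]
      simp only [map_add]
      abel
    rw [this, add_sub_add_comm]

end add

end Crest.Agent.X212.Eqv71
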