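import Crest.Agent.X212.Eqv71.Wpt

/-! Related configurations and perturbations without any assumption off `O`. -/

set_option autoImplicit false
set_option linter.unusedSectionVars false

open scoped Manifold ContDiff Topology InnerProductSpace
open Finset Filter MeasureTheory

noncomputable section
namespace Crest.Agent.X212.Eqv71
open An Wz78 Sob92 Mp86
open Wrd81 (wd)

variable {E : Type} [NormedAddCommGroup E] [NormedSpace ℝ E] [FiniteDimensional ℝ E]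
  [MeasurableSpace E] [BorelSpace E]
  {HM : Type} [TopologicalSpace HM] {I : ModelWithCorners ℝ E HM} [I.Boundaryless]
  {M : Type} [TopologicalSpace M] [ChartedSpace HM M] [IsManifold I ∞ M]
  [MeasurableSpace M] [BorelSpace M] [T2Space M] {ι : Type} [Fintype ι] {lam : Type} [Fintype lam]
  {E' : Type} [NormedAddCommGroup E'] [NormedSpace ℝ E'] [FiniteDimensional ℝ E']
  [MeasurableSpace E'] [BorelSpace E']
  {HM' : Type} [TopologicalSpace HM'] {I' : ModelWithCorners ℝ E' HM'} [I'.Boundaryless]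
  {M' : Type} [TopologicalSpace M'] [ChartedSpace HM' M'] [IsManifold I' ∞ M']
  [MeasurableSpace M'] [BorelSpace M'] [T2Space M'] {ι' : Type} [Fintype ι'] {lam' : Type}
  [Fintype lam']
  {B : Base M ι lam} {G : Geo I M ι lam} {B' : Base M' ι' lam'} {G' : Geo I' M' ι' lam'}
  {O : Set M} {O' : Set M'} {φ : M → M'} {ψ : M' → M}
  {U : M → ι' → ι → ℝ} {v : M → CL (Eu lam) (Eu lam')} {x : M}
  {r n : ℕ} {c : Cfg M ι lam r} {c' : Cfg M' ι' lam' r} {u : M → CL c.m.V c'.m.V} {ζ : Circle}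

/-- related configurations -/
structure CR0 (B : Base M ι lam) (G : Geo I M ι lam) (B' : Base M' ι' lam') (G' : Geo I' M' ι' lam')
    (O : Set M) (O' : Set M') (φ : M → M') (U : M → ι' → ι → ℝ) (v : M → CL (Eu lam) (Eu lam'))
    (c : Cfg M ι lam r) (c' : Cfg M' ι' lam' r) (u : M → CL c.m.V c'.m.V) (ζ : Circle) : Prop where
  adm : Ad0 c B G
  adm' : Ad0 c' B' G'
  off : ∀ x ∉ O, c.Φ x = 0
  off' : ∀ y ∉ O', c'.Φ y = 0
  e : CEq G.F c c' O φ U v u ζ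

theorem CR.to0 (k : CR B G B' G' O O' φ U v c c' u ζ) : CR0 B G B' G' O O' φ U v c c' u ζ :=
  ⟨k.adm, k.adm', k.off, k.off', k.e⟩

theorem cr0_univ (h : Ad0 c B G) (h' : Ad0 c' B' G') (e : CEq G.F c c' Set.univ φ U v u ζ) :
    CR0 B G B' G' Set.univ Set.univ φ U v c c' u ζ := (cr_univ h h' e).to0

theorem cr0_refl (hB : B.OK I) (hG : G.OK B) (hO : IsOpen O) (h : Ad0 c B G)
    (h0 : ∀ x ∉ O, c.Φ x = 0) : CR0 B G B G O O id (fun x b a => B.P b a x) B.l c c c.m.p 1 :=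
  ⟨h, h, h0, h0, ceq_refl hB hG h hO⟩

theorem CR0.symm (k : CR0 B G B' G' O O' φ U v c c' u ζ) (g : LG B G B' G' O φ U v)
    (i : Inv I I' φ ψ O O') : CR0 B' G' B G O' O ψ (fun y a b => U (ψ y) b a)
      (fun y => trn (v (ψ y))) c' c (fun y => trn (u (ψ y))) ζ⁻¹ :=
  ⟨k.adm', k.adm, k.off', k.off, ceq_symm g i k.adm k.adm' k.e⟩

namespace CR0
variable (k : CR0 B G B' G' O O' φ U v c c' u ζ) (g : KC B G B' G' O O' φ ψ U v)
include k g

theorem lm : LM B G B' G' O φ U v c.W c'.W u := g.toLG.of_ceq k.adm k.adm' k.e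

theorem lz : LM B G B' G' O φ U (fun x => csL B'.il (ζ * ζ : Circle) ∘L v x) c.W c'.W (uz u ζ) :=
  (k.lm g).phase ζ

theorem rv : RV O O' φ (uz u ζ) c.Φ c'.Φ := ⟨k.e.Φ, fun x _ => p_Φ k.adm x, k.off, k.off'⟩

theorem sw {w : SW M} {w' : SW M'} (hw : SWR O φ w w') (ok' : w'.OK G'.F) :
    RV O O' φ (uz u ζ) (c.sw G.F w) (c'.sw G'.F w') := sw_rel g (k.lz g) (k.rv g) hw ok'

theorem j {s : M → Eu lam} {s' : M' → Eu lam'} (hs : SR O φ v s s') (hx : x ∈ O) (a : c.m.V) :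
    c'.m.j (φ x) (s' (φ x)) (uz u ζ x a)
      = cs c'.m.J (starRingEnd ℂ ζ * starRingEnd ℂ ζ) (uz u ζ x (c.m.j x (s x) a)) := by
  have b := g.be x hx
  have h1 : c'.m.j (φ x) (s' (φ x)) = c'.m.j (φ x) (v x (s x)) := by
    rw [← k.adm'.ok.jl, ← b.vv', ContinuousLinearMap.comp_apply, hs x hx,
      ← ContinuousLinearMap.comp_apply (v x) (trn (v x)), b.vv', k.adm'.ok.jl]
  have h2 : (ζ : ℂ) * starRingEnd ℂ ζ = 1 := by rw [Complex.mul_conj, Circle.normSq_coe]; rfl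
  simp only [ContinuousLinearMap.comp_apply, csL_apply]
  rw [h1, ME.cs_j k.adm'.ok, ((k.lm g).me x hx).j_apply, cs_mul k.adm'.ok.Jsq, mul_assoc,
    mul_comm _ (ζ : ℂ), h2, mul_one]

theorem sg {a : Sg M lam} {a' : Sg M' lam'} (ha : SgR O φ v a a') (ok' : a'.OK G'.F) :
    c'.sg G'.F a' = (ζ : ℂ) ^ 2 * c.sg G.F a := by
  have k1 := k.sw g ha.u ok'.2.2.1
  have k2 := k.sw g ha.v ok'.2.2.2
  rw [Cfg.sg, Cfg.sg, ← integral_const_mul]
  refine g.toKG.integral_off (fun x hx => ?_) (fun x hx => ?_) fun y hy => ?_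
  · rw [k1.rel x hx, k2.rel x hx, k.j g ha.s hx, hm_cs_left k.adm'.ok.Jsq k.adm'.ok.Jsk,
      ((k.lz g).me x hx).hm k.adm.ok _ (k2.p x hx), map_mul, Complex.conj_conj, sq]
  · rw [k2.off x hx]; simp [hm, Complex.ext_iff]
  · rw [k2.off' y hy]; simp [hm, Complex.ext_iff]

theorem co {d : Co M lam r} {d' : Co M' lam' r} (hd : CoR O φ v d d') (ok' : d'.OK G'.F) :
    c'.co G'.F d' = (ζ : ℂ) ^ 2 * c.co G.F d := by
  cases hd with
  | z i => simp only [Cfg.co, k.e.z, PiLp.smul_apply, smul_eq_mul]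
  | @s a a' L L' ha hL =>
    have hn : ∀ a a', SgR O φ v a a' → True → Sg.OK G'.F a' →
        ‖c'.sg G'.F a'‖ ^ 2 = ‖c.sg G.F a‖ ^ 2 := fun a a' h _ o => by
      rw [k.sg g h o, norm_mul, norm_pow, Circle.norm_coe, one_pow, one_mul]
    simp only [Cfg.co]
    rw [hn a a' ha trivial ok'.1, map_eq₂ hn hL (fun _ _ => trivial) ok'.2, k.sg g ha ok'.1,
      mul_div_assoc]

/-- the weight zero spinors `d • j s w` -/
theorem cjw {d : Co M lam r} {d' : Co M' lam' r} (hd : CoR O φ v d d') (okd : d'.OK G'.F)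
    {s : M → Eu lam} {s' : M' → Eu lam'} (hs : SR O φ v s s') {w : SW M} {w' : SW M'}
    (hw : SWR O φ w w') (ok' : w'.OK G'.F) : RV O O' φ (uz u ζ)
      (fun x => cs c.m.J (c.co G.F d) (c.m.j x (s x) (c.sw G.F w x)))
      fun y => cs c'.m.J (c'.co G'.F d') (c'.m.j y (s' y) (c'.sw G'.F w' y)) := by
  have k1 := k.sw g hw ok'
  refine ⟨fun x hx => ?_, fun x _ => ?_, fun x hx => by simp [k1.off x hx, cs],
    fun x hx => by simp [k1.off' x hx, cs]⟩
  · rw [k1.rel x hx, k.j g hs hx, k.co g hd okd, cs_mul k.adm'.ok.Jsq, mul_right_comm, circ_sq,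
      one_mul, ((k.lz g).me x hx).cs]
  · rw [map_cs (k.adm.ok.Jp x).symm, ← mul_apply_eq_comp, k.adm.ok.pj]

theorem pm {s : M → c.m.V} {s' : M' → c'.m.V} (h : RV O O' φ (uz u ζ) s s') (hx : x ∈ O) :
    c'.m.pm B' (φ x) (s' (φ x)) = cs c'.m.J ζ (u x (c.m.pm B x (s x))) := by
  rw [h.rel x hx]
  exact ((k.lz g).me x hx).pm ((k.lz g).be x hx) g.hB g.hB' k.adm.ok _

theorem tD {t : Tm M lam r n} {t' : Tm M' lam' r n} (ht : TmR O φ v t t') (ok' : t'.OK G'.F)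
    (hx : x ∈ O) : c'.tD B' G'.F t' (φ x) = cs c'.m.J ζ (u x (c.tD B G.F t x)) := by
  cases ht with
  | lin ha => exact k.pm g (k.sw g ha ok') hx
  | anti hd hs ha => exact k.pm g (k.cjw g hd ok'.1 hs ha ok'.2.2) hx
  | _ => simp [Cfg.tD, cs]

theorem tS {t : Tm M lam r n} {t' : Tm M' lam' r n} (ht : TmR O φ v t t') (ok' : t'.OK G'.F)
    (i : Fin n) : c'.tS G'.F t' i = (ζ : ℂ) ^ 2 * c.tS G.F t i := by
  have key : ∀ (j : Fin n) (a b : ℂ), b = (ζ : ℂ) ^ 2 * a →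
      (Pi.single j b : Fin n → ℂ) i = (ζ : ℂ) ^ 2 * (Pi.single j a : Fin n → ℂ) i := by
    rintro j a b rfl
    by_cases h : i = j
    · subst h; simp
    · simp [h]
  cases ht with
  | cut j w ha => exact key j _ _ (by rw [k.sg g ha ok']; ring)
  | cz j w l => exact key j _ _ (by simp only [k.e.z, PiLp.smul_apply, smul_eq_mul]; ring)
  | _ => exact (mul_zero _).symm

/-- self-dual parts of related two-tensors -/
theorem p2' (hx : x ∈ O) {ξ : Fm (ι × ι) c.m.A} {ξ' : Fm (ι' × ι') c'.m.A}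
    (h : ξ' = ridx (sq2 (U x)) (cj (uz u ζ x)) ξ) :
    c'.m.p2 B' (φ x) ξ' = ridx (sq2 (U x)) (cj (u x)) (c.m.p2 B x ξ) := by
  rw [h, ((k.lz g).me x hx).p2 ((k.lz g).be x hx) g.hB g.hB' k.adm.ok k.adm'.ok]
  exact ridx_congr _ fun t => cj_phase ((k.lm g).me x hx) k.adm.ok k.adm'.ok ζ (p2_mem x _ t)

end CR0

/-- related perturbations, for all configurations -/
structure PRel0 (B : Base M ι lam) (G : Geo I M ι lam) (B' : Base M' ι' lam')
    (G' : Geo I' M' ι' lam') (O : Set M) (O' : Set M') (φ : M → M') (U : M → ι' → ι → ℝ)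
    (v : M → CL (Eu lam) (Eu lam')) (τ : Pt M ι lam r n) (τ' : Pt M' ι' lam' r n) : Prop where
  D : ∀ {c c' u ζ}, CR0 B G B' G' O O' φ U v c c' u ζ → ∀ x ∈ O,
    τ'.D c' (φ x) = cs c'.m.J ζ (u x (τ.D c x))
  C : ∀ {c c' u ζ}, CR0 B G B' G' O O' φ U v c c' u ζ → ∀ x ∈ O,
    τ'.C c' (φ x) = ridx (sq2 (U x)) (cj (u x)) (τ.C c x)
  S : ∀ {c c' u ζ}, CR0 B G B' G' O O' φ U v c c' u ζ → ∀ i, τ'.S c' i = (ζ : ℂ) ^ 2 * τ.S c i

/-- natural perturbations -/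
abbrev PNat0 (B : Base M ι lam) (G : Geo I M ι lam) (O : Set M) (τ : Pt M ι lam r n) : Prop :=
  PRel0 B G B G O O id (fun x b a => B.P b a x) B.l τ τ

variable {τ σ : Pt M ι lam r n} {τ' σ' : Pt M' ι' lam' r n}

theorem PRel0.rel (p : PRel0 B G B' G' O O' φ U v τ τ') : PRel B G B' G' O O' φ U v τ τ' :=
  ⟨fun k => p.D k.to0, fun k => p.C k.to0, fun k => p.S k.to0⟩

theorem PRel.univ0 (p : PRel B G B' G' Set.univ Set.univ φ U v τ τ') :
    PRel0 B G B' G' Set.univ Set.univ φ U v τ τ' :=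
  ⟨fun k => p.D (cr_univ k.adm k.adm' k.e), fun k => p.C (cr_univ k.adm k.adm' k.e),
    fun k => p.S (cr_univ k.adm k.adm' k.e)⟩

theorem PRel0.add (p : PRel0 B G B' G' O O' φ U v τ τ') (q : PRel0 B G B' G' O O' φ U v σ σ') :
    PRel0 B G B' G' O O' φ U v (τ.add σ) (τ'.add σ') where
  D k x hx := by
    simp only [Pt.add, p.D k x hx, q.D k x hx, map_add, ← csL_apply]
  C k x hx := by simp only [Pt.add, p.C k x hx, q.C k x hx, map_add]
  S k i := by simp only [Pt.add, p.S k i, q.S k i, mul_add]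

theorem PRel0.eD (p : PRel0 B G B' G' O O' φ U v τ τ') (g : LG B G B' G' O φ U v)
    (k : CR0 B G B' G' O O' φ U v c c' u ζ) (hx : x ∈ O) :
    c'.eD G' τ' (φ x) = cs c'.m.J ζ (u x (c.eD G τ x)) :=
  ceq_eD g k.adm k.adm' k.e hx (p.D k x hx)

theorem PRel0.eC (p : PRel0 B G B' G' O O' φ U v τ τ') (g : LG B G B' G' O φ U v)
    (k : CR0 B G B' G' O O' φ U v c c' u ζ) (hx : x ∈ O) :
    c'.eC B' G' τ' (φ x) = ridx (sq2 (U x)) (cj (u x)) (c.eC B G τ x) :=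
  ceq_eC g k.adm k.adm' k.e hx (p.C k x hx)

/-- perturbations which vanish over `O` and `O'` -/
theorem prel0_zero (hm : Set.MapsTo φ O O') (h : ∀ c, ∀ x ∈ O, τ.D c x = 0 ∧ τ.C c x = 0)
    (h' : ∀ c, ∀ y ∈ O', τ'.D c y = 0 ∧ τ'.C c y = 0) (s : ∀ c i, τ.S c i = 0)
    (s' : ∀ c i, τ'.S c i = 0) : PRel0 B G B' G' O O' φ U v τ τ' :=
  ⟨fun _ x hx => by rw [(h _ x hx).1, (h' _ _ (hm hx)).1, map_zero, ← csL_apply, map_zero],
    fun _ x hx => by rw [(h _ x hx).2, (h' _ _ (hm hx)).2, map_zero],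
    fun _ i => by rw [s, s', mul_zero]⟩

/-- finite combinations with constant coefficients -/
theorem prel0_sum {K : Type} (s : Finset K) {τ : K → Pt M ι lam r n}
    {τ' : K → Pt M' ι' lam' r n} (p : ∀ k ∈ s, PRel0 B G B' G' O O' φ U v (τ k) (τ' k)) (a : K → ℝ) :
    PRel0 B G B' G' O O' φ U v
      ⟨fun c x => ∑ k ∈ s, a k • (τ k).D c x, fun c x => ∑ k ∈ s, a k • (τ k).C c x,
        fun c i => ∑ k ∈ s, (a k : ℂ) * (τ k).S c i⟩
      ⟨fun c x => ∑ k ∈ s, a k • (τ' k).D c x, fun c x => ∑ k ∈ s, a k • (τ' k).C c x,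
        fun c i => ∑ k ∈ s, (a k : ℂ) * (τ' k).S c i⟩ where
  D e x hx := by
    simp only [← csL_apply, map_sum, map_smul]
    exact sum_congr rfl fun k hk => by rw [(p k hk).D e x hx]; rfl
  C e x hx := by
    simp only [map_sum, map_smul]
    exact sum_congr rfl fun k hk => by rw [(p k hk).C e x hx]
  S e i := by
    simp only [mul_sum]
    exact sum_congr rfl fun k hk => by rw [(p k hk).S e i]; ring

end Crest.Agent.X212.Eqv71
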